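import Vale.Agent.HDX.Q.LinkCone

/-!
Properties of finite coloured complexes, given by their top faces, and of complexes of subspaces
opposite to a flag, as used in the bounded-degree construction.
-/

namespace Vale.Agent.P067.Full

open Finset Vale.Agent.HDX

variable {α : Type*} [DecidableEq α]

/-- The top faces are rainbow sets for a colouring with `r` colours. -/
def Rainbow (r : ℕ) (col : α → Fin r) (F : Finset (Finset α)) : Prop :=
  F.Nonempty ∧ ∀ τ ∈ F, τ.card = r ∧ Set.InjOn col (τ : Set α)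

/-- Colour-preserving symmetries act transitively on the top faces. -/
def Homog {r : ℕ} (col : α → Fin r) (F : Finset (Finset α)) : Prop :=
  ∀ τ ∈ F, ∀ τ' ∈ F, ∃ e : α ≃ α,
    F.image (Finset.image e) = F ∧ (∀ a, col (e a) = col a) ∧ τ.image e = τ'

/-- A set lies in a top face. -/
def IsFace (F : Finset (Finset α)) (σ : Finset α) : Prop := ∃ τ ∈ F, σ ⊆ τ

/-- Bounded cones in the links of the nonempty faces, on simplices with at most `c` vertices. -/
def LinkCones (c B : ℕ) (F : Finset (Finset α)) : Prop :=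
  ∀ ρ : Finset α, ρ.Nonempty → IsFace F ρ → ρ.card ≤ c → ∃ C : Finset α → Ch α,
    ∀ σ, IsFace F (ρ ∪ σ) → Disjoint σ ρ → σ.card + ρ.card ≤ c →
      Supp (fun τ => τ.card = σ.card + 1 ∧ Disjoint τ ρ ∧ IsFace F (ρ ∪ τ)) (C σ) ∧
        bd (C σ) = Finsupp.single σ 1 + ∑ x ∈ σ, C (σ.erase x) ∧
        (C σ).support.card ≤ B

/-- In the link of every nonempty face, the operators between two colours have norm at most
`lam` away from the constants. -/
def PairMix {r : ℕ} (lam : ℝ) (col : α → Fin r) (F : Finset (Finset α)) : Prop :=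
  ∀ η : Finset α, η.Nonempty → IsFace F η → ∀ i j : Fin r, i ≠ j → i ∉ η.image col →
    j ∉ η.image col → ∀ f g : α → ℝ,
      ∑ τ ∈ F.filter (fun τ => η ⊆ τ), ∑ a ∈ τ.filter (fun a => col a = i), f a = 0 →
      ∑ τ ∈ F.filter (fun τ => η ⊆ τ), ∑ a ∈ τ.filter (fun a => col a = j), g a = 0 →
      ∑ τ ∈ F.filter (fun τ => η ⊆ τ),
          (∑ a ∈ τ.filter (fun a => col a = i), f a) * (∑ b ∈ τ.filter (fun b => col b = j), g b) ≤
        lam * (Real.sqrt (∑ τ ∈ F.filter (fun τ => η ⊆ τ),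
              ∑ a ∈ τ.filter (fun a => col a = i), f a ^ 2) *
            Real.sqrt (∑ τ ∈ F.filter (fun τ => η ⊆ τ),
              ∑ b ∈ τ.filter (fun b => col b = j), g b ^ 2))

/-- Cocycles on faces with at most `d` vertices are coboundaries. -/
def Exact (d : ℕ) (F : Finset (Finset α)) : Prop :=
  ∀ j ≤ d, ∀ f : Finset α → ZMod 2, (∀ τ ∈ faces F (j + 1), cobd j f τ = 0) →
    ∃ g, ∀ σ ∈ faces F j, f σ = cobd (j - 1) g σ

/-- Every vertex lies in at most `D` top faces. -/
def DegreeLE (D : ℕ) (F : Finset (Finset α)) : Prop :=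
  ∀ v, (F.filter fun τ => v ∈ τ).card ≤ D

section Subspaces

variable {K : Type} [Field K] {b : ℕ}

/-- A complete decreasing flag. -/
def IsCompleteFlag (Fl : ℕ → Submodule K (Fin b → K)) : Prop :=
  Antitone Fl ∧ ∀ i ≤ b, Module.finrank K (Fl i) = b - i

/-- A chain of proper nonzero subspaces, each opposite to the flag. -/
def IsOppChain (Fl : ℕ → Submodule K (Fin b → K)) (σ : Finset (Submodule K (Fin b → K))) :
    Prop :=
  (∀ W ∈ σ, W ≠ ⊥ ∧ W ≠ ⊤ ∧ W ⊓ Fl (Module.finrank K W) = ⊥) ∧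
    ∀ W ∈ σ, ∀ W' ∈ σ, W ≤ W' ∨ W' ≤ W

end Subspaces

end Vale.Agent.P067.Full
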