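import Vale.Agent.P067.Full.QuotExact

/-!
The link of a vertex of the orbit complex, seen in the residue space of a lattice above it.
-/

namespace Vale.Agent.P067.Full

open Finset Vale.Agent.HDX

variable {p r : ℕ}

section Residue

variable {L : Submodule (ZMod p) (M p)} (ρ : L.map (shift p r) →ₗ[ZMod p] (Fin r → ZMod p))

/-- The image of a submodule in the residue space. -/
noncomputable def resSub (W : Submodule (ZMod p) (M p)) : Submodule (ZMod p) (Fin r → ZMod p) :=
  (W.comap (L.map (shift p r)).subtype).map ρ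

/-- The preimage of a subspace of the residue space. -/
noncomputable def liftSub (U : Submodule (ZMod p) (Fin r → ZMod p)) : Submodule (ZMod p) (M p) :=
  (U.comap ρ).map (L.map (shift p r)).subtype

theorem liftSub_mono {U U' : Submodule (ZMod p) (Fin r → ZMod p)} (h : U ≤ U') :
    liftSub ρ U ≤ liftSub ρ U' := Submodule.map_mono (Submodule.comap_mono h)

theorem liftSub_le (U : Submodule (ZMod p) (Fin r → ZMod p)) : liftSub ρ U ≤ L.map (shift p r) :=
  Submodule.map_subtype_le _ _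

theorem resSub_mono {W W' : Submodule (ZMod p) (M p)} (h : W ≤ W') : resSub ρ W ≤ resSub ρ W' :=
  Submodule.map_mono (Submodule.comap_mono h)

variable {ρ} (hρ : ∀ x : L.map (shift p r), ρ x = 0 ↔ (x : M p) ∈ L)
include hρ

theorem le_liftSub (hst : L ≤ L.map (shift p r)) (U : Submodule (ZMod p) (Fin r → ZMod p)) :
    L ≤ liftSub ρ U := fun x hx =>
  ⟨⟨x, hst hx⟩, by
    show ρ ⟨x, hst hx⟩ ∈ U
    rw [(hρ _).2 hx]
    exact zero_mem _, rfl⟩

omit hρ in
theorem resSub_liftSub (hsurj : Function.Surjective ρ) (U : Submodule (ZMod p) (Fin r → ZMod p)) :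
    resSub ρ (liftSub ρ U) = U := by
  rw [resSub, liftSub, Submodule.comap_map_eq_of_injective (L.map (shift p r)).injective_subtype,
    Submodule.map_comap_eq_of_surjective hsurj]

theorem le_of_resSub_le {W W' : Submodule (ZMod p) (M p)} (h2 : W ≤ L.map (shift p r))
    (h1' : L ≤ W') (h : resSub ρ W ≤ resSub ρ W') : W ≤ W' := by
  intro x hx
  obtain ⟨y, hy, hxy⟩ := h (Submodule.mem_map_of_mem (show (⟨x, h2 hx⟩ : L.map (shift p r)) ∈
    W.comap (L.map (shift p r)).subtype from hx))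
  have h3 : x - (y : M p) ∈ L :=
    (hρ (⟨x, h2 hx⟩ - y)).1 (by rw [LinearMap.map_sub, hxy, sub_self])
  simpa using W'.add_mem (h1' h3) (show (y : M p) ∈ W' from hy)

theorem resSub_inj {W W' : Submodule (ZMod p) (M p)} (h1 : L ≤ W) (h2 : W ≤ L.map (shift p r))
    (h1' : L ≤ W') (h2' : W' ≤ L.map (shift p r)) (h : resSub ρ W = resSub ρ W') : W = W' :=
  le_antisymm (le_of_resSub_le hρ h2 h1' h.le) (le_of_resSub_le hρ h2' h1 h.ge)

theorem finrank_resSub {W : Submodule (ZMod p) (M p)} [Fact p.Prime] {n n' : ℤ}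
    (hL : IsLat p r L n) (hW : IsLat p r W n') (h1 : L ≤ W) (h2 : W ≤ L.map (shift p r)) :
    (Module.finrank (ZMod p) (resSub ρ W) : ℤ) = n' - n := by
  rw [← hL.finrank_quot hW h1]
  have e : Module.finrank (ZMod p) (resSub ρ W) = Module.finrank (ZMod p)
      ((W.comap (L.map (shift p r)).subtype).map (L.mkQ.comp (L.map (shift p r)).subtype)) :=
    finrank_map_congr _ _ _ fun x _ => by
      rw [hρ]
      simp [Submodule.Quotient.mk_eq_zero]
  rw [e, Submodule.map_comp, Submodule.map_comap_eq_self (by rwa [Submodule.range_subtype])]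

theorem isLat_liftSub [Fact p.Prime] {n : ℤ} (hL : IsLat p r L n) (hsurj : Function.Surjective ρ)
    (U : Submodule (ZMod p) (Fin r → ZMod p)) :
    IsLat p r (liftSub ρ U) (n + Module.finrank (ZMod p) U) := by
  have h := hL.between (le_liftSub hρ hL.stable U) (liftSub_le ρ U)
  have e := finrank_resSub hρ hL h (le_liftSub hρ hL.stable U) (liftSub_le ρ U)
  rw [resSub_liftSub hsurj] at e
  rwa [show (Module.finrank (ZMod p) ((liftSub ρ U).map L.mkQ) : ℤ) =
    Module.finrank (ZMod p) U by omega] at h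

end Residue

/-- The lattice of a neighbour, moved between `L` and `t L` for a vertex of index `i₀`. -/
noncomputable def nl (i₀ : Fin r) (y : (opp p r).X 1) : Submodule (ZMod p) (M p) :=
  if i₀ ≤ y.1.ty 0 then y.1.lat 0 else (y.1.lat 0).map (shift p r)

/-- The index of the moved lattice. -/
def nIdx (i₀ : Fin r) (y : (opp p r).X 1) : ℤ :=
  if i₀ ≤ y.1.ty 0 then ((y.1.ty 0 : ℕ) : ℤ) else ((y.1.ty 0 : ℕ) : ℤ) + r

variable [NeZero r] [hp : Fact p.Prime]

omit [NeZero r] in
theorem isOpp_nl (i₀ : Fin r) (y : (opp p r).X 1) : IsOpp p r (nl i₀ y) (nIdx i₀ y) := by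
  unfold nl nIdx
  split
  · exact Simp.isOpp y.2 0
  · exact (Simp.isOpp y.2 0).map_shift

omit [NeZero r] hp in
theorem nl_bounds (c : (opp p r).X r) (i j : Fin r) :
    (vert c i).1.lat 0 ≤ nl i (vert c j) ∧
      nl i (vert c j) ≤ ((vert c i).1.lat 0).map (shift p r) := by
  unfold nl
  rw [show (vert c j).1.ty 0 = j from ty_chamber c j]
  split
  next h => exact ⟨c.1.mono h, c.1.wrap j i⟩
  next h => exact ⟨c.1.wrap i j, Submodule.map_mono (c.1.mono (le_of_not_ge h))⟩

omit [NeZero r] hp in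
theorem nl_comparable (c : (opp p r).X r) (i j j' : Fin r) :
    nl i (vert c j) ≤ nl i (vert c j') ∨ nl i (vert c j') ≤ nl i (vert c j) := by
  unfold nl
  rw [show (vert c j).1.ty 0 = j from ty_chamber c j, show (vert c j').1.ty 0 = j' from ty_chamber c j']
  split_ifs with h h'
  · exact (le_total j j').imp (fun e => c.1.mono e) (fun e => c.1.mono e)
  · exact Or.inl (c.1.wrap j j')
  · exact Or.inr (c.1.wrap j' j)
  · exact (le_total j j').imp (fun e => Submodule.map_mono (c.1.mono e))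
      (fun e => Submodule.map_mono (c.1.mono e))

omit [NeZero r] in
theorem shift_map_injective {U U' : Submodule (ZMod p) (M p)}
    (h : U.map (shift p r) = U'.map (shift p r)) : U = U' := by
  rw [shift_eq_tr] at h
  exact Submodule.map_injective_of_injective (tr p (r : ℤ)).injective h

omit [NeZero r] in
theorem eq_of_nl_eq {i₀ : Fin r} {y y' : (opp p r).X 1} (h : nl i₀ y = nl i₀ y') : y = y' := by
  have hidx : nIdx i₀ y = nIdx i₀ y' :=
    (isOpp_nl i₀ y).1.index_unique (h ▸ (isOpp_nl i₀ y').1)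
  have hty : y.1.ty 0 = y'.1.ty 0 := by
    have := (y.1.ty 0).2
    have := (y'.1.ty 0).2
    unfold nIdx at hidx
    refine Fin.ext ?_
    split_ifs at hidx <;> omega
  have hlat : y.1.lat 0 = y'.1.lat 0 := by
    unfold nl at h
    rw [← hty] at h
    split_ifs at h
    · exact h
    · exact shift_map_injective h
  refine Subtype.ext (Simp.ext (funext fun l => ?_) (funext fun l => ?_))
  · rw [Subsingleton.elim l 0, hty]
  · rw [Subsingleton.elim l 0, hlat]

omit [NeZero r] hp in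
theorem Nbr.ty_ne {x y : (opp p r).X 1} (h : Nbr x y) (hne : y ≠ x) : y.1.ty 0 ≠ x.1.ty 0 := by
  obtain ⟨c, i, j, rfl, rfl⟩ := h
  exact fun e => hne (congrArg (vert c) (c.1.ty_mono.injective e))

omit [NeZero r] hp in
theorem Nbr.bounds {x y : (opp p r).X 1} (h : Nbr x y) :
    x.1.lat 0 ≤ nl (x.1.ty 0) y ∧ nl (x.1.ty 0) y ≤ (x.1.lat 0).map (shift p r) := by
  obtain ⟨c, i, j, rfl, rfl⟩ := h
  rw [show (vert c i).1.ty 0 = i from ty_chamber c i]
  exact nl_bounds c i j

/-- The index in `[0, r)` of a subspace of dimension `d` of the residue space. -/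
def foldIdx (r n d : ℕ) : ℕ := if n + d < r then n + d else n + d - r

/-- The lattice of a subspace of dimension `d` of the residue space. -/
noncomputable def foldLat (r n d : ℕ) (W : Submodule (ZMod p) (M p)) : Submodule (ZMod p) (M p) :=
  if n + d < r then W else W.map (tr p (-(r : ℤ))).toLinearMap

omit [NeZero r] hp in
theorem foldIdx_lt {n d : ℕ} (hn : n < r) (hd : d < r) : foldIdx r n d < r := by
  unfold foldIdx
  split <;> omega

omit [NeZero r] in
theorem map_neg_shift (V : Submodule (ZMod p) (M p)) :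
    (V.map (tr p (-(r : ℤ))).toLinearMap).map (shift p r) = V := by
  rw [shift_eq_tr, map_tr_tr, add_neg_cancel, map_tr_zero]

omit [NeZero r] in
theorem foldLat_low {L W : Submodule (ZMod p) (M p)} {n d : ℕ} (hW : W ≤ L.map (shift p r))
    (h : ¬ n + d < r) : foldLat r n d W ≤ L := by
  unfold foldLat
  rw [if_neg h]
  refine (Submodule.map_mono hW).trans (le_of_eq ?_)
  rw [shift_eq_tr, map_tr_tr, neg_add_cancel, map_tr_zero]

omit [NeZero r] in
theorem isOpp_foldLat {W : Submodule (ZMod p) (M p)} {n d : ℕ}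
    (h : IsOpp p r W ((n : ℤ) + d)) :
    IsOpp p r (foldLat r n d W) ((foldIdx r n d : ℕ) : ℤ) := by
  unfold foldLat foldIdx
  split
  next hlt => rwa [Nat.cast_add]
  next hlt =>
    rw [Nat.cast_sub (not_lt.1 hlt), Nat.cast_add, sub_eq_add_neg]
    exact h.map_tr _

omit [NeZero r] in
theorem foldLat_mono {L W W' : Submodule (ZMod p) (M p)} {n d d' : ℕ} (hd' : d' < r)
    (hW : W ≤ L.map (shift p r)) (hW' : L ≤ W') (hle : d ≤ d' → W ≤ W')
    (h : foldIdx r n d ≤ foldIdx r n d') : foldLat r n d W ≤ foldLat r n d' W' := by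
  unfold foldIdx at h
  by_cases h1 : n + d < r <;> by_cases h2 : n + d' < r
  · rw [if_pos h1, if_pos h2] at h
    simp only [foldLat, if_pos h1, if_pos h2]
    exact hle (by omega)
  · rw [if_pos h1, if_neg h2] at h
    omega
  · refine (foldLat_low hW h1).trans ?_
    simp only [foldLat, if_pos h2]
    exact hW'
  · rw [if_neg h1, if_neg h2] at h
    simp only [foldLat, if_neg h1, if_neg h2]
    exact Submodule.map_mono (hle (by omega))

omit [NeZero r] in
theorem foldLat_wrap {L W W' : Submodule (ZMod p) (M p)} {n d d' : ℕ}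
    (hst : L ≤ L.map (shift p r)) (hW : W ≤ L.map (shift p r)) (hW' : L ≤ W')
    (hle : d ≤ d' → W ≤ W') : foldLat r n d W ≤ (foldLat r n d' W').map (shift p r) := by
  by_cases h1 : n + d < r <;> by_cases h2 : n + d' < r
  · simp only [foldLat, if_pos h1, if_pos h2]
    exact hW.trans (Submodule.map_mono hW')
  · simp only [foldLat, if_pos h1, if_neg h2, map_neg_shift]
    exact hle (by omega)
  · refine (foldLat_low hW h1).trans (hst.trans ?_)
    simp only [foldLat, if_pos h2]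
    exact Submodule.map_mono hW'
  · refine (foldLat_low hW h1).trans ?_
    simp only [foldLat, if_neg h2, map_neg_shift]
    exact hW'

/-- Compatible opposite lattices indexed by a set of numbers below `r` lie in one chamber. -/
theorem exists_chamber_of {ι : Type} [Fintype ι] (J : ι → Fin r)
    (lat : ι → Submodule (ZMod p) (M p)) (hopp : ∀ u, IsOpp p r (lat u) ((J u : ℕ) : ℤ))
    (hmono : ∀ u v, J u ≤ J v → lat u ≤ lat v)
    (hwrap : ∀ u v, lat u ≤ (lat v).map (shift p r)) :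
    ∃ c : (opp p r).X r, ∀ u, (vert c (J u)).1.lat 0 = lat u := by
  classical
  set T : Finset (Fin r) := Finset.univ.image J with hT
  have hTmem : ∀ l : Fin T.card, ∃ u, J u = T.orderEmbOfFin rfl l := fun l => by
    obtain ⟨u, -, hu⟩ := Finset.mem_image.1 (Finset.orderEmbOfFin_mem T rfl l)
    exact ⟨u, hu⟩
  choose pick hpick using hTmem
  let s : (opp p r).X T.card :=
    ⟨{ ty := T.orderEmbOfFin rfl
       lat := fun l => lat (pick l)
       ty_mono := (T.orderEmbOfFin rfl).strictMono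
       isLat := fun l => hpick l ▸ (hopp _).1
       mono := fun l l' hll => hmono _ _ (by
         rw [hpick, hpick]; exact (T.orderEmbOfFin rfl).monotone hll)
       wrap := fun l l' => hwrap _ _ }, fun l => by
        show lat (pick l) ⊓ hi p (((T.orderEmbOfFin rfl l : Fin r) : ℕ) : ℤ) = ⊥
        rw [← hpick l]
        exact (hopp _).2⟩
  obtain ⟨c, hc⟩ := extends_all T.card s
  refine ⟨c, fun u => ?_⟩
  have hu : J u ∈ Set.range (T.orderEmbOfFin rfl) := by
    rw [Finset.range_orderEmbOfFin]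
    exact Finset.mem_image_of_mem J (Finset.mem_univ u)
  obtain ⟨l, hl⟩ := hu
  rw [← hl, show T.orderEmbOfFin rfl l = s.1.ty l from rfl, hc l]
  show lat (pick l) = lat u
  exact le_antisymm (hmono _ _ (le_of_eq ((hpick l).trans hl)))
    (hmono _ _ (le_of_eq ((hpick l).trans hl).symm))

/-- A chain of opposite residue subspaces comes from a chamber at the vertex. -/
theorem exists_chamber_residue (x : (opp p r).X 1)
    {ρ : (x.1.lat 0).map (shift p r) →ₗ[ZMod p] (Fin r → ZMod p)}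
    (hsurj : Function.Surjective ρ)
    (hρ : ∀ z : (x.1.lat 0).map (shift p r), ρ z = 0 ↔ (z : M p) ∈ x.1.lat 0)
    {σ : Finset (Submodule (ZMod p) (Fin r → ZMod p))}
    (hσ : IsOppChain (resFlag ρ ((x.1.ty 0 : ℕ) : ℤ)) σ) :
    ∃ c : (opp p r).X r, vert c (x.1.ty 0) = x ∧
      ∀ U ∈ σ, ∃ j, j ≠ x.1.ty 0 ∧ resSub ρ (nl (x.1.ty 0) (vert c j)) = U := by
  classical
  have hopp : IsOpp p r (x.1.lat 0) (((x.1.ty 0 : ℕ) : ℕ) : ℤ) := Simp.isOpp x.2 0
  set n : ℕ := (x.1.ty 0 : ℕ)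
  have hnr : n < r := (x.1.ty 0).2
  let ι := {U // U ∈ insert ⊥ σ}
  let d : ι → ℕ := fun U => Module.finrank (ZMod p) U.1
  have hd : ∀ U : ι, d U < r := by
    rintro ⟨U, hU⟩
    rcases Finset.mem_insert.1 hU with rfl | hU
    · simp only [d, finrank_bot]
      omega
    · exact (Submodule.finrank_lt (hσ.1 U hU).2.1).trans_eq (Module.finrank_fin_fun (ZMod p))
  have hchain : ∀ U V : ι, d U ≤ d V → liftSub ρ U.1 ≤ liftSub ρ V.1 := by
    rintro ⟨U, hU⟩ ⟨V, hV⟩ hle
    refine liftSub_mono ρ ?_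
    have hcmp : U ≤ V ∨ V ≤ U := by
      rcases Finset.mem_insert.1 hU with rfl | h1
      · exact Or.inl bot_le
      rcases Finset.mem_insert.1 hV with rfl | h2
      · exact Or.inr bot_le
      exact hσ.2 U h1 V h2
    rcases hcmp with h | h
    · exact h
    · exact (Submodule.eq_of_le_of_finrank_le h hle).ge
  have hW : ∀ U : ι, IsOpp p r (liftSub ρ U.1) ((n : ℤ) + d U) := by
    rintro ⟨U, hU⟩
    refine ⟨isLat_liftSub hρ hopp.1 hsurj U, ?_⟩
    refine (hopp.opp_iff_residue hρ (le_liftSub hρ hopp.1.stable U) (liftSub_le ρ U) _).2 ?_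
    show resSub ρ (liftSub ρ U) ⊓ _ = ⊥
    rw [resSub_liftSub hsurj]
    rcases Finset.mem_insert.1 hU with rfl | h2
    · exact bot_inf_eq _
    · exact (hσ.1 U h2).2.2
  obtain ⟨c, hc⟩ := exists_chamber_of (ι := ι)
    (fun U => ⟨foldIdx r n (d U), foldIdx_lt hnr (hd U)⟩)
    (fun U => foldLat r n (d U) (liftSub ρ U.1)) (fun U => isOpp_foldLat (hW U))
    (fun U V h => foldLat_mono (hd V) (liftSub_le ρ _) (le_liftSub hρ hopp.1.stable _)
      (hchain U V) h)
    (fun U V => foldLat_wrap hopp.1.stable (liftSub_le ρ _) (le_liftSub hρ hopp.1.stable _)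
      (hchain U V))
  refine ⟨c, ?_, fun U hU => ?_⟩
  · let B : ι := ⟨⊥, Finset.mem_insert_self _ _⟩
    have hB : d B = 0 := by simp [d, B]
    have hj : (⟨foldIdx r n (d B), foldIdx_lt hnr (hd B)⟩ : Fin r) = x.1.ty 0 :=
      Fin.ext (by simp [foldIdx, hB, hnr, n])
    have h := hc B
    rw [hj, foldLat, if_pos (by omega)] at h
    have hbot : liftSub ρ ⊥ = x.1.lat 0 := by
      refine le_antisymm ?_ (le_liftSub hρ hopp.1.stable ⊥)
      rintro _ ⟨z, hz, rfl⟩
      exact (hρ z).1 ((Submodule.mem_bot (ZMod p)).1 hz)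
    rw [show B.1 = ⊥ from rfl, hbot] at h
    refine Subtype.ext (Simp.ext (funext fun l => ?_) (funext fun l => ?_))
    · rw [Subsingleton.elim l 0]
      exact ty_chamber c _
    · rw [Subsingleton.elim l 0]
      exact h
  · let u : ι := ⟨U, Finset.mem_insert_of_mem hU⟩
    have hpos : 0 < d u := Nat.pos_of_ne_zero fun h =>
      (hσ.1 U hU).1 (Submodule.finrank_eq_zero.1 h)
    have hlt := hd u
    set j : Fin r := ⟨foldIdx r n (d u), foldIdx_lt hnr hlt⟩ with hj
    refine ⟨j, fun h => ?_, ?_⟩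
    · have := congrArg Fin.val h
      simp only [hj, foldIdx] at this
      split_ifs at this <;> omega
    · have h := hc u
      unfold nl
      rw [show (vert c j).1.ty 0 = j from ty_chamber c j, h]
      simp only [Fin.le_def, hj, foldIdx, foldLat]
      by_cases h' : n + d u < r
      · rw [if_pos h', if_pos h', if_pos (by omega)]
        exact resSub_liftSub hsurj U
      · rw [if_neg h', if_neg h', if_neg (by omega), map_neg_shift]
        exact resSub_liftSub hsurj U

variable {A : SS.Act (Gam0 p r) (opp p r)} (hA : IsMatAct A) {m : ℕ} (hm : 1 ≤ m)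
include hA

/-- A top face at a class comes from a chamber at any lift of the class. -/
theorem exists_chamber_at {τ : Finset (Vtx A hm)} (hτ : τ ∈ tops hA hm) (x : (opp p r).X 1)
    (hx : cls A hm x ∈ τ) : ∃ c : (opp p r).X r, vset A hm c = τ ∧ vert c (x.1.ty 0) = x := by
  obtain ⟨c, rfl⟩ := (mem_tops hA hm).1 hτ
  obtain ⟨j, hj⟩ := mem_vset.1 hx
  obtain ⟨n, hn, hnx⟩ := (cls_eq_iff A hm).1 hj
  have hji : j = x.1.ty 0 := by
    have := congrArg (colV hA hm) hj
    rw [colV_vert, ty_chamber] at this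
    exact this
  refine ⟨A.act r n c, vset_act_nm hA hm hn c, ?_⟩
  rw [vert_act hA, ← hji]
  exact hnx

open Classical in
/-- The link of a vertex is a complex of subspaces opposite to a flag. -/
theorem exists_link (hsep : Sep A m) (a : Vtx A hm) :
    ∃ (Fl : ℕ → Submodule (ZMod p) (Fin r → ZMod p))
      (φ : Vtx A hm → Submodule (ZMod p) (Fin r → ZMod p)),
      IsCompleteFlag Fl ∧
      Set.InjOn φ {x | x ≠ a ∧ ∃ τ ∈ tops hA hm, a ∈ τ ∧ x ∈ τ} ∧
      (∀ x, x ≠ a → (∃ τ ∈ tops hA hm, a ∈ τ ∧ x ∈ τ) →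
        (Module.finrank (ZMod p) (φ x) + (colV hA hm a : ℕ)) % r = (colV hA hm x : ℕ)) ∧
      ∀ σ : Finset (Submodule (ZMod p) (Fin r → ZMod p)),
        IsOppChain Fl σ ↔ ∃ τ ∈ tops hA hm, a ∈ τ ∧ σ ⊆ (τ.erase a).image φ := by
  obtain ⟨x, rfl⟩ : ∃ x, cls A hm x = a := Quotient.exists_rep a
  set i₀ := x.1.ty 0 with hi₀
  have hopp : IsOpp p r (x.1.lat 0) ((i₀ : ℕ) : ℤ) := Simp.isOpp x.2 0
  obtain ⟨ρ, hsurj, hρ⟩ := hopp.1.exists_residue
  set φ : Vtx A hm → Submodule (ZMod p) (Fin r → ZMod p) := fun v =>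
    if h : ∃ y, Nbr x y ∧ cls A hm y = v then resSub ρ (nl i₀ h.choose) else ⊥ with hφ
  have hφy : ∀ y, Nbr x y → φ (cls A hm y) = resSub ρ (nl i₀ y) := by
    intro y hy
    have h : ∃ y', Nbr x y' ∧ cls A hm y' = cls A hm y := ⟨y, hy, rfl⟩
    obtain ⟨h1, h2⟩ := h.choose_spec
    obtain ⟨q, hq, hqy⟩ := (cls_eq_iff A hm).1 h2
    have h3 := hsep q hq x h.choose h1 (by rw [hqy]; exact hy)
    simp only [hφ, dif_pos h]
    rw [h3.symm.trans hqy]
  have hlift : ∀ v, v ≠ cls A hm x → (∃ τ ∈ tops hA hm, cls A hm x ∈ τ ∧ v ∈ τ) →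
      ∃ y, Nbr x y ∧ y ≠ x ∧ cls A hm y = v := by
    rintro v hv ⟨τ, hτ, hx, hvτ⟩
    obtain ⟨c, rfl, hc⟩ := exists_chamber_at hA hm hτ x hx
    obtain ⟨j, hj⟩ := mem_vset.1 hvτ
    exact ⟨vert c j, ⟨c, i₀, j, hc, rfl⟩, fun h => hv (by rw [← hj, h]), hj⟩
  have hrank : ∀ y, Nbr x y → y ≠ x →
      (Module.finrank (ZMod p) (resSub ρ (nl i₀ y)) : ℤ) = nIdx i₀ y - (i₀ : ℕ) ∧
      0 < Module.finrank (ZMod p) (resSub ρ (nl i₀ y)) ∧
      Module.finrank (ZMod p) (resSub ρ (nl i₀ y)) < r := by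
    intro y hy hne
    have e := finrank_resSub hρ hopp.1 (isOpp_nl i₀ y).1 hy.bounds.1 hy.bounds.2
    have hne' := hy.ty_ne hne
    rw [← Fin.val_ne_iff] at hne'
    have := (y.1.ty 0).2
    have := i₀.2
    refine ⟨e, ?_⟩
    unfold nIdx at e
    simp only [Fin.le_def] at e
    split_ifs at e <;> omega
  refine ⟨resFlag ρ ((i₀ : ℕ) : ℤ), φ, ⟨IsOpp.resFlag_anti ρ _, fun i hi' =>
    hopp.finrank_resFlag hρ hi'⟩, ?_, ?_, fun σ => ⟨fun hσ => ?_, ?_⟩⟩
  · rintro v ⟨hv, hv'⟩ w ⟨hw, hw'⟩ h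
    obtain ⟨y, hy, -, rfl⟩ := hlift v hv hv'
    obtain ⟨z, hz, -, rfl⟩ := hlift w hw hw'
    rw [hφy y hy, hφy z hz] at h
    rw [eq_of_nl_eq (resSub_inj hρ hy.bounds.1 hy.bounds.2 hz.bounds.1 hz.bounds.2 h)]
  · intro v hv hv'
    obtain ⟨y, hy, hne, rfl⟩ := hlift v hv hv'
    rw [hφy y hy]
    obtain ⟨e, -, -⟩ := hrank y hy hne
    show (Module.finrank (ZMod p) (resSub ρ (nl i₀ y)) + (i₀ : ℕ)) % r = (y.1.ty 0 : ℕ)
    have := (y.1.ty 0).2
    unfold nIdx at e
    split_ifs at e with h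
    · rw [Nat.mod_eq_of_lt (by omega)]
      omega
    · rw [show Module.finrank (ZMod p) (resSub ρ (nl i₀ y)) + (i₀ : ℕ) = (y.1.ty 0 : ℕ) + r by omega,
        Nat.add_mod_right, Nat.mod_eq_of_lt this]
  · obtain ⟨c, hcx, hcσ⟩ := exists_chamber_residue x hsurj hρ hσ
    refine ⟨vset A hm c, (mem_tops hA hm).2 ⟨c, rfl⟩, mem_vset.2 ⟨i₀, by rw [hcx]⟩, fun U hU => ?_⟩
    obtain ⟨j, hj, hjU⟩ := hcσ U hU
    refine Finset.mem_image.2 ⟨cls A hm (vert c j), Finset.mem_erase.2 ⟨fun h => hj ?_,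
      mem_vset.2 ⟨j, rfl⟩⟩, ?_⟩
    · have := congrArg (colV hA hm) h
      rw [colV_vert, ty_chamber] at this
      exact this
    · rw [hφy _ ⟨c, i₀, j, hcx, rfl⟩, hjU]
  · rintro ⟨τ, hτ, hx, hsub⟩
    obtain ⟨c, rfl, hc⟩ := exists_chamber_at hA hm hτ x hx
    have hmem : ∀ U ∈ σ, ∃ j, vert c j ≠ x ∧ U = resSub ρ (nl i₀ (vert c j)) := by
      intro U hU
      obtain ⟨v, hv, rfl⟩ := Finset.mem_image.1 (hsub hU)
      obtain ⟨hv, hvc⟩ := Finset.mem_erase.1 hv
      obtain ⟨j, rfl⟩ := mem_vset.1 hvc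
      exact ⟨j, fun h => hv (by rw [h]), hφy _ ⟨c, i₀, j, hc, rfl⟩⟩
    refine ⟨fun U hU => ?_, fun U hU U' hU' => ?_⟩
    · obtain ⟨j, hne, rfl⟩ := hmem U hU
      have hy : Nbr x (vert c j) := ⟨c, i₀, j, hc, rfl⟩
      obtain ⟨e, hpos, hlt⟩ := hrank _ hy hne
      refine ⟨fun h => ?_, fun h => ?_, ?_⟩
      · rw [h, finrank_bot] at hpos
        omega
      · rw [h, finrank_top, Module.finrank_fin_fun] at hlt
        omega
      · refine (hopp.opp_iff_residue hρ hy.bounds.1 hy.bounds.2 _).1 ?_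
        rw [e, add_sub_cancel]
        exact (isOpp_nl i₀ _).2
    · obtain ⟨j, -, rfl⟩ := hmem U hU
      obtain ⟨j', -, rfl⟩ := hmem U' hU'
      exact (nl_comparable c i₀ j j').imp (resSub_mono ρ) (resSub_mono ρ)

end Vale.Agent.P067.Full
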