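import Vale.Agent.P067.Full.Statements

/-!
Chains of semisimplicial sets with group actions over `ZMod 2`: orbit complexes by locally finite
groups of odd order (`algQuot`), comparison of actions with finite stabilisers of odd order
(`algTransfer`), and acyclicity of complexes of tuples.
-/

namespace Vale.Agent.P067.Full.SS

open Finsupp

variable {S T : SS} {G : Type*} [Group G]

lemma bd_single (k : ℕ) (s : S.X (k + 1)) :
    S.bd k (single s 1) = ∑ i, single (S.face k i s) 1 := by
  simp [SS.bd]

/-- The boundary squares to zero. -/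
lemma bd_bd (k : ℕ) (x : S.Ch (k + 2)) : S.bd k (S.bd (k + 1) x) = 0 := by
  have h : (S.bd k).comp (S.bd (k + 1)) = 0 := by
    refine Finsupp.lhom_ext' fun s => LinearMap.ext_ring ?_
    simp only [LinearMap.comp_apply, Finsupp.lsingle_apply, LinearMap.zero_apply, bd_single,
      map_sum]
    rw [← Fintype.sum_prod_type'
      (f := fun (j : Fin (k + 2)) (i : Fin (k + 1)) =>
        single (S.face k i (S.face (k + 1) j s)) (1 : ZMod 2))]
    let σ : Fin (k + 2) × Fin (k + 1) → Fin (k + 2) × Fin (k + 1) := fun a =>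
      if h : (a.2 : ℕ) < a.1 then (a.2.castSucc, ⟨(a.1 : ℕ) - 1, by omega⟩)
      else (a.2.succ, ⟨(a.1 : ℕ), by omega⟩)
    refine Finset.sum_involution (fun a _ => σ a) ?_ ?_ (fun a _ => Finset.mem_univ _) ?_
    · rintro ⟨j, i⟩ -
      rcases lt_or_ge (i : ℕ) j with h | h
      · have hj : j = Fin.succ ⟨(j : ℕ) - 1, by omega⟩ := Fin.ext (by simp; omega)
        have hc := S.comm k i ⟨(j : ℕ) - 1, by omega⟩ (by rw [Fin.le_def]; simp; omega) s
        rw [← hj] at hc
        simp only [σ, dif_pos h, hc]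
        exact ZModModule.add_self _
      · have hj : j = Fin.castSucc ⟨(j : ℕ), by omega⟩ := Fin.ext rfl
        have hc := S.comm k ⟨(j : ℕ), by omega⟩ i (by rw [Fin.le_def]; simpa using h) s
        rw [← hj] at hc
        simp only [σ, dif_neg (not_lt.2 h), hc]
        exact ZModModule.add_self _
    · rintro ⟨j, i⟩ - -
      rcases lt_or_ge (i : ℕ) j with h | h
      · simp only [σ, dif_pos h, ne_eq, Prod.ext_iff, Fin.ext_iff, Fin.val_castSucc]
        omega
      · simp only [σ, dif_neg (not_lt.2 h), ne_eq, Prod.ext_iff, Fin.ext_iff, Fin.val_succ]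
        omega
    · rintro ⟨j, i⟩ -
      rcases lt_or_ge (i : ℕ) j with h | h
      · have h' : ¬ (j : ℕ) - 1 < (i : ℕ) := by omega
        simp only [σ, dif_pos h, Fin.val_castSucc, dif_neg h', Prod.ext_iff, Fin.ext_iff,
          Fin.val_succ, and_true]
        omega
      · have h' : (j : ℕ) < (i : ℕ) + 1 := by omega
        simp only [σ, dif_neg (not_lt.2 h), Fin.val_succ, dif_pos h', Prod.ext_iff, Fin.ext_iff,
          Fin.val_castSucc, true_and]
        omega
  exact LinearMap.congr_fun h x

/-- Boundaries are cycles. -/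
lemma isCycle_bd : ∀ k (x : S.Ch (k + 1)), S.IsCycle k (S.bd k x)
  | 0, _ => trivial
  | k + 1, x => bd_bd k x

/-- An odd multiple of a chain is the chain. -/
lemma odd_nsmul {α : Type*} {m : ℕ} (hm : Odd m) (x : α →₀ ZMod 2) : m • x = x := by
  rw [← Nat.cast_smul_eq_nsmul (ZMod 2), hm.natCast_zmod_two, one_smul]

/-- The action on chains. -/
noncomputable def Act.tr (A : Act G S) (k : ℕ) (g : G) : S.Ch k →ₗ[ZMod 2] S.Ch k :=
  Finsupp.lmapDomain (ZMod 2) (ZMod 2) (A.act k g)

@[simp] lemma Act.tr_single (A : Act G S) (k : ℕ) (g : G) (s : S.X k) (c : ZMod 2) :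
    A.tr k g (single s c) = single (A.act k g s) c :=
  Finsupp.mapDomain_single

lemma Act.tr_one (A : Act G S) (k : ℕ) (x : S.Ch k) : A.tr k 1 x = x := by
  simp [Act.tr]

lemma Act.tr_mul (A : Act G S) (k : ℕ) (g g' : G) (x : S.Ch k) :
    A.tr k (g * g') x = A.tr k g (A.tr k g' x) := by
  simp [Act.tr, ← Finsupp.mapDomain_comp, Equiv.Perm.coe_mul]

lemma Act.bd_tr (A : Act G S) (k : ℕ) (g : G) (x : S.Ch (k + 1)) :
    S.bd k (A.tr (k + 1) g x) = A.tr k g (S.bd k x) := by
  have h : (S.bd k).comp (A.tr (k + 1) g) = (A.tr k g).comp (S.bd k) :=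
    Finsupp.lhom_ext' fun s => LinearMap.ext_ring (by simp [bd_single, map_sum, A.face_act])
  exact LinearMap.congr_fun h x

/-- The projection to the orbit complex. -/
noncomputable def Act.proj (A : Act G S) (k : ℕ) : S.Ch k →ₗ[ZMod 2] (quot A).Ch k :=
  Finsupp.lmapDomain (ZMod 2) (ZMod 2) (Quotient.mk (A.setoid k))

@[simp] lemma Act.proj_single (A : Act G S) (k : ℕ) (s : S.X k) (c : ZMod 2) :
    A.proj k (single s c) = single (Quotient.mk (A.setoid k) s) c :=
  Finsupp.mapDomain_single

lemma Act.proj_surj (A : Act G S) (k : ℕ) : Function.Surjective (A.proj k) :=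
  Finsupp.mapDomain_surjective Quotient.mk_surjective

lemma Act.mk_act (A : Act G S) (k : ℕ) (g : G) (s : S.X k) :
    Quotient.mk (A.setoid k) (A.act k g s) = Quotient.mk (A.setoid k) s :=
  (Quotient.sound ⟨g, rfl⟩ : Quotient.mk (A.setoid k) s = _).symm

lemma Act.proj_tr (A : Act G S) (k : ℕ) (g : G) (x : S.Ch k) :
    A.proj k (A.tr k g x) = A.proj k x := by
  have h : (A.proj k).comp (A.tr k g) = A.proj k :=
    Finsupp.lhom_ext' fun s => LinearMap.ext_ring (by
      simp only [LinearMap.comp_apply, Finsupp.lsingle_apply, Act.tr_single, Act.proj_single]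
      exact congrArg (fun q => single q 1) (A.mk_act k g s))
  exact LinearMap.congr_fun h x

lemma Act.bd_proj (A : Act G S) (k : ℕ) (x : S.Ch (k + 1)) :
    (quot A).bd k (A.proj (k + 1) x) = A.proj k (S.bd k x) := by
  have h : ((quot A).bd k).comp (A.proj (k + 1)) = (A.proj k).comp (S.bd k) :=
    Finsupp.lhom_ext' fun s => LinearMap.ext_ring (by
      simp only [LinearMap.comp_apply, Finsupp.lsingle_apply, Act.proj_single, bd_single, map_sum]
      exact bd_single (S := quot A) k _)
  exact LinearMap.congr_fun h x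

lemma Act.exists_act_out (A : Act G S) (k : ℕ) (s : S.X k) :
    ∃ g : G, A.act k g (Quotient.mk (A.setoid k) s).out = s :=
  Quotient.mk_out (s := A.setoid k) s

/-- Orbit complexes by locally finite groups of odd order keep acyclicity. -/
theorem acyclic_quot (A : Act G S) (n : ℕ) (hG : LocOdd (⊤ : Subgroup G)) (hS : S.Acyclic n) :
    (quot A).Acyclic n := by
  classical
  intro k hk z hz
  obtain ⟨x, rfl⟩ := A.proj_surj k z
  suffices h : ∃ x', S.IsCycle k x' ∧ A.proj k x' = A.proj k x by
    obtain ⟨x', hc, he⟩ := h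
    obtain ⟨w, hw⟩ := hS k hk x' hc
    exact ⟨A.proj (k + 1) w, by rw [A.bd_proj, hw, he]⟩
  rcases k with _ | k
  · exact ⟨x, trivial, rfl⟩
  set y := S.bd k x
  have hy : A.proj k y = 0 := by rw [← A.bd_proj]; exact hz
  choose γ hγ using A.exists_act_out k
  obtain ⟨K, -, hK, hKf, hKo⟩ := hG (y.support.image γ) (fun g _ => Subgroup.mem_top g)
  have hmem : ∀ g : G, g ∈ hKf.toFinset ↔ g ∈ K := fun g => hKf.mem_toFinset
  have hcard : Odd hKf.toFinset.card := by
    rw [← Set.ncard_eq_toFinset_card (K : Set G) hKf, ← Nat.card_coe_set_eq]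
    exact hKo
  refine ⟨∑ g ∈ hKf.toFinset, A.tr (k + 1) g x, ?_, ?_⟩
  · show S.bd k _ = 0
    simp only [map_sum, A.bd_tr]
    show ∑ g ∈ hKf.toFinset, A.tr k g y = 0
    have key : ∀ s ∈ y.support, ∀ c : ZMod 2, ∑ g ∈ hKf.toFinset, A.tr k g (single s c) =
        ∑ g ∈ hKf.toFinset, A.tr k g (single (Quotient.mk (A.setoid k) s).out c) := by
      intro s hs c
      have hg : γ s ∈ K := hK _ (Finset.mem_image_of_mem _ hs)
      refine Finset.sum_nbij' (fun g => g * γ s) (fun g => g * (γ s)⁻¹) ?_ ?_ ?_ ?_ ?_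
      · exact fun g h => (hmem _).2 (mul_mem ((hmem _).1 h) hg)
      · exact fun g h => (hmem _).2 (mul_mem ((hmem _).1 h) (inv_mem hg))
      · exact fun g _ => mul_inv_cancel_right g _
      · exact fun g _ => inv_mul_cancel_right g _
      · intro g _
        rw [A.tr_mul, A.tr_single k (γ s), hγ]
    let sec : (quot A).Ch k →ₗ[ZMod 2] S.Ch k :=
      Finsupp.lmapDomain (ZMod 2) (ZMod 2) fun q : Quotient (A.setoid k) => q.out
    have hsec : ∀ (s : S.X k) c, sec (A.proj k (single s c)) =
        single (Quotient.mk (A.setoid k) s).out c := fun s c => by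
      rw [A.proj_single]
      exact Finsupp.mapDomain_single
    rw [← LinearMap.sum_apply]
    have h1 : (∑ g ∈ hKf.toFinset, A.tr k g) y =
        (∑ g ∈ hKf.toFinset, A.tr k g) (sec (A.proj k y)) := by
      conv_lhs => rw [← Finsupp.sum_single y]
      conv_rhs => rw [← Finsupp.sum_single y]
      simp only [map_finsuppSum]
      refine Finsupp.sum_congr fun s hs => ?_
      rw [hsec, LinearMap.sum_apply, LinearMap.sum_apply]
      exact key s hs _
    rw [h1, hy, map_zero, map_zero]
  · simp only [map_sum, A.proj_tr, Finset.sum_const]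
    exact odd_nsmul hcard _

/-- Equivariance of a linear map of chains. -/
def Equi {k l : ℕ} (A : Act G S) (B : Act G T) (u : S.Ch k →ₗ[ZMod 2] T.Ch l) : Prop :=
  ∀ g x, u (A.tr k g x) = B.tr l g (u x)

/-- Equivariant fillings, by averaging over stabilisers. -/
lemma exists_fill (A : Act G S) (B : Act G T) {k l : ℕ}
    (hA : ∀ s : S.X k, {g : G | A.act k g s = s}.Finite ∧
      Odd {g : G | A.act k g s = s}.ncard)
    (E : S.Ch k →ₗ[ZMod 2] T.Ch l) (hE : Equi A B E)
    (hf : ∀ s, ∃ w, T.bd l w = E (single s 1)) :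
    ∃ u : S.Ch k →ₗ[ZMod 2] T.Ch (l + 1), Equi A B u ∧ ∀ x, T.bd l (u x) = E x := by
  classical
  choose w hw using hf
  choose γ hγ using A.exists_act_out k
  let W : Quotient (A.setoid k) → T.Ch (l + 1) := fun q =>
    ∑ g ∈ (hA q.out).1.toFinset, B.tr (l + 1) g (w q.out)
  have hmem : ∀ s g, g ∈ (hA s).1.toFinset ↔ A.act k g s = s := fun s g =>
    (hA s).1.mem_toFinset
  have hW : ∀ q : Quotient (A.setoid k), T.bd l (W q) = E (single q.out 1) := by
    intro q
    simp only [W, map_sum, B.bd_tr, hw]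
    rw [Finset.sum_congr rfl fun g hg => by
      rw [← hE, A.tr_single, (hmem _ _).1 hg], Finset.sum_const]
    refine odd_nsmul ?_ _
    rw [← Set.ncard_eq_toFinset_card _ (hA q.out).1]
    exact (hA q.out).2
  have hinv : ∀ (q : Quotient (A.setoid k)) (δ : G), A.act k δ q.out = q.out →
      B.tr (l + 1) δ (W q) = W q := by
    intro q δ hδ
    have hδ' : A.act k δ⁻¹ q.out = q.out := by
      rw [map_inv, Equiv.Perm.inv_def, Equiv.symm_apply_eq]
      exact hδ.symm
    simp only [W, map_sum, ← B.tr_mul]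
    refine Finset.sum_nbij' (fun g => δ * g) (fun g => δ⁻¹ * g) ?_ ?_ ?_ ?_ ?_
    · intro g hg
      rw [hmem] at hg ⊢
      rw [map_mul, Equiv.Perm.mul_apply, hg, hδ]
    · intro g hg
      rw [hmem] at hg ⊢
      rw [map_mul, Equiv.Perm.mul_apply, hg, hδ']
    · exact fun g _ => inv_mul_cancel_left δ g
    · exact fun g _ => mul_inv_cancel_left δ g
    · exact fun g _ => rfl
  let u : S.Ch k →ₗ[ZMod 2] T.Ch (l + 1) :=
    Finsupp.linearCombination (ZMod 2) fun s =>
      B.tr (l + 1) (γ s) (W (Quotient.mk (A.setoid k) s))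
  have hu : ∀ s, u (single s 1) = B.tr (l + 1) (γ s) (W (Quotient.mk (A.setoid k) s)) :=
    fun s => by simp [u]
  refine ⟨u, fun g x => ?_, fun x => ?_⟩
  · have h : u.comp (A.tr k g) = (B.tr (l + 1) g).comp u := by
      refine Finsupp.lhom_ext' fun s => LinearMap.ext_ring ?_
      simp only [LinearMap.comp_apply, Finsupp.lsingle_apply, A.tr_single, hu]
      set q := Quotient.mk (A.setoid k) s with hq
      have h' : γ (A.act k g s) = (g * γ s) * ((g * γ s)⁻¹ * γ (A.act k g s)) :=
        (mul_inv_cancel_left _ _).symm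
      rw [A.mk_act, ← hq, ← B.tr_mul, h', B.tr_mul, hinv]
      have e1 : A.act k (γ (A.act k g s)) q.out = A.act k g s := by
        have := hγ (A.act k g s)
        rwa [A.mk_act] at this
      rw [map_mul, Equiv.Perm.mul_apply, e1, map_inv, Equiv.Perm.inv_def, Equiv.symm_apply_eq,
        map_mul, Equiv.Perm.mul_apply, hq, hγ]
    exact LinearMap.congr_fun h x
  · have h : (T.bd l).comp u = E := by
      refine Finsupp.lhom_ext' fun s => LinearMap.ext_ring ?_
      simp only [LinearMap.comp_apply, Finsupp.lsingle_apply, hu, B.bd_tr, hW]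
      rw [← hE, A.tr_single, hγ]
    exact LinearMap.congr_fun h x

/-- An equivariant chain map up to one degree above the range of acyclicity. -/
lemma exists_chainMap (A : Act G S) (B : Act G T) (n : ℕ) (hA : A.OddStab) (hT : T.Acyclic n)
    [Subsingleton (T.X 0)] (t₀ : T.X 0) :
    ∃ f : ∀ k, S.Ch k →ₗ[ZMod 2] T.Ch k, (∀ k, Equi A B (f k)) ∧
      (∀ k ≤ n, ∀ x, T.bd k (f (k + 1) x) = f k (S.bd k x)) ∧
      ∀ s, f 0 (single s 1) = single t₀ 1 := by
  suffices h : ∀ m ≤ n + 1, ∃ f : ∀ k, S.Ch k →ₗ[ZMod 2] T.Ch k, (∀ k, Equi A B (f k)) ∧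
      (∀ k < m, ∀ x, T.bd k (f (k + 1) x) = f k (S.bd k x)) ∧
      ∀ s, f 0 (single s 1) = single t₀ 1 by
    obtain ⟨f, h1, h2, h3⟩ := h (n + 1) le_rfl
    exact ⟨f, h1, fun k hk => h2 k (by omega), h3⟩
  intro m
  induction m with
  | zero =>
    intro _
    refine ⟨Function.update (fun _ => 0) 0 (Finsupp.linearCombination (ZMod 2)
      fun _ => single t₀ 1), fun k => ?_, fun k hk => absurd hk (Nat.not_lt_zero k), fun s => ?_⟩
    · rcases eq_or_ne k 0 with rfl | hk
      · intro g x
        simp only [Function.update_self]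
        have h : (Finsupp.linearCombination (ZMod 2) fun _ : S.X 0 => single t₀ (1 : ZMod 2)).comp
            (A.tr 0 g) = (B.tr 0 g).comp
              (Finsupp.linearCombination (ZMod 2) fun _ : S.X 0 => single t₀ (1 : ZMod 2)) :=
          Finsupp.lhom_ext' fun s => LinearMap.ext_ring (by
            simp [Subsingleton.elim (B.act 0 g t₀) t₀])
        exact LinearMap.congr_fun h x
      · intro g x
        simp [Function.update_of_ne hk]
    · simp
  | succ m ih =>
    intro hm
    obtain ⟨f, h1, h2, h3⟩ := ih (by omega)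
    obtain ⟨u, hu1, hu2⟩ := exists_fill A B (hA (m + 1) (by omega)) ((f m).comp (S.bd m))
      (fun g x => by simp [A.bd_tr, h1 m g])
      (fun s => hT m (by omega) _ (by
        rcases m with _ | j
        · trivial
        · show T.bd j (f (j + 1) (S.bd (j + 1) _)) = 0
          rw [h2 j (by omega), bd_bd, map_zero]))
    refine ⟨Function.update f (m + 1) u, fun k => ?_, fun k hk x => ?_, fun s => ?_⟩
    · rcases eq_or_ne k (m + 1) with rfl | hk
      · simpa using hu1
      · simpa [Function.update_of_ne hk] using h1 k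
    · rw [Function.update_of_ne (show k ≠ m + 1 by omega)]
      rcases eq_or_ne k m with rfl | hk'
      · simpa using hu2 x
      · rw [Function.update_of_ne (show k + 1 ≠ m + 1 by omega)]
        exact h2 k (by omega) x
    · rw [Function.update_of_ne (show 0 ≠ m + 1 by omega)]
      exact h3 s

/-- A map of orbit complexes from an equivariant map. -/
noncomputable def qmap {k l : ℕ} (A : Act G S) (B : Act G T) (u : S.Ch k →ₗ[ZMod 2] T.Ch l) :
    (quot A).Ch k →ₗ[ZMod 2] (quot B).Ch l :=
  Finsupp.linearCombination (ZMod 2) fun q : Quotient (A.setoid k) => B.proj l (u (single q.out 1))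

lemma qmap_proj {k l : ℕ} (A : Act G S) (B : Act G T) {u : S.Ch k →ₗ[ZMod 2] T.Ch l}
    (hu : Equi A B u) (x : S.Ch k) : qmap A B u (A.proj k x) = B.proj l (u x) := by
  have h : (qmap A B u).comp (A.proj k) = (B.proj l).comp u := by
    refine Finsupp.lhom_ext' fun s => LinearMap.ext_ring ?_
    simp only [LinearMap.comp_apply, Finsupp.lsingle_apply, A.proj_single, qmap]
    erw [Finsupp.linearCombination_single, one_smul]
    obtain ⟨g, hg⟩ := A.exists_act_out k s
    conv_rhs => rw [← hg, ← A.tr_single, hu, B.proj_tr]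
  exact LinearMap.congr_fun h x

/-- Complexes with finite stabilisers of odd order: acyclicity of orbit complexes transfers. -/
theorem acyclic_transfer (A : Act G S) (B : Act G T) (n : ℕ) (hA : A.OddStab) (hB : B.OddStab)
    (hS : S.Acyclic n) (hT : T.Acyclic n) [Subsingleton (S.X 0)] [Subsingleton (T.X 0)]
    (s₀ : S.X 0) (t₀ : T.X 0) (hq : (quot A).Acyclic n) : (quot B).Acyclic n := by
  obtain ⟨f, fE, fC, f0⟩ := exists_chainMap B A n hB hS s₀
  obtain ⟨g, gE, gC, g0⟩ := exists_chainMap A B n hA hT t₀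
  let u : ∀ k, T.Ch k →ₗ[ZMod 2] T.Ch k := fun k => (g k).comp (f k)
  have uE : ∀ k, Equi B B (u k) := fun k a x => by simp [u, fE k a, gE k a]
  have uC : ∀ k ≤ n, ∀ x, T.bd k (u (k + 1) x) = u k (T.bd k x) := fun k hk x => by
    simp [u, gC k hk, fC k hk]
  have u0 : ∀ x, u 0 x = x := fun x => by
    have h : u 0 = LinearMap.id := Finsupp.lhom_ext' fun s => LinearMap.ext_ring (by
      simp [u, f0, g0, Subsingleton.elim t₀ s])
    rw [h, LinearMap.id_apply]
  have step : ∀ k, k + 1 ≤ n → ∀ h : T.Ch k →ₗ[ZMod 2] T.Ch (k + 1), Equi B B h →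
      (∀ x, T.IsCycle k x → T.bd k (h x) = u k x + x) →
      ∃ h' : T.Ch (k + 1) →ₗ[ZMod 2] T.Ch (k + 2), Equi B B h' ∧
        ∀ x, T.bd (k + 1) (h' x) = u (k + 1) x + x + h (T.bd k x) := by
    intro k hk h hE hh
    refine (exists_fill B B (hB (k + 1) (by omega)) (u (k + 1) + LinearMap.id + h.comp (T.bd k))
      (fun a x => by simp [uE (k + 1) a, B.bd_tr, hE a]) fun s => hT (k + 1) hk _ ?_).imp
        fun h' H => ⟨H.1, fun x => by simpa using H.2 x⟩
    show T.bd k _ = 0
    simp only [LinearMap.add_apply, LinearMap.comp_apply, LinearMap.id_apply, map_add,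
      uC k (by omega), hh _ (isCycle_bd k _)]
    exact ZModModule.add_self _
  have homot : ∀ k ≤ n, ∃ h : T.Ch k →ₗ[ZMod 2] T.Ch (k + 1), Equi B B h ∧
      ∀ x, T.IsCycle k x → T.bd k (h x) = u k x + x := by
    intro k
    induction k with
    | zero =>
      exact fun _ => ⟨0, fun a x => by simp, fun x _ => by simp [u0, ZModModule.add_self]⟩
    | succ k ih =>
      intro hk
      obtain ⟨h, hE, hh⟩ := ih (by omega)
      obtain ⟨h', hE', hh'⟩ := step k hk h hE hh
      refine ⟨h', hE', fun x hx => ?_⟩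
      rw [hh', show T.bd k x = 0 from hx, map_zero, add_zero]
  intro k hk z hz
  obtain ⟨x, rfl⟩ := B.proj_surj k z
  have hcyc : (quot A).IsCycle k (A.proj k (f k x)) := by
    rcases k with _ | j
    · trivial
    · show (quot A).bd j _ = 0
      rw [A.bd_proj, fC j (by omega), ← qmap_proj B A (fE j), ← B.bd_proj,
        show (quot B).bd j _ = 0 from hz, map_zero]
  obtain ⟨w, hw⟩ := hq k hk _ hcyc
  obtain ⟨w, rfl⟩ := A.proj_surj (k + 1) w
  rw [A.bd_proj] at hw
  have h1 : (quot B).bd k (B.proj (k + 1) (g (k + 1) w)) = B.proj k (u k x) := by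
    rw [B.bd_proj, gC k hk, ← qmap_proj A B (gE k), hw, qmap_proj A B (gE k)]
    rfl
  rcases k with _ | j
  · exact ⟨_, h1.trans (by rw [u0])⟩
  obtain ⟨h, hE, hh⟩ := homot j (by omega)
  obtain ⟨h', -, hh'⟩ := step j hk h hE hh
  refine ⟨B.proj (j + 2) (g (j + 1 + 1) w) + B.proj (j + 2) (h' x), ?_⟩
  rw [map_add, h1, B.bd_proj, hh', map_add, map_add, ← qmap_proj B B hE, ← B.bd_proj,
    show (quot B).bd j _ = 0 from hz, map_zero, add_zero, ← add_assoc, ZModModule.add_self,
    zero_add]

/-- Putting a point in front of a tuple. -/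
def cone {Ω : Type} (a : Ω) {k : ℕ} (s : (tup Ω).X k) : (tup Ω).X (k + 1) :=
  (Fin.cons a s : Fin (k + 1) → Ω)

/-- Tuples in a nonempty type are acyclic. -/
theorem acyclic_tup (Ω : Type) [Nonempty Ω] (n : ℕ) : (tup Ω).Acyclic n := by
  letI : Inhabited Ω := Classical.inhabited_of_nonempty ‹_›
  intro k _ z hz
  let h : ∀ k, (tup Ω).Ch k →ₗ[ZMod 2] (tup Ω).Ch (k + 1) := fun k =>
    Finsupp.lmapDomain (ZMod 2) (ZMod 2) (cone (default : Ω))
  have hs : ∀ k (s : (tup Ω).X k), h k (single s 1) = single (cone default s) 1 :=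
    fun k s => Finsupp.mapDomain_single
  refine ⟨h k z, ?_⟩
  rcases k with _ | k
  · have he : ((tup Ω).bd 0).comp (h 0) = LinearMap.id :=
      Finsupp.lhom_ext' fun s => LinearMap.ext_ring (by
        simp only [LinearMap.comp_apply, Finsupp.lsingle_apply, hs, bd_single,
          LinearMap.id_apply]
        exact (Fin.sum_univ_one _).trans
          (congrArg (fun v => single v (1 : ZMod 2)) (funext fun i => i.elim0)))
    exact LinearMap.congr_fun he z
  · have he : ((tup Ω).bd (k + 1)).comp (h (k + 1)) = LinearMap.id + (h k).comp ((tup Ω).bd k) := by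
      refine Finsupp.lhom_ext' fun s => LinearMap.ext_ring ?_
      simp only [LinearMap.comp_apply, Finsupp.lsingle_apply, LinearMap.add_apply,
        LinearMap.id_apply, hs, bd_single, map_sum]
      rw [Fin.sum_univ_succ]
      congr 1
      refine Finset.sum_congr rfl fun i _ => congrArg (fun v => single v (1 : ZMod 2)) ?_
      funext l
      refine Fin.cases ?_ (fun l => ?_) l
      · simp [tup, cone]
        rfl
      · simp [tup, cone]
        rfl
    have := LinearMap.congr_fun he z
    simp only [LinearMap.add_apply, LinearMap.comp_apply, LinearMap.id_apply] at this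
    rw [this, show (tup Ω).bd k z = 0 from hz, map_zero, add_zero]

/-- Translations by a subgroup act freely on tuples. -/
theorem tupAct_oddStab {G : Type} [Group G] (H : Subgroup G) :
    ((tupAct G).restrict H).OddStab := by
  intro k hk s
  have he : {g : H | ((tupAct G).restrict H).act k g s = s} = {1} := by
    ext g
    constructor
    · intro h
      have h' : (g : G) * s ⟨0, by omega⟩ = s ⟨0, by omega⟩ := congrFun h ⟨0, by omega⟩
      exact Subtype.ext (mul_right_cancel (b := s ⟨0, by omega⟩) (h'.trans (one_mul _).symm))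
    · rintro rfl
      simp
  rw [he]
  exact ⟨Set.finite_singleton 1, by rw [Set.ncard_singleton]; exact odd_one⟩

/-- Locally finite groups of odd order have no homology mod 2. -/
theorem groupAcyclic_of_locOdd {G : Type} [Group G] {H : Subgroup G} (hH : LocOdd H) (n : ℕ) :
    GroupAcyclic H n := by
  classical
  refine acyclic_quot _ n ?_ (acyclic_tup G n)
  intro s _
  obtain ⟨K, hKH, hs, hf, ho⟩ := hH (s.image (Subtype.val : H → G)) fun g hg => by
    obtain ⟨g, -, rfl⟩ := Finset.mem_image.1 hg
    exact g.2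
  refine ⟨K.subgroupOf H, le_top,
    fun g hg => hs _ (Finset.mem_image_of_mem (Subtype.val : H → G) hg),
    ?_, ?_⟩
  · exact hf.preimage (f := (Subtype.val : H → G)) Subtype.val_injective.injOn
  · rwa [Nat.card_congr (Subgroup.subgroupOfEquivOfLe hKH).toEquiv]

/-- A group has no homology mod 2 below the range in which a suitable orbit complex is acyclic. -/
theorem groupAcyclic_of_act {G : Type} [Group G] {H : Subgroup G} (A : Act H S) (n : ℕ)
    (hA : A.OddStab) (hS : S.Acyclic n) [Subsingleton (S.X 0)] (s₀ : S.X 0)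
    (hq : (quot A).Acyclic n) : GroupAcyclic H n := by
  have : Subsingleton ((tup G).X 0) := ⟨fun a b => funext fun i => i.elim0⟩
  exact acyclic_transfer A _ n hA (tupAct_oddStab H) hS (acyclic_tup G n) s₀
    (fun i => i.elim0) hq

end Vale.Agent.P067.Full.SS

namespace Vale.Agent.P067.Full

/-- Module A1, first part. -/
theorem algQuot : AlgQuot := fun _ _ _ A n hG hS => SS.acyclic_quot A n hG hS

/-- Module A1, second part. -/
theorem algTransfer : AlgTransfer := by
  intro G _ S T A B n hA hB hS hT hS0 hT0 hS1 hT1 hq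
  exact SS.acyclic_transfer A B n hA hB hS hT hS1.some hT1.some hq

end Vale.Agent.P067.Full
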