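import Vale.Agent.P067.Full.SS

/-!
Lattice chains in `F_p[t, 1/t]^r`, written on the basis `e_k`, `k : ℤ`, where `t` shifts by `r`:
`e (a + r * j)` is `t ^ j` in the coordinate `a`. The fixed flag is `hi n`, spanned by the
`e k` with `n ≤ k`; it consists of `F_p[t]`-submodules.
-/

namespace Vale.Agent.P067.Full

open Polynomial

variable (p r : ℕ)

/-- The ambient space. -/
abbrev M : Type := ℤ →₀ ZMod p

/-- Multiplication by `t`. -/
noncomputable def shift : M p →ₗ[ZMod p] M p :=
  Finsupp.lmapDomain (ZMod p) (ZMod p) fun k => k + (r : ℤ)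

/-- The fixed flag. -/
noncomputable def hi (n : ℤ) : Submodule (ZMod p) (M p) :=
  Finsupp.supported (ZMod p) (ZMod p) (Set.Ici n)

/-- The standard lattices. -/
noncomputable def lo (n : ℤ) : Submodule (ZMod p) (M p) :=
  Finsupp.supported (ZMod p) (ZMod p) (Set.Iio n)

/-- A lattice of index `n`: stable under `1/t`, between two standard lattices, of dimension
`n - a` over `lo a`. -/
def IsLat (L : Submodule (ZMod p) (M p)) (n : ℤ) : Prop :=
  L ≤ L.map (shift p r) ∧
    ∃ a b : ℤ, lo p a ≤ L ∧ L ≤ lo p b ∧
      (Module.finrank (ZMod p) (L.map (lo p a).mkQ) : ℤ) = n - a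

/-- A lattice opposite to the fixed flag. -/
def IsOpp (L : Submodule (ZMod p) (M p)) (n : ℤ) : Prop :=
  IsLat p r L n ∧ L ⊓ hi p n = ⊥

/-- A periodic chain of lattices with `k` vertices, given by its members of index in `[0, r)`. -/
@[ext]
structure Simp (k : ℕ) where
  /-- The indices. -/
  ty : Fin k → Fin r
  /-- The lattices. -/
  lat : Fin k → Submodule (ZMod p) (M p)
  ty_mono : StrictMono ty
  isLat : ∀ i, IsLat p r (lat i) ((ty i : ℕ) : ℤ)
  mono : Monotone lat
  wrap : ∀ i j, lat i ≤ (lat j).map (shift p r)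

variable {p r}

/-- Deleting a vertex. -/
def Simp.del {k : ℕ} (s : Simp p r (k + 1)) (i : Fin (k + 1)) : Simp p r k where
  ty := s.ty ∘ i.succAbove
  lat := s.lat ∘ i.succAbove
  ty_mono := s.ty_mono.comp i.strictMono_succAbove
  isLat l := s.isLat _
  mono := s.mono.comp i.strictMono_succAbove.monotone
  wrap l l' := s.wrap _ _

/-- All vertices are opposite to the fixed flag. -/
def Simp.Opposite {k : ℕ} (s : Simp p r k) : Prop :=
  ∀ i, s.lat i ⊓ hi p ((s.ty i : ℕ) : ℤ) = ⊥

variable (p r)

/-- The building. -/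
def bld : SS where
  X k := Simp p r k
  face _ i s := s.del i
  comm k i j hij s := by
    have h := (SS.tup (Fin r)).comm k i j hij s.ty
    have h' := (SS.tup (Submodule (ZMod p) (M p))).comm k i j hij s.lat
    exact Simp.ext h h'

/-- The subcomplex of chains opposite to the fixed flag. -/
def opp : SS where
  X k := { s : Simp p r k // s.Opposite }
  face _ i s := ⟨s.1.del i, fun _ => s.2 _⟩
  comm k i j hij s := Subtype.ext ((bld p r).comm k i j hij s.1)

/-- The group `SL_r (F_p[t])`. -/
abbrev SL : Type := Matrix.SpecialLinearGroup (Fin r) (ZMod p)[X]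

variable [NeZero r]

/-- The coordinate of a basis vector. -/
noncomputable def coord (k : ℤ) : Fin r :=
  ⟨(k % (r : ℤ)).toNat, by
    have hr : (0 : ℤ) < r := by exact_mod_cast Nat.pos_of_ne_zero (NeZero.ne r)
    have := Int.emod_lt_of_pos k hr
    have := Int.emod_nonneg k hr.ne'
    omega⟩

/-- The image of a basis vector under a matrix over `F_p[t]`. -/
noncomputable def matVec (g : Matrix (Fin r) (Fin r) (ZMod p)[X]) (k : ℤ) : M p :=
  ∑ b : Fin r, (g b (coord r k)).sum fun l c =>
    Finsupp.single (((b : ℕ) : ℤ) + (r : ℤ) * (k / (r : ℤ) + (l : ℤ))) c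

/-- The action of a matrix on the ambient space. -/
noncomputable def matLin (g : Matrix (Fin r) (Fin r) (ZMod p)[X]) : M p →ₗ[ZMod p] M p :=
  Finsupp.linearCombination (ZMod p) (matVec p r g)

/-- The matrices congruent to `1` modulo `t ^ m`. -/
noncomputable def Nm (m : ℕ) : Subgroup (SL p r) :=
  (Matrix.SpecialLinearGroup.map (n := Fin r)
    (Ideal.Quotient.mk (Ideal.span {(X : (ZMod p)[X]) ^ m}))).ker

/-- Lower unitriangular matrices over `F_p`: the entries above the diagonal vanish. -/
def IsLowerUni (g : Matrix (Fin r) (Fin r) (ZMod p)) : Prop :=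
  (∀ i j, i < j → g i j = 0) ∧ ∀ i, g i i = 1

variable [Fact p.Prime]

/-- The lower unitriangular monoid. -/
def lowerUniMonoid : Submonoid (Matrix.SpecialLinearGroup (Fin r) (ZMod p)) :=
    { carrier := { g | IsLowerUni p r (g : Matrix (Fin r) (Fin r) (ZMod p)) }
      one_mem' := ⟨fun i j h => by simp [Matrix.one_apply_ne h.ne], fun i => by simp⟩
      mul_mem' := by
        intro g h hg hh
        refine ⟨fun i j hij => ?_, fun i => ?_⟩
        · simp only [Matrix.SpecialLinearGroup.coe_mul, Matrix.mul_apply]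
          refine Finset.sum_eq_zero fun k _ => ?_
          by_cases hk : i < k
          · rw [hg.1 i k hk, zero_mul]
          · rw [hh.1 k j ((not_lt.1 hk).trans_lt hij), mul_zero]
        · simp only [Matrix.SpecialLinearGroup.coe_mul, Matrix.mul_apply]
          rw [Finset.sum_eq_single i (fun k _ hk => ?_) (by simp), hg.2, hh.2, mul_one]
          rcases lt_or_gt_of_ne hk with hk | hk
          · rw [hh.1 k i hk, mul_zero]
          · rw [hg.1 i k hk, zero_mul] }

/-- The lower unitriangular group. -/
noncomputable def lowerUni : Subgroup (Matrix.SpecialLinearGroup (Fin r) (ZMod p)) :=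
  { lowerUniMonoid p r with
    inv_mem' := by
      intro g hg
      have h : g⁻¹ = g ^ (orderOf g - 1) := by
        refine inv_eq_of_mul_eq_one_left ?_
        rw [← pow_succ, Nat.sub_add_cancel (orderOf_pos g), pow_orderOf_eq_one]
      rw [h]
      exact (lowerUniMonoid p r).pow_mem hg _ }

/-- The matrices that are lower unitriangular modulo `t`. -/
noncomputable def Gam0 : Subgroup (SL p r) :=
  (lowerUni p r).comap (Matrix.SpecialLinearGroup.map (n := Fin r) (Polynomial.evalRingHom 0))

end Vale.Agent.P067.Full
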