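import Vale.Agent.P067.Full.Building
import Vale.Agent.P067.Full.Finite

/-!
The statements of the modules of the bounded-degree construction. Each one is proved in its own
file; see `NOTES.md`.
-/

namespace Vale.Agent.P067.Full

open Finset Vale.Agent.HDX

/-- Module A1: orbit complexes by locally finite groups of odd order keep acyclicity. -/
def AlgQuot : Prop :=
  ∀ (G : Type) [Group G] (S : SS) (A : SS.Act G S) (n : ℕ),
    LocOdd (⊤ : Subgroup G) → S.Acyclic n → (SS.quot A).Acyclic n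

/-- Module A1: for two acyclic complexes with finite stabilisers of odd order the orbit complexes
are acyclic together. -/
def AlgTransfer : Prop :=
  ∀ (G : Type) [Group G] (S T : SS) (A : SS.Act G S) (B : SS.Act G T) (n : ℕ),
    A.OddStab → B.OddStab → S.Acyclic n → T.Acyclic n →
      Subsingleton (S.X 0) → Subsingleton (T.X 0) → Nonempty (S.X 0) → Nonempty (T.X 0) →
      (SS.quot A).Acyclic n → (SS.quot B).Acyclic n

/-- Module C: bounded cones in complexes of subspaces opposite to a flag. -/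
def OppCones : Prop :=
  ∀ b : ℕ, ∃ p₀ B : ℕ, ∀ (K : Type) [Field K] [Fintype K], p₀ ≤ Fintype.card K →
    ∀ Fl : ℕ → Submodule K (Fin b → K), IsCompleteFlag Fl →
    ∀ β, IsOppChain Fl β → ∃ C : Finset (Submodule K (Fin b → K)) → Ch (Submodule K (Fin b → K)),
      ∀ σ, IsOppChain Fl (β ∪ σ) → Disjoint σ β → σ.card + β.card + 1 < b →
        Supp (fun τ => τ.card = σ.card + 1 ∧ Disjoint τ β ∧ IsOppChain Fl (β ∪ τ)) (C σ) ∧
          bd (C σ) = Finsupp.single σ 1 + ∑ x ∈ σ, C (σ.erase x) ∧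
          (C σ).support.card ≤ B

open Classical in
/-- Module B: mixing between two dimensions in complexes of subspaces opposite to a flag. -/
def OppMix : Prop :=
  ∀ (b : ℕ) (lam : ℝ), 0 < lam → ∃ p₀ : ℕ, ∀ (K : Type) [Field K] [Fintype K],
    p₀ ≤ Fintype.card K →
    ∀ Fl : ℕ → Submodule K (Fin b → K), IsCompleteFlag Fl →
    ∀ β, IsOppChain Fl β →
    ∀ T : Finset (Finset (Submodule K (Fin b → K))),
      (∀ τ, τ ∈ T ↔ IsOppChain Fl τ ∧ τ.card = b - 1 ∧ β ⊆ τ) →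
    ∀ i j : ℕ, i ≠ j → i ∈ Finset.Ioo 0 b → j ∈ Finset.Ioo 0 b →
      (∀ W ∈ β, Module.finrank K W ≠ i ∧ Module.finrank K W ≠ j) →
    ∀ f g : Submodule K (Fin b → K) → ℝ,
      ∑ τ ∈ T, ∑ a ∈ τ.filter (fun a : Submodule K (Fin b → K) => Module.finrank K a = i), f a = 0 →
      ∑ τ ∈ T, ∑ a ∈ τ.filter (fun a : Submodule K (Fin b → K) => Module.finrank K a = j), g a = 0 →
      ∑ τ ∈ T, (∑ a ∈ τ.filter (fun a : Submodule K (Fin b → K) => Module.finrank K a = i), f a) *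
          (∑ a ∈ τ.filter (fun a : Submodule K (Fin b → K) => Module.finrank K a = j), g a) ≤
        lam * (Real.sqrt (∑ τ ∈ T, ∑ a ∈ τ.filter (fun a : Submodule K (Fin b → K) => Module.finrank K a = i), f a ^ 2) *
          Real.sqrt (∑ τ ∈ T, ∑ a ∈ τ.filter (fun a : Submodule K (Fin b → K) => Module.finrank K a = j), g a ^ 2))

/-- Module D: the opposite complex is acyclic in low degree. -/
def OppAcyclic : Prop :=
  ∀ r n : ℕ, n + 3 ≤ r → ∃ p₀ : ℕ, ∀ (p : ℕ) [Fact p.Prime], p₀ ≤ p → (opp p r).Acyclic n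

/-- Module F: the action of the congruence group on the opposite complex. -/
def GammaAction : Prop :=
  ∀ (p r : ℕ) [Fact p.Prime] [NeZero r], p ≠ 2 →
    ∃ A : SS.Act (Gam0 p r) (opp p r),
      A.OddStab ∧
      (∀ k (g : Gam0 p r) (s : (opp p r).X k), (A.act k g s).1.ty = s.1.ty ∧
        ∀ i, (A.act k g s).1.lat i =
          (s.1.lat i).map (matLin p r (g.1 : Matrix (Fin r) (Fin r) (Polynomial (ZMod p))))) ∧
      ∀ k (s t : (opp p r).X k), s.1.ty = t.1.ty → ∃ g, A.act k g s = t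

/-- Module E: vanishing for congruence subgroups in the stable range. -/
def StabVanish : Prop :=
  ∀ d : ℕ, ∃ r₀ : ℕ, ∀ (p r : ℕ) [Fact p.Prime] [NeZero r], p ≠ 2 → r₀ ≤ r →
    (∀ (s : ℕ) [NeZero s], d + 4 ≤ s → s ≤ r → SS.GroupAcyclic (Gam0 p s) d) →
    ∀ m : ℕ, 1 ≤ m → SS.GroupAcyclic (Nm p r m) d

/-- Module L: expansion of coloured homogeneous complexes, and of their `d`-skeleta. -/
def LocalExpansion : Prop :=
  ∀ d r B : ℕ, 1 ≤ d → d + 2 ≤ r → ∃ lam : ℝ, 0 < lam ∧ ∀ D : ℕ, ∃ ε : ℝ, 0 < ε ∧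
    ∀ (α : Type) [DecidableEq α] (col : α → Fin r) (F : Finset (Finset α)),
      Rainbow r col F → Homog col F → LinkCones (d + 1) B F → PairMix lam col F →
      Exact d F → DegreeLE D F →
      IsCoboundaryExpander d ε (faces F (d + 1)) ∧ IsConnectedComplex (faces F (d + 1))

/-- Module Q: the finite quotients as coloured complexes. -/
def QuotientComplex : Prop :=
  ∀ (p r d : ℕ) [Fact p.Prime] [NeZero r], p ≠ 2 → 1 ≤ d → d + 3 ≤ r →
    ∃ D : ℕ, ∃ m₀ : ℕ, ∀ m, m₀ ≤ m → SS.GroupAcyclic (Nm p r m) (d + 1) →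
      (opp p r).Acyclic (d + 1) →
      ∃ (α : Type) (_ : DecidableEq α) (col : α → Fin r) (F : Finset (Finset α)),
        Rainbow r col F ∧ Homog col F ∧ Exact d F ∧ DegreeLE D F ∧ m ≤ (vertices F).card ∧
        ∀ ρ : Finset α, ρ.Nonempty → IsFace F ρ →
          ∃ (Fl : ℕ → Submodule (ZMod p) (Fin r → ZMod p))
            (φ : α → Submodule (ZMod p) (Fin r → ZMod p)) (a : α) (β : Finset α),
            a ∈ ρ ∧ β = ρ.erase a ∧ IsCompleteFlag Fl ∧
            Set.InjOn φ {x | x ≠ a ∧ ∃ τ ∈ F, a ∈ τ ∧ x ∈ τ} ∧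
            (∀ x, x ≠ a → (∃ τ ∈ F, a ∈ τ ∧ x ∈ τ) →
              (Module.finrank (ZMod p) (φ x) + (col a : ℕ)) % r = (col x : ℕ)) ∧
            ∀ σ : Finset (Submodule (ZMod p) (Fin r → ZMod p)),
              IsOppChain Fl σ ↔ ∃ τ ∈ F, a ∈ τ ∧ σ ⊆ (τ.erase a).image φ

end Vale.Agent.P067.Full
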