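import Vale.Agent.P067.Full.MatAction
import Vale.Agent.P067.Full.Statements

/-!
The action of `Gam0` on the opposite complex: it preserves opposite lattices, the stabilisers of
nonempty cells are finite of odd order, and it is transitive on the cells of a given type.
-/

namespace Vale.Agent.P067.Full

open Polynomial

variable {p r : ℕ} [Fact p.Prime] [NeZero r]

/-- The action of a group element on the ambient space. -/
noncomputable def gLin (g : Gam0 p r) : M p →ₗ[ZMod p] M p :=
  matLin p r (g.1 : Matrix (Fin r) (Fin r) (ZMod p)[X])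

lemma gLin_mul (g h : Gam0 p r) (x : M p) : gLin (g * h) x = gLin g (gLin h x) :=
  matLin_mul _ _ x

lemma gLin_one (x : M p) : gLin (1 : Gam0 p r) x = x :=
  matLin_one x

lemma gLin_inv_apply (g : Gam0 p r) (x : M p) : gLin g⁻¹ (gLin g x) = x := by
  rw [← gLin_mul, inv_mul_cancel, gLin_one]

lemma gLin_apply_inv (g : Gam0 p r) (x : M p) : gLin g (gLin g⁻¹ x) = x := by
  rw [← gLin_mul, mul_inv_cancel, gLin_one]

lemma map_gLin_mul (g h : Gam0 p r) (L : Submodule (ZMod p) (M p)) :
    L.map (gLin (g * h)) = (L.map (gLin h)).map (gLin g) := by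
  rw [← Submodule.map_comp]
  congr 1
  exact LinearMap.ext (gLin_mul g h)

lemma map_gLin_one (L : Submodule (ZMod p) (M p)) : L.map (gLin (1 : Gam0 p r)) = L := by
  rw [show gLin (1 : Gam0 p r) = LinearMap.id from LinearMap.ext gLin_one, Submodule.map_id]

lemma map_gLin_hi (g : Gam0 p r) (n : ℤ) : (hi p n).map (gLin g) = hi p n := by
  refine le_antisymm (Submodule.map_le_iff_le_comap.2 fun x hx => matLin_mem_hi g.2 hx) fun x hx => ?_
  exact ⟨gLin g⁻¹ x, matLin_mem_hi (g⁻¹).2 hx, gLin_apply_inv g x⟩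

lemma map_gLin_shift (g : Gam0 p r) (L : Submodule (ZMod p) (M p)) :
    (L.map (shift p r)).map (gLin g) = (L.map (gLin g)).map (shift p r) := by
  rw [← Submodule.map_comp, ← Submodule.map_comp]
  congr 1
  exact LinearMap.ext (matLin_shift _)

lemma map_gLin_tr (g : Gam0 p r) (q : ℤ) (L : Submodule (ZMod p) (M p)) :
    (L.map (tr p ((r : ℤ) * q)).toLinearMap).map (gLin g) =
      (L.map (gLin g)).map (tr p ((r : ℤ) * q)).toLinearMap := by
  rw [← Submodule.map_comp, ← Submodule.map_comp]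
  congr 1
  exact LinearMap.ext (matLin_tr _ q)

lemma IsOpp.map_gLin {L : Submodule (ZMod p) (M p)} {n : ℤ} (h : IsOpp p r L n) (g : Gam0 p r) :
    IsOpp p r (L.map (gLin g)) n := by
  obtain ⟨a, b, -, ha, hb⟩ := h.1.bounds
  obtain ⟨D, hD⟩ := exists_map_lo_le (g.1 : Matrix (Fin r) (Fin r) (ZMod p)[X])
  obtain ⟨D', hD'⟩ := exists_map_lo_le ((g⁻¹).1 : Matrix (Fin r) (Fin r) (ZMod p)[X])
  have h0 : L.map (gLin g) ⊓ hi p n = ⊥ := by
    rw [← map_gLin_hi g n, ← Submodule.map_inf _ (Function.LeftInverse.injective (gLin_inv_apply g)),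
      h.2, Submodule.map_bot]
  refine ⟨isLat_of_compl (a := a - D') (b := b + D) ?_ ?_ ?_ h0 ?_, h0⟩
  · rw [← map_gLin_shift]
    exact Submodule.map_mono h.1.stable
  · intro x hx
    refine ⟨gLin g⁻¹ x, ha ?_, gLin_apply_inv g x⟩
    have := hD' (a - D') (Submodule.mem_map_of_mem hx)
    rwa [sub_add_cancel] at this
  · exact (Submodule.map_mono hb).trans (hD b)
  · rw [← map_gLin_hi g n, ← Submodule.map_sup, h.sup_hi, Submodule.map_top,
      LinearMap.range_eq_top.2 fun x => ⟨gLin g⁻¹ x, gLin_apply_inv g x⟩]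

/-- The action on a cell. -/
noncomputable def gCell {k : ℕ} (g : Gam0 p r) (s : (opp p r).X k) : (opp p r).X k :=
  ⟨{ ty := s.1.ty
     lat := fun i => (s.1.lat i).map (gLin g)
     ty_mono := s.1.ty_mono
     isLat := fun i => ((Simp.isOpp s.2 i).map_gLin g).1
     mono := fun _ _ hij => Submodule.map_mono (s.1.mono hij)
     wrap := fun i j => by
       rw [← map_gLin_shift]
       exact Submodule.map_mono (s.1.wrap i j) },
   fun i => ((Simp.isOpp s.2 i).map_gLin g).2⟩

lemma gCell_one {k : ℕ} (s : (opp p r).X k) : gCell (1 : Gam0 p r) s = s :=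
  Subtype.ext (Simp.ext rfl (funext fun i => map_gLin_one (s.1.lat i)))

lemma gCell_mul {k : ℕ} (g h : Gam0 p r) (s : (opp p r).X k) :
    gCell (g * h) s = gCell g (gCell h s) :=
  Subtype.ext (Simp.ext rfl (funext fun i => map_gLin_mul g h (s.1.lat i)))

/-- The action of `Gam0` on the opposite complex. -/
noncomputable def gamAct (p r : ℕ) [Fact p.Prime] [NeZero r] :
    SS.Act (Gam0 p r) (opp p r) where
  act k :=
    { toFun := fun g =>
        { toFun := gCell g
          invFun := gCell g⁻¹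
          left_inv := fun s => by rw [← gCell_mul, inv_mul_cancel, gCell_one]
          right_inv := fun s => by rw [← gCell_mul, mul_inv_cancel, gCell_one] }
      map_one' := Equiv.ext gCell_one
      map_mul' := fun g h => Equiv.ext fun s => gCell_mul g h s }
  face_act _ _ _ _ := rfl

/-! ### Stabilisers -/

/-- A fixed lattice bounds the elements fixing it. -/
lemma finite_fix {L : Submodule (ZMod p) (M p)} {n : ℤ} (h : IsLat p r L n) :
    {g : Gam0 p r | L.map (gLin g) = L}.Finite := by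
  classical
  obtain ⟨a, b, -, ha, hb⟩ := h.bounds
  obtain ⟨j, hj⟩ : ∃ j : ℕ, (r : ℤ) ≤ a + (r : ℤ) * j := by
    refine ⟨((r : ℤ) - a).toNat, ?_⟩
    have : (((r : ℤ) - a).toNat : ℤ) ≤ (r : ℤ) * (((r : ℤ) - a).toNat : ℤ) :=
      le_mul_of_one_le_left (by omega) (r_pos (r := r))
    omega
  obtain ⟨B, hB⟩ : ∃ B : ℕ, b + (r : ℤ) * j ≤ B := ⟨(b + (r : ℤ) * j).toNat, by omega⟩
  let F : {g : Gam0 p r | L.map (gLin g) = L} → (Fin r → Fin r → Fin B → ZMod p) :=
    fun g b a l => ((g.1.1 : Matrix (Fin r) (Fin r) (ZMod p)[X]) b a).coeff l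
  refine Set.finite_coe_iff.1 (Finite.of_injective F fun g g' hgg => Subtype.ext (Subtype.ext
    (Subtype.ext (Matrix.ext fun b' a' => Polynomial.ext fun l => ?_))))
  rcases lt_or_ge l B with hl | hl
  · exact congrFun (congrFun (congrFun hgg b') a') ⟨l, hl⟩
  · have hzero : ∀ g : {g : Gam0 p r | L.map (gLin g) = L},
        ((g.1.1 : Matrix (Fin r) (Fin r) (ZMod p)[X]) b' a').coeff l = 0 := by
      intro g
      have h1 : Finsupp.single ((a' : ℕ) : ℤ) (1 : ZMod p) ∈
          L.map (tr p ((r : ℤ) * j)).toLinearMap := by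
        refine Submodule.map_mono ha ?_
        rw [map_tr_lo, mem_lo]
        intro k hk
        exact Finsupp.single_eq_of_ne (by omega)
      have h2 : gLin g.1 (Finsupp.single ((a' : ℕ) : ℤ) (1 : ZMod p)) ∈ lo p (B : ℤ) := by
        have h3 := Submodule.mem_map_of_mem (f := gLin g.1) h1
        rw [map_gLin_tr, g.2] at h3
        have h4 := Submodule.map_mono hb h3
        rw [map_tr_lo] at h4
        exact lo_mono hB h4
      rw [gLin, matLin_single, one_smul, matVec_eq, coord_fin,
        Int.ediv_eq_zero_of_lt (by omega) (by omega)] at h2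
      rw [← emb_coeff (0 : ℤ) (fun b => (g.1.1 : Matrix (Fin r) (Fin r) (ZMod p)[X]) b a') b' l]
      refine mem_lo.1 h2 _ ?_
      have : (l : ℤ) ≤ (r : ℤ) * l := le_mul_of_one_le_left (by omega) (r_pos (r := r))
      rw [zero_add]
      omega
    rw [hzero g, hzero g']

lemma oddStab (hp : p ≠ 2) : (gamAct p r).OddStab := by
  intro k hk s
  have hfin : {g : Gam0 p r | (gamAct p r).act k g s = s}.Finite := by
    refine (finite_fix (s.1.isLat ⟨0, hk⟩)).subset fun g hg => ?_
    exact congrFun (congrArg (fun t : (opp p r).X k => t.1.lat) hg) ⟨0, hk⟩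
  refine ⟨hfin, ?_⟩
  let H : Subgroup (Gam0 p r) :=
    { carrier := {g | (gamAct p r).act k g s = s}
      one_mem' := by simp
      mul_mem' := fun {g h} hg hh => by
        simp only [Set.mem_ofPred_eq, map_mul, Equiv.Perm.mul_apply] at *
        rw [hh, hg]
      inv_mem' := fun {g} hg => by
        simp only [Set.mem_ofPred_eq, map_inv, Equiv.Perm.inv_def] at *
        rw [Equiv.symm_apply_eq]
        exact hg.symm }
  have : Finite H := hfin.to_subtype
  rw [← Nat.card_coe_set_eq, Nat.odd_iff]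
  by_contra hodd
  obtain ⟨g, hg⟩ := exists_prime_orderOf_dvd_card' (G := H) 2 (hp := ⟨Nat.prime_two⟩)
    (show 2 ∣ Nat.card H from Nat.dvd_of_mod_eq_zero (Nat.mod_two_ne_one.1 hodd))
  have h2 : g ^ 2 = 1 := hg ▸ pow_orderOf_eq_one g
  have h1 : g.1.1 = 1 := eq_one_of_sq_eq_one hp g.1.2 (by
    rw [← sq]
    exact congrArg (fun x : H => x.1.1) h2)
  have : g = 1 := Subtype.ext (Subtype.ext h1)
  rw [this, orderOf_one] at hg
  exact absurd hg (by norm_num)

/-! ### Transitivity -/

/-- An opposite chamber is the image of the standard one. -/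
lemma exists_of_chamber (c : Simp p r r) (hc : c.Opposite) (hty : c.ty = id) :
    ∃ g : Gam0 p r, ∀ i : Fin r, c.lat i = (lo p ((i : ℕ) : ℤ)).map (gLin g) := by
  classical
  have hmem : ∀ n, c.Mem n := fun n => ⟨coord r n, by rw [hty]; rfl⟩
  set L := c.fam with hL
  have hopp : ∀ n, IsOpp p r (L n) n := fun n => Simp.fam_opp hc (hmem n)
  have hmono : ∀ m n, m ≤ n → L m ≤ L n := fun m n => Simp.fam_mono (hmem m) (hmem n)
  -- the normalised vectors
  have hv0 : ∀ n : ℤ, ∃ x ∈ L (n + 1), x ∈ hi p n ∧ x n = 1 := by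
    intro n
    obtain ⟨x, hx, hxh⟩ := (hopp (n + 1)).exists_sub_mem (Finsupp.single n 1)
    have h1 : ∀ j, j < n + 1 → x j = Finsupp.single n (1 : ZMod p) j := fun j hj => by
      have := mem_hi.1 hxh j hj
      rwa [Finsupp.sub_apply, sub_eq_zero, eq_comm] at this
    refine ⟨x, hx, mem_hi.2 fun j hj => ?_, by rw [h1 n (by omega), Finsupp.single_eq_same]⟩
    rw [h1 j (by omega), Finsupp.single_eq_of_ne (by omega)]
  choose v hvL hvhi hv1 using fun a : Fin r => hv0 ((a : ℕ) : ℤ)
  -- vectors with nonnegative support have polynomial coordinates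
  have hsurj : ∀ x ∈ hi p 0, ∃ u : Fin r → (ZMod p)[X], emb p r 0 u = x := by
    intro x hx
    rw [hi, Finsupp.supported_eq_span_single] at hx
    induction hx using Submodule.span_induction with
    | mem y hy =>
      obtain ⟨k, hk, rfl⟩ := hy
      simp only [Set.mem_Ici] at hk
      refine ⟨Pi.single (coord r k) (monomial (k / (r : ℤ)).toNat 1), ?_⟩
      rw [emb_apply, Finset.sum_eq_single (coord r k)
        (fun b _ hb => by simp [Pi.single_eq_of_ne hb]) (by simp), Pi.single_eq_same,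
        Polynomial.sum_monomial_index _ _ (by simp)]
      have := Int.emod_add_mul_ediv k r
      have h0 : 0 ≤ k / (r : ℤ) := Int.ediv_nonneg hk (by omega)
      have h1 := coord_val (r := r) k
      rw [zero_add, Int.toNat_of_nonneg h0]
      congr 1
      omega
    | zero => exact ⟨0, map_zero _⟩
    | add y z _ _ hy hz =>
      obtain ⟨u, rfl⟩ := hy
      obtain ⟨u', rfl⟩ := hz
      exact ⟨u + u', map_add _ _ _⟩
    | smul a y _ hy =>
      obtain ⟨u, rfl⟩ := hy
      exact ⟨a • u, map_smul _ _ _⟩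
  have hv' : ∀ a : Fin r, v a ∈ hi p 0 := fun a => hi_anti (by omega) (hvhi a)
  choose col hcol using fun a => hsurj _ (hv' a)
  set G : Matrix (Fin r) (Fin r) (ZMod p)[X] := Matrix.of fun b a => col a b with hG
  -- the images of the basis vectors
  have hGk : ∀ k : ℤ, matVec p r G k ∈ L (k + 1) ∧ matVec p r G k ∈ hi p k ∧
      matVec p r G k k = 1 := by
    intro k
    have hk := Int.emod_add_mul_ediv k r
    have hk' := coord_val (r := r) k
    have e : matVec p r G k = tr p ((r : ℤ) * (k / (r : ℤ))) (v (coord r k)) := by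
      rw [matVec_eq, ← hcol, ← emb_tr, zero_add]
      rfl
    rw [e]
    refine ⟨?_, ?_, ?_⟩
    · rw [show k + 1 = (((coord r k : Fin r) : ℕ) : ℤ) + 1 + (r : ℤ) * (k / (r : ℤ)) by omega]
      rw [hL, Simp.fam_add]
      exact Submodule.mem_map_of_mem (hvL _)
    · refine mem_hi.2 fun j hj => ?_
      rw [tr_apply]
      exact mem_hi.1 (hvhi _) _ (by omega)
    · rw [tr_apply, show k - (r : ℤ) * (k / (r : ℤ)) = ((coord r k : Fin r) : ℕ) by omega]
      exact hv1 _
  have hlo : ∀ n, (lo p n).map (matLin p r G) ≤ L n := by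
    intro n
    rw [lo, Finsupp.supported_eq_span_single, Submodule.map_span_le]
    rintro _ ⟨k, hk, rfl⟩
    simp only [Set.mem_Iio] at hk
    rw [matLin_single, one_smul]
    exact hmono _ _ (by omega) (hGk k).1
  -- `G` maps `hi 0` onto itself
  have honto : ∀ m : ℕ, ∀ x ∈ L (m : ℤ), x ∈ hi p 0 → ∃ y ∈ hi p 0, matLin p r G y = x := by
    intro m
    induction m with
    | zero =>
      intro x hx hx'
      exact ⟨0, zero_mem _, by rw [map_zero, (hopp 0).eq_zero (by simpa using hx) hx']⟩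
    | succ m ih =>
      intro x hx hx'
      obtain ⟨l, hl, hlx⟩ := (hopp (m : ℤ)).exists_sub_mem x
      set h := x - l with hh
      have hhL : h ∈ L ((m : ℤ) + 1) := by
        refine Submodule.sub_mem _ ?_ (hmono _ _ (by omega) hl)
        exact_mod_cast hx
      obtain ⟨g1, g2, g3⟩ := hGk (m : ℤ)
      have hrest : h - h (m : ℤ) • matVec p r G (m : ℤ) = 0 := by
        refine (hopp ((m : ℤ) + 1)).eq_zero (Submodule.sub_mem _ hhL (Submodule.smul_mem _ _ g1))
          (mem_hi.2 fun j hj => ?_)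
        rw [Finsupp.sub_apply, Finsupp.smul_apply, smul_eq_mul]
        rcases lt_or_ge j (m : ℤ) with hjm | hjm
        · rw [mem_hi.1 hlx j hjm, mem_hi.1 g2 j hjm, mul_zero, sub_zero]
        · rw [show j = (m : ℤ) by omega, g3, mul_one, sub_self]
      have hl' : l ∈ hi p 0 := by
        have := (hi p 0).sub_mem hx' (hi_anti (by omega) hlx)
        rwa [hh, sub_sub_cancel] at this
      obtain ⟨y, hy, hyl⟩ := ih l hl hl'
      refine ⟨y + Finsupp.single (m : ℤ) (h (m : ℤ)), Submodule.add_mem _ hy (mem_hi.2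
        fun j hj => Finsupp.single_eq_of_ne (by omega)), ?_⟩
      rw [map_add, hyl, matLin_single, ← sub_eq_zero.1 hrest, hh, add_sub_cancel]
  -- right inverse
  have hinv : ∀ b : Fin r, ∃ u : Fin r → (ZMod p)[X],
      G.mulVec u = Pi.single b 1 := by
    intro b
    obtain ⟨a, -, -, ha, -⟩ := (hopp 0).1.bounds
    obtain ⟨j, hj⟩ : ∃ j : ℕ, (r : ℤ) ≤ a + (r : ℤ) * j := by
      refine ⟨((r : ℤ) - a).toNat, ?_⟩
      have : (((r : ℤ) - a).toNat : ℤ) ≤ (r : ℤ) * (((r : ℤ) - a).toNat : ℤ) :=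
        le_mul_of_one_le_left (by omega) (r_pos (r := r))
      omega
    have h1 : Finsupp.single ((b : ℕ) : ℤ) (1 : ZMod p) ∈ L (((r * j : ℕ) : ℤ)) := by
      rw [show ((r * j : ℕ) : ℤ) = 0 + (r : ℤ) * j by push_cast; ring, hL, Simp.fam_add]
      refine Submodule.map_mono ha ?_
      rw [map_tr_lo, mem_lo]
      intro k hk
      exact Finsupp.single_eq_of_ne (by omega)
    obtain ⟨y, hy, hyb⟩ := honto (r * j) _ h1
      (mem_hi.2 fun k hk => Finsupp.single_eq_of_ne (by omega))
    obtain ⟨u, rfl⟩ := hsurj y hy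
    refine ⟨u, emb_injective (0 : ℤ) ?_⟩
    rw [← matLin_emb, hyb, emb_apply, Finset.sum_eq_single b
      (fun b' _ hb' => by simp [Pi.single_eq_of_ne hb']) (by simp), Pi.single_eq_same,
      ← monomial_zero_one, Polynomial.sum_monomial_index _ _ (by simp)]
    simp
  choose U hU using hinv
  have hGH : G * (Matrix.of fun b a => U a b) = 1 := by
    refine Matrix.ext fun b a => ?_
    have := congrFun (hU a) b
    rw [Matrix.one_apply]
    rw [Pi.single_apply] at this
    rw [← this]
    rfl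
  -- the determinant
  have hcoef : ∀ b a : Fin r, b ≤ a →
      (G b a).coeff 0 = if b = a then 1 else 0 := by
    intro b a hba
    have e := emb_coeff (p := p) (0 : ℤ) (col a) b 0
    rw [hcol, Nat.cast_zero, add_zero, mul_zero, add_zero] at e
    rw [hG, Matrix.of_apply, ← e]
    split_ifs with h
    · rw [h]; exact hv1 a
    · exact mem_hi.1 (hvhi a) _ (by
        have : (b : ℕ) < (a : ℕ) := lt_of_le_of_ne hba (fun hh => h (Fin.ext hh))
        omega)
  have hdetu : IsUnit G.det := IsUnit.of_mul_eq_one _ (by rw [← Matrix.det_mul, hGH, Matrix.det_one])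
  obtain ⟨u, -, hu⟩ := Polynomial.isUnit_iff.1 hdetu
  have hev : Polynomial.eval 0 G.det = 1 := by
    rw [← Polynomial.coe_evalRingHom, RingHom.map_det,
      Matrix.det_of_isLowerTriangular _ (fun i j hij => ?_)]
    · refine Finset.prod_eq_one fun i _ => ?_
      rw [RingHom.mapMatrix_apply, Matrix.map_apply, Polynomial.coe_evalRingHom,
        ← coeff_zero_eq_eval_zero, hcoef i i le_rfl, if_pos rfl]
    · have hlt : i < j := hij
      rw [RingHom.mapMatrix_apply, Matrix.map_apply, Polynomial.coe_evalRingHom,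
        ← coeff_zero_eq_eval_zero, hcoef i j hlt.le, if_neg hlt.ne]
  have hdet : G.det = 1 := by
    rw [← hu, eval_C] at hev
    rw [← hu, hev, map_one]
  have hgam : (⟨G, hdet⟩ : SL p r) ∈ Gam0 p r := mem_Gam0.2
    ⟨fun i j hij => by
      show (G i j).coeff 0 = 0
      rw [hcoef i j hij.le, if_neg hij.ne],
     fun i => by
      show (G i i).coeff 0 = 1
      rw [hcoef i i le_rfl, if_pos rfl]⟩
  refine ⟨⟨⟨G, hdet⟩, hgam⟩, fun i => ?_⟩
  have h1 := (isOpp_lo (p := p) (r := r) ((i : ℕ) : ℤ)).map_gLin ⟨⟨G, hdet⟩, hgam⟩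
  have h2 := h1.1.eq_of_le (hopp _).1 (hlo _)
  rw [h2, hL]
  have := Simp.fam_ty (s := c) i
  rw [hty] at this
  exact this.symm

lemma transitive (k : ℕ) (s t : (opp p r).X k) (h : s.1.ty = t.1.ty) :
    ∃ g : Gam0 p r, (gamAct p r).act k g s = t := by
  have key : ∀ s : (opp p r).X k, ∃ g : Gam0 p r,
      ∀ i, s.1.lat i = (lo p ((s.1.ty i : ℕ) : ℤ)).map (gLin g) := by
    intro s
    obtain ⟨c, hc, hty, hext⟩ := exists_chamber s.1 s.2
    obtain ⟨g, hg⟩ := exists_of_chamber c hc hty
    exact ⟨g, fun i => by rw [← hext i, hg]⟩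
  obtain ⟨gs, hs⟩ := key s
  obtain ⟨gt, ht⟩ := key t
  refine ⟨gt * gs⁻¹, Subtype.ext (Simp.ext h (funext fun i => ?_))⟩
  show (s.1.lat i).map (gLin (gt * gs⁻¹)) = t.1.lat i
  rw [hs, ← map_gLin_mul, inv_mul_cancel_right, ht, h]

/-- Module F. -/
theorem gammaAction : GammaAction := by
  intro p r _ _ hp
  exact ⟨gamAct p r, oddStab hp, fun k g s => ⟨rfl, fun i => rfl⟩, transitive⟩

end Vale.Agent.P067.Full
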