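import Vale.Agent.P067.Full.Building

/-!
Basics on lattices in `F_p[t, 1/t]^r`: the index is well defined and strictly monotone, shifts,
a lattice is opposite to the fixed flag iff it is a complement of the flag member of its index,
the residue space of a lattice, and the extension of opposite chains to opposite chambers.
-/

namespace Vale.Agent.P067.Full

open Submodule

variable {p r : ℕ}

/-! ### Coordinates and translations -/

lemma mem_hi {n : ℤ} {x : M p} : x ∈ hi p n ↔ ∀ k, k < n → x k = 0 := by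
  simp only [hi, Finsupp.mem_supported', Set.mem_Ici, not_le]

lemma mem_lo {n : ℤ} {x : M p} : x ∈ lo p n ↔ ∀ k, n ≤ k → x k = 0 := by
  simp only [lo, Finsupp.mem_supported', Set.mem_Iio, not_lt]

lemma hi_anti {m n : ℤ} (h : m ≤ n) : hi p n ≤ hi p m :=
  Finsupp.supported_mono (Set.Ici_subset_Ici.2 h)

lemma lo_mono {m n : ℤ} (h : m ≤ n) : lo p m ≤ lo p n :=
  Finsupp.supported_mono (Set.Iio_subset_Iio h)

lemma lo_inf_hi (n : ℤ) : lo p n ⊓ hi p n = ⊥ := by
  refine eq_bot_iff.2 fun x ⟨hl, hh⟩ => ?_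
  refine (Submodule.mem_bot _).2 (Finsupp.ext fun k => ?_)
  rcases lt_or_ge k n with h | h
  · exact mem_hi.1 hh k h
  · exact mem_lo.1 hl k h

lemma lo_sup_hi (n : ℤ) : lo p n ⊔ hi p n = ⊤ := by
  rw [lo, hi, ← Finsupp.supported_union, Set.Iio_union_Ici, Finsupp.supported_univ]

/-- A vector vanishing on `[a, n)` is a low part plus a high part. -/
lemma mem_lo_sup_hi {a n : ℤ} {x : M p} (h : ∀ k, a ≤ k → k < n → x k = 0) :
    x ∈ lo p a ⊔ hi p n := by
  rw [lo, hi, ← Finsupp.supported_union, Finsupp.mem_supported']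
  intro k hk
  simp only [Set.mem_union, Set.mem_Iio, Set.mem_Ici, not_or, not_lt, not_le] at hk
  exact h k hk.1 hk.2

/-- The translation of the indices by `c`. -/
noncomputable def tr (p : ℕ) (c : ℤ) : M p ≃ₗ[ZMod p] M p :=
  Finsupp.domLCongr (Equiv.addRight c)

lemma tr_apply (c : ℤ) (x : M p) (k : ℤ) : tr p c x k = x (k - c) := by
  simp [tr, sub_eq_add_neg]

lemma tr_single (c k : ℤ) (v : ZMod p) :
    tr p c (Finsupp.single k v) = Finsupp.single (k + c) v := by
  simp [tr]

lemma shift_eq_tr (p r : ℕ) : shift p r = (tr p (r : ℤ)).toLinearMap := by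
  refine Finsupp.lhom_ext fun k v => ?_
  simp [shift, tr_single]

lemma map_tr_supported (c : ℤ) (s : Set ℤ) :
    (Finsupp.supported (ZMod p) (ZMod p) s).map (tr p c).toLinearMap =
      Finsupp.supported (ZMod p) (ZMod p) {k | k - c ∈ s} := by
  ext x
  rw [Submodule.mem_map_equiv, Finsupp.mem_supported', Finsupp.mem_supported']
  constructor
  · intro h k hk
    have := h (k - c) hk
    rwa [← tr_apply, LinearEquiv.apply_symm_apply] at this
  · intro h k hk
    have := h (k + c) (show ¬ k + c - c ∈ s by rwa [add_sub_cancel_right])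
    rw [← LinearEquiv.apply_symm_apply (tr p c) x, tr_apply, add_sub_cancel_right] at this
    exact this

lemma map_tr_hi (c n : ℤ) : (hi p n).map (tr p c).toLinearMap = hi p (n + c) := by
  rw [hi, map_tr_supported, hi]
  congr 1
  ext k
  simp only [Set.mem_ofPred_eq, Set.mem_Ici]
  omega

lemma map_tr_lo (c n : ℤ) : (lo p n).map (tr p c).toLinearMap = lo p (n + c) := by
  rw [lo, map_tr_supported, lo]
  congr 1
  ext k
  simp only [Set.mem_ofPred_eq, Set.mem_Iio]
  omega

lemma tr_tr (c c' : ℤ) (x : M p) : tr p c (tr p c' x) = tr p (c + c') x := by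
  ext k
  simp only [tr_apply]
  congr 1
  omega

lemma map_tr_tr (c c' : ℤ) (L : Submodule (ZMod p) (M p)) :
    (L.map (tr p c').toLinearMap).map (tr p c).toLinearMap =
      L.map (tr p (c + c')).toLinearMap := by
  rw [← Submodule.map_comp]
  congr 1
  exact LinearMap.ext fun x => tr_tr c c' x

lemma map_tr_zero (L : Submodule (ZMod p) (M p)) : L.map (tr p 0).toLinearMap = L := by
  have h : (tr p 0).toLinearMap = LinearMap.id := by
    refine LinearMap.ext fun x => Finsupp.ext fun k => ?_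
    simp [tr_apply]
  rw [h, Submodule.map_id]

lemma map_tr_inf (c : ℤ) (L L' : Submodule (ZMod p) (M p)) :
    (L ⊓ L').map (tr p c).toLinearMap =
      L.map (tr p c).toLinearMap ⊓ L'.map (tr p c).toLinearMap :=
  Submodule.map_inf _ (tr p c).injective

/-- A lattice stable under `1/t` grows under positive multiples of the period. -/
lemma le_map_tr {L : Submodule (ZMod p) (M p)} (h : L ≤ L.map (shift p r)) :
    ∀ m : ℕ, L ≤ L.map (tr p ((r : ℤ) * m)).toLinearMap := by
  intro m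
  induction m with
  | zero => simp [map_tr_zero]
  | succ m ih =>
    refine h.trans ((Submodule.map_mono ih).trans ?_)
    rw [shift_eq_tr, map_tr_tr]
    rw [show (r : ℤ) + (r : ℤ) * m = (r : ℤ) * ((m + 1 : ℕ) : ℤ) by push_cast; ring]

/-! ### Windows -/

/-- The coordinates in `[a, b)`. -/
noncomputable def win (p : ℕ) (a b : ℤ) : M p →ₗ[ZMod p] (Finset.Ico a b → ZMod p) :=
  LinearMap.pi fun k => Finsupp.lapply (k : ℤ)

lemma win_eq_zero {a b : ℤ} {x : M p} : win p a b x = 0 ↔ ∀ k, a ≤ k → k < b → x k = 0 := by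
  simp [win, funext_iff, Finset.mem_Ico]

lemma exists_win {a b : ℤ} (f : Finset.Ico a b → ZMod p) :
    ∃ x : M p, x ∈ Finsupp.supported (ZMod p) (ZMod p) (Set.Ico a b) ∧ win p a b x = f := by
  classical
  refine ⟨(Finsupp.equivFunOnFinite.symm f).mapDomain Subtype.val, ?_, ?_⟩
  · rw [Finsupp.mem_supported']
    intro k hk
    refine Finsupp.mapDomain_of_notMem_range _ _ ?_
    rintro ⟨⟨j, hj⟩, rfl⟩
    exact hk (Finset.mem_Ico.1 hj)
  · funext k
    simp [win, Finsupp.mapDomain_apply Subtype.val_injective]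

lemma win_ker_eq {a b : ℤ} {x : M p} (hx : x ∈ lo p b) :
    win p a b x = 0 ↔ x ∈ lo p a := by
  rw [win_eq_zero, mem_lo]
  constructor
  · intro h k hk
    rcases lt_or_ge k b with hb | hb
    · exact h k hk hb
    · exact mem_lo.1 hx k hb
  · exact fun h k hk _ => h k hk

lemma mkQ_lo_ker_eq {a b : ℤ} {x : M p} (hx : x ∈ lo p b) :
    (lo p a).mkQ x = 0 ↔ win p a b x = 0 := by
  rw [win_ker_eq hx, Submodule.mkQ_apply, Submodule.Quotient.mk_eq_zero]

lemma le_of_lo_le_lo [Fact p.Prime] {a b : ℤ} (h : lo p a ≤ lo p b) : a ≤ b := by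
  by_contra hh
  have := mem_lo.1 (h (mem_lo.2 fun k hk => by
    rw [Finsupp.single_eq_of_ne (show k ≠ b by omega)] : Finsupp.single b (1 : ZMod p) ∈ lo p a))
    b le_rfl
  simp at this

section Linear

variable {K V V₁ V₂ : Type*} [Field K] [AddCommGroup V] [Module K V] [AddCommGroup V₁]
  [Module K V₁] [AddCommGroup V₂] [Module K V₂]

lemma finrank_map_congr (L : Submodule K V) (f : V →ₗ[K] V₁) (g : V →ₗ[K] V₂)
    (h : ∀ x ∈ L, f x = 0 ↔ g x = 0) :
    Module.finrank K (L.map f) = Module.finrank K (L.map g) := by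
  have hker : LinearMap.ker (f.comp L.subtype) = LinearMap.ker (g.comp L.subtype) := by
    ext ⟨x, hx⟩
    simpa using h x hx
  have e₁ := (f.comp L.subtype).quotKerEquivRange.finrank_eq
  have e₂ := (g.comp L.subtype).quotKerEquivRange.finrank_eq
  rw [LinearMap.range_comp, Submodule.range_subtype] at e₁ e₂
  rw [← e₁, ← e₂, hker]

lemma finrank_map_add_ker [FiniteDimensional K V] (S : Submodule K V) (f : V →ₗ[K] V₁)
    (h : LinearMap.ker f ≤ S) :
    Module.finrank K (S.map f) + Module.finrank K (LinearMap.ker f) = Module.finrank K S := by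
  have e := (f.comp S.subtype).finrank_range_add_finrank_ker
  rw [LinearMap.range_comp, Submodule.range_subtype] at e
  rw [LinearMap.ker_comp, (Submodule.comapSubtypeEquivOfLe h).finrank_eq] at e
  exact e

end Linear

variable [Fact p.Prime]

lemma finrank_win_left {L : Submodule (ZMod p) (M p)} {a' a b : ℤ} (haa : a' ≤ a) (hab : a ≤ b)
    (hL : lo p a ≤ L) :
    (Module.finrank (ZMod p) (L.map (win p a' b)) : ℤ) =
      Module.finrank (ZMod p) (L.map (win p a b)) + (a - a') := by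
  set res : (Finset.Ico a' b → ZMod p) →ₗ[ZMod p] (Finset.Ico a b → ZMod p) :=
    LinearMap.funLeft (ZMod p) (ZMod p) fun k =>
      ⟨k, Finset.mem_Ico.2 ⟨haa.trans (Finset.mem_Ico.1 k.2).1, (Finset.mem_Ico.1 k.2).2⟩⟩
    with hres
  have hcomp : res.comp (win p a' b) = win p a b := by
    ext x k
    simp [hres, win, LinearMap.funLeft]
  have hker : LinearMap.ker res ≤ L.map (win p a' b) := by
    intro f hf
    obtain ⟨x, hx, rfl⟩ := exists_win f
    refine ⟨x, hL ?_, rfl⟩
    rw [LinearMap.mem_ker, ← LinearMap.comp_apply, hcomp] at hf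
    refine (win_ker_eq ?_).1 hf
    exact Finsupp.supported_mono Set.Ico_subset_Iio_self hx
  have h1 := finrank_map_add_ker (L.map (win p a' b)) res hker
  rw [← Submodule.map_comp, hcomp] at h1
  have h2 := res.finrank_range_add_finrank_ker
  have hsurj : Function.Surjective res :=
    LinearMap.funLeft_surjective_of_injective _ _ _ fun k k' hk => Subtype.ext
      (congrArg Subtype.val hk :)
  rw [LinearMap.range_eq_top.2 hsurj, finrank_top] at h2
  simp only [Module.finrank_fintype_fun_eq_card, Fintype.card_coe, Int.card_Ico] at h2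
  rw [← h1]
  push_cast
  omega

/-- The index computed in any window containing the lattice. -/
lemma IsLat.finrank_win {L : Submodule (ZMod p) (M p)} {n a b : ℤ} (h : IsLat p r L n)
    (ha : lo p a ≤ L) (hb : L ≤ lo p b) :
    (Module.finrank (ZMod p) (L.map (win p a b)) : ℤ) = n - a := by
  obtain ⟨-, a₀, b₀, ha₀, hb₀, hn⟩ := h
  have hab := le_of_lo_le_lo (ha.trans hb)
  have h0 := le_of_lo_le_lo (ha₀.trans hb)
  have e : ∀ a₁ b₁, L ≤ lo p b₁ → Module.finrank (ZMod p) (L.map (lo p a₁).mkQ) =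
      Module.finrank (ZMod p) (L.map (win p a₁ b₁)) := fun a₁ b₁ hb₁ =>
    finrank_map_congr L _ _ fun x hx => mkQ_lo_ker_eq (hb₁ hx)
  rw [e a₀ b hb] at hn
  have h1 := finrank_win_left (min_le_left a a₀) hab ha
  have h2 := finrank_win_left (min_le_right a a₀) h0 ha₀
  omega

lemma IsLat.bounds {L : Submodule (ZMod p) (M p)} {n : ℤ} (h : IsLat p r L n) :
    ∃ a b : ℤ, a ≤ n ∧ lo p a ≤ L ∧ L ≤ lo p b := by
  obtain ⟨-, a, b, ha, hb, hn⟩ := h
  exact ⟨a, b, by omega, ha, hb⟩

lemma IsLat.stable {L : Submodule (ZMod p) (M p)} {n : ℤ} (h : IsLat p r L n) :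
    L ≤ L.map (shift p r) := h.1

/-- Common window for two lattices. -/
lemma IsLat.common {L L' : Submodule (ZMod p) (M p)} {n n' : ℤ} (h : IsLat p r L n)
    (h' : IsLat p r L' n') :
    ∃ a b : ℤ, lo p a ≤ L ∧ L ≤ lo p b ∧ lo p a ≤ L' ∧ L' ≤ lo p b := by
  obtain ⟨a, b, -, ha, hb⟩ := h.bounds
  obtain ⟨a', b', -, ha', hb'⟩ := h'.bounds
  exact ⟨min a a', max b b', (lo_mono (min_le_left _ _)).trans ha,
    hb.trans (lo_mono (le_max_left _ _)), (lo_mono (min_le_right _ _)).trans ha',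
    hb'.trans (lo_mono (le_max_right _ _))⟩

lemma IsLat.index_le {L L' : Submodule (ZMod p) (M p)} {n n' : ℤ} (h : IsLat p r L n)
    (h' : IsLat p r L' n') (hle : L ≤ L') : n ≤ n' := by
  obtain ⟨a, b, ha, hb, ha', hb'⟩ := h.common h'
  have e := h.finrank_win ha hb
  have e' := h'.finrank_win ha' hb'
  have := Submodule.finrank_mono (Submodule.map_mono (f := win p a b) hle)
  omega

/-- The index is well defined. -/
lemma IsLat.index_unique {L : Submodule (ZMod p) (M p)} {n n' : ℤ} (h : IsLat p r L n)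
    (h' : IsLat p r L n') : n = n' :=
  le_antisymm (h.index_le h' le_rfl) (h'.index_le h le_rfl)

/-- Nested lattices of the same index are equal. -/
lemma IsLat.eq_of_le {L L' : Submodule (ZMod p) (M p)} {n : ℤ} (h : IsLat p r L n)
    (h' : IsLat p r L' n) (hle : L ≤ L') : L = L' := by
  refine le_antisymm hle fun x hx => ?_
  obtain ⟨a, b, ha, hb, ha', hb'⟩ := h.common h'
  have e := h.finrank_win ha hb
  have e' := h'.finrank_win ha' hb'
  have heq := Submodule.eq_of_le_of_finrank_eq (Submodule.map_mono (f := win p a b) hle)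
    (by omega)
  obtain ⟨y, hy, hxy⟩ : win p a b x ∈ L.map (win p a b) := heq ▸ Submodule.mem_map_of_mem hx
  have : x - y ∈ lo p a :=
    (win_ker_eq (Submodule.sub_mem _ (hb' hx) (hb hy))).1 (by rw [map_sub, hxy, sub_self])
  simpa using L.add_mem (ha this) hy

/-- The relative dimension of nested lattices. -/
lemma IsLat.finrank_quot {L L' : Submodule (ZMod p) (M p)} {n n' : ℤ} (h : IsLat p r L n)
    (h' : IsLat p r L' n') (hle : L ≤ L') :
    (Module.finrank (ZMod p) (L'.map L.mkQ) : ℤ) = n' - n := by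
  obtain ⟨a, b, ha, hb, ha', hb'⟩ := h.common h'
  have e := h.finrank_win ha hb
  have e' := h'.finrank_win ha' hb'
  have hc : Module.finrank (ZMod p) (L'.map L.mkQ) =
      Module.finrank (ZMod p) ((L'.map (win p a b)).map (L.map (win p a b)).mkQ) := by
    rw [← Submodule.map_comp]
    refine finrank_map_congr _ _ _ fun x hx => ?_
    simp only [LinearMap.comp_apply, Submodule.mkQ_apply, Submodule.Quotient.mk_eq_zero]
    refine ⟨Submodule.mem_map_of_mem, fun ⟨y, hy, hxy⟩ => ?_⟩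
    have : x - y ∈ lo p a :=
      (win_ker_eq (Submodule.sub_mem _ (hb' hx) (hb hy))).1 (by rw [map_sub, hxy, sub_self])
    simpa using L.add_mem (ha this) hy
  have h1 := finrank_map_add_ker (L'.map (win p a b)) (L.map (win p a b)).mkQ
    (by rw [Submodule.ker_mkQ]; exact Submodule.map_mono hle)
  rw [Submodule.ker_mkQ] at h1
  omega

lemma IsLat.map_tr {L : Submodule (ZMod p) (M p)} {n : ℤ} (h : IsLat p r L n) (c : ℤ) :
    IsLat p r (L.map (tr p c).toLinearMap) (n + c) := by
  obtain ⟨a, b, -, ha, hb⟩ := h.bounds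
  refine ⟨?_, a + c, b + c, ?_, ?_, ?_⟩
  · have := Submodule.map_mono (f := (tr p c).toLinearMap) h.stable
    rwa [shift_eq_tr, map_tr_tr, add_comm, ← map_tr_tr, ← shift_eq_tr] at this
  · rw [← map_tr_lo]; exact Submodule.map_mono ha
  · rw [← map_tr_lo]; exact Submodule.map_mono hb
  · have e := h.finrank_win ha hb
    rw [← finrank_map_congr L (lo p a).mkQ (win p a b) fun x hx => mkQ_lo_ker_eq (hb hx)] at e
    rw [← Submodule.map_comp, finrank_map_congr L _ (lo p a).mkQ fun x _ => ?_]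
    · omega
    · simp only [LinearMap.comp_apply, Submodule.mkQ_apply, Submodule.Quotient.mk_eq_zero,
        LinearEquiv.coe_coe, ← map_tr_lo]
      rw [Submodule.mem_map_equiv, LinearEquiv.symm_apply_apply]

lemma IsLat.map_shift {L : Submodule (ZMod p) (M p)} {n : ℤ} (h : IsLat p r L n) :
    IsLat p r (L.map (shift p r)) (n + r) := by
  rw [shift_eq_tr]
  exact h.map_tr _

/-! ### Opposite lattices -/

/-- A complement of `hi n` between standard lattices is a lattice of index `n`. -/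
lemma isLat_of_compl {L : Submodule (ZMod p) (M p)} {n a b : ℤ} (hs : L ≤ L.map (shift p r))
    (ha : lo p a ≤ L) (hb : L ≤ lo p b) (hi0 : L ⊓ hi p n = ⊥) (htop : L ⊔ hi p n = ⊤) :
    IsLat p r L n := by
  have han : a ≤ n := by
    by_contra hh
    have h1 : Finsupp.single n (1 : ZMod p) ∈ L ⊓ hi p n :=
      ⟨ha (mem_lo.2 fun k hk => Finsupp.single_eq_of_ne (by omega)),
        mem_hi.2 fun k hk => Finsupp.single_eq_of_ne (by omega)⟩
    rw [hi0, Submodule.mem_bot, Finsupp.single_eq_zero] at h1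
    exact one_ne_zero h1
  refine ⟨hs, a, b, ha, hb, ?_⟩
  rw [finrank_map_congr L (lo p a).mkQ (win p a n) fun x hx => ?_]
  · have htop' : L.map (win p a n) = ⊤ := by
      refine eq_top_iff.2 fun f _ => ?_
      obtain ⟨x, -, rfl⟩ := exists_win f
      obtain ⟨l, hl, h, hh, rfl⟩ := Submodule.mem_sup.1 (htop ▸ mem_top : x ∈ L ⊔ hi p n)
      refine ⟨l, hl, ?_⟩
      rw [map_add, (win_eq_zero (x := h)).2 fun k _ hk => mem_hi.1 hh k hk, add_zero]
    rw [htop', finrank_top, Module.finrank_fintype_fun_eq_card, Fintype.card_coe, Int.card_Ico]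
    omega
  · rw [Submodule.mkQ_apply, Submodule.Quotient.mk_eq_zero]
    constructor
    · exact fun h => win_eq_zero.2 fun k hk _ => mem_lo.1 h k hk
    · intro h
      obtain ⟨l, hl, g, hg, rfl⟩ := Submodule.mem_sup.1 (mem_lo_sup_hi (win_eq_zero.1 h))
      have : g ∈ L ⊓ hi p n := ⟨by simpa using L.sub_mem hx (ha hl), hg⟩
      rw [hi0, Submodule.mem_bot] at this
      simpa [this] using hl

/-- An opposite lattice of index `n` is a complement of `hi n`. -/
lemma IsOpp.sup_hi {L : Submodule (ZMod p) (M p)} {n : ℤ} (h : IsOpp p r L n) :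
    L ⊔ hi p n = ⊤ := by
  obtain ⟨a, b, -, ha, hb⟩ := h.1.bounds
  have e := h.1.finrank_win ha hb
  rw [← finrank_map_congr L (lo p a).mkQ (win p a b) fun x hx => mkQ_lo_ker_eq (hb hx)] at e
  rw [finrank_map_congr L (lo p a).mkQ (win p a n) fun x hx => ?_] at e
  · have htop : L.map (win p a n) = ⊤ := by
      refine Submodule.eq_top_of_finrank_eq ?_
      rw [Module.finrank_fintype_fun_eq_card, Fintype.card_coe, Int.card_Ico]
      omega
    refine eq_top_iff.2 fun x _ => ?_
    obtain ⟨l, hl, hlx⟩ : win p a n x ∈ L.map (win p a n) := htop ▸ mem_top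
    have h0 : win p a n (x - l) = 0 := by rw [map_sub, hlx, sub_self]
    have h1 : x - l ∈ L ⊔ hi p n :=
      sup_le_sup_right ha _ (mem_lo_sup_hi (win_eq_zero.1 h0))
    simpa using Submodule.add_mem _ h1 (Submodule.mem_sup_left hl)
  · rw [Submodule.mkQ_apply, Submodule.Quotient.mk_eq_zero]
    constructor
    · exact fun h => win_eq_zero.2 fun k hk _ => mem_lo.1 h k hk
    · intro h'
      obtain ⟨l, hl, g, hg, rfl⟩ := Submodule.mem_sup.1 (mem_lo_sup_hi (win_eq_zero.1 h'))
      have : g ∈ L ⊓ hi p n := ⟨by simpa using L.sub_mem hx (ha hl), hg⟩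
      rw [h.2, Submodule.mem_bot] at this
      simpa [this] using hl

/-- Opposite is the same as being a complement of `hi n`. -/
lemma isOpp_iff_isCompl {L : Submodule (ZMod p) (M p)} {n : ℤ} (h : IsLat p r L n) :
    IsOpp p r L n ↔ IsCompl L (hi p n) :=
  ⟨fun ho => ⟨disjoint_iff.2 ho.2, codisjoint_iff.2 ho.sup_hi⟩,
    fun hc => ⟨h, disjoint_iff.1 hc.1⟩⟩

/-- The decomposition with respect to an opposite lattice. -/
lemma IsOpp.exists_sub_mem {L : Submodule (ZMod p) (M p)} {n : ℤ} (h : IsOpp p r L n) (x : M p) :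
    ∃ l ∈ L, x - l ∈ hi p n := by
  obtain ⟨l, hl, g, hg, rfl⟩ := Submodule.mem_sup.1 (h.sup_hi ▸ mem_top : x ∈ L ⊔ hi p n)
  exact ⟨l, hl, by simpa using hg⟩

lemma IsOpp.eq_zero {L : Submodule (ZMod p) (M p)} {n : ℤ} (h : IsOpp p r L n) {x : M p}
    (hx : x ∈ L) (hx' : x ∈ hi p n) : x = 0 := by
  have : x ∈ L ⊓ hi p n := ⟨hx, hx'⟩
  rwa [h.2, Submodule.mem_bot] at this

lemma IsOpp.map_tr {L : Submodule (ZMod p) (M p)} {n : ℤ} (h : IsOpp p r L n) (c : ℤ) :
    IsOpp p r (L.map (tr p c).toLinearMap) (n + c) :=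
  ⟨h.1.map_tr c, by rw [← map_tr_hi, ← map_tr_inf, h.2, Submodule.map_bot]⟩

lemma IsOpp.map_shift {L : Submodule (ZMod p) (M p)} {n : ℤ} (h : IsOpp p r L n) :
    IsOpp p r (L.map (shift p r)) (n + r) := by
  rw [shift_eq_tr]
  exact h.map_tr _

lemma isOpp_lo (n : ℤ) : IsOpp p r (lo p n) n := by
  refine ⟨isLat_of_compl (a := n) (b := n) ?_ le_rfl le_rfl (lo_inf_hi n) (lo_sup_hi n),
    lo_inf_hi n⟩
  rw [shift_eq_tr, map_tr_lo]
  exact lo_mono (by omega)

omit [Fact p.Prime] in
lemma Simp.isOpp {k : ℕ} {s : Simp p r k} (h : s.Opposite) (i : Fin k) :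
    IsOpp p r (s.lat i) ((s.ty i : ℕ) : ℤ) :=
  ⟨s.isLat i, h i⟩

/-! ### The residue space -/

/-- A subspace between a lattice and its shift is a lattice. -/
lemma IsLat.between {L W : Submodule (ZMod p) (M p)} {n : ℤ} (h : IsLat p r L n) (h1 : L ≤ W)
    (h2 : W ≤ L.map (shift p r)) :
    IsLat p r W (n + Module.finrank (ZMod p) (W.map L.mkQ)) := by
  obtain ⟨a, b, ha, hb, ha', hb'⟩ := h.common h.map_shift
  have hWb : W ≤ lo p b := h2.trans hb'
  refine ⟨h2.trans (Submodule.map_mono h1), a, b, ha.trans h1, hWb, ?_⟩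
  rw [finrank_map_congr W (lo p a).mkQ (win p a b) fun x hx => mkQ_lo_ker_eq (hWb hx)]
  have hc : Module.finrank (ZMod p) (W.map L.mkQ) =
      Module.finrank (ZMod p) ((W.map (win p a b)).map (L.map (win p a b)).mkQ) := by
    rw [← Submodule.map_comp]
    refine finrank_map_congr _ _ _ fun x hx => ?_
    simp only [LinearMap.comp_apply, Submodule.mkQ_apply, Submodule.Quotient.mk_eq_zero]
    refine ⟨Submodule.mem_map_of_mem, fun ⟨y, hy, hxy⟩ => ?_⟩
    have : x - y ∈ lo p a :=
      (win_ker_eq (Submodule.sub_mem _ (hWb hx) (hb hy))).1 (by rw [map_sub, hxy, sub_self])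
    simpa using L.add_mem (ha this) hy
  have h1' := finrank_map_add_ker (W.map (win p a b)) (L.map (win p a b)).mkQ
    (by rw [Submodule.ker_mkQ]; exact Submodule.map_mono h1)
  rw [Submodule.ker_mkQ] at h1'
  have e := h.finrank_win ha hb
  omega

/-- The residue space of a lattice is `F_p ^ r`. -/
lemma IsLat.exists_residue {L : Submodule (ZMod p) (M p)} {n : ℤ} (h : IsLat p r L n) :
    ∃ ρ : L.map (shift p r) →ₗ[ZMod p] (Fin r → ZMod p),
      Function.Surjective ρ ∧ ∀ x : L.map (shift p r), ρ x = 0 ↔ (x : M p) ∈ L := by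
  have e := h.finrank_quot h.map_shift h.stable
  have e' : Module.finrank (ZMod p) ((L.map (shift p r)).map L.mkQ) = r := by omega
  obtain ⟨a, b, ha, hb, ha', hb'⟩ := h.common h.map_shift
  set q := L.mkQ.comp (L.map (shift p r)).subtype with hq
  have hrange : LinearMap.range q = (L.map (shift p r)).map L.mkQ := by
    rw [hq, LinearMap.range_comp, Submodule.range_subtype]
  by_cases hr : r = 0
  · refine ⟨0, fun v => ⟨0, funext fun i => absurd i.2 (by omega)⟩, fun x => ?_⟩
    have hLe : L.map (shift p r) = L :=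
      (h.eq_of_le (by simpa [hr] using h.map_shift) h.stable).symm
    simp only [LinearMap.zero_apply, true_iff]
    exact hLe.le x.2
  have : FiniteDimensional (ZMod p) ((L.map (shift p r)).map L.mkQ) :=
    Module.finite_of_finrank_pos (by omega)
  let ψ : ((L.map (shift p r)).map L.mkQ) ≃ₗ[ZMod p] (Fin r → ZMod p) :=
    LinearEquiv.ofFinrankEq _ _ (by rw [e', Module.finrank_fin_fun])
  refine ⟨ψ.toLinearMap.comp (q.codRestrict ((L.map (shift p r)).map L.mkQ)
    fun x => Submodule.mem_map_of_mem x.2), ?_, ?_⟩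
  · intro v
    obtain ⟨x, hx, hxv⟩ := (ψ.symm v).2
    refine ⟨⟨x, hx⟩, ?_⟩
    have : (q.codRestrict ((L.map (shift p r)).map L.mkQ)
        fun x => Submodule.mem_map_of_mem x.2) ⟨x, hx⟩ = ψ.symm v := Subtype.ext hxv
    rw [LinearMap.comp_apply, this, LinearEquiv.coe_coe, LinearEquiv.apply_symm_apply]
  · intro x
    rw [LinearMap.comp_apply, LinearEquiv.coe_coe, LinearEquiv.map_eq_zero_iff, Subtype.ext_iff]
    simp [hq, Submodule.Quotient.mk_eq_zero]

/-- The fixed flag seen in the residue space of a lattice of index `n`. -/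
noncomputable def resFlag {L : Submodule (ZMod p) (M p)}
    (ρ : L.map (shift p r) →ₗ[ZMod p] (Fin r → ZMod p)) (n : ℤ) (i : ℕ) :
    Submodule (ZMod p) (Fin r → ZMod p) :=
  ((hi p (n + i)).comap (L.map (shift p r)).subtype).map ρ

/-- Between opposite lattices, the vectors of a flag member are fixed by their window. -/
lemma IsOpp.finrank_inf_hi {N : Submodule (ZMod p) (M p)} {a b : ℤ} (h : IsOpp p r N b)
    (hab : a ≤ b) : (Module.finrank (ZMod p) (N ⊓ hi p a : Submodule (ZMod p) (M p)) : ℤ) = b - a := by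
  have hinj : Function.Injective
      ((win p a b).comp (N ⊓ hi p a : Submodule (ZMod p) (M p)).subtype) := by
    rw [injective_iff_map_eq_zero]
    rintro ⟨x, hxN, hxh⟩ hx
    refine Subtype.ext (h.eq_zero hxN (mem_hi.2 fun k hk => ?_))
    rcases lt_or_ge k a with hk' | hk'
    · exact mem_hi.1 hxh k hk'
    · exact (win_eq_zero (x := x)).1 hx k hk' hk
  have hsurj : Function.Surjective
      ((win p a b).comp (N ⊓ hi p a : Submodule (ZMod p) (M p)).subtype) := by
    intro f
    obtain ⟨x, hx, rfl⟩ := exists_win f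
    obtain ⟨l, hl, hxl⟩ := h.exists_sub_mem x
    have hxa : x ∈ hi p a := Finsupp.supported_mono Set.Ico_subset_Ici_self hx
    have hl' : l ∈ hi p a := by
      have := (hi p a).sub_mem hxa (hi_anti hab hxl)
      rwa [sub_sub_cancel] at this
    refine ⟨⟨l, hl, hl'⟩, ?_⟩
    have h0 : win p a b (x - l) = 0 := win_eq_zero.2 fun k _ hk => mem_hi.1 hxl k hk
    rw [map_sub, sub_eq_zero] at h0
    exact h0.symm
  rw [(LinearEquiv.ofBijective _ ⟨hinj, hsurj⟩).finrank_eq, Module.finrank_fintype_fun_eq_card,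
    Fintype.card_coe, Int.card_Ico]
  omega

lemma IsOpp.finrank_resFlag {L : Submodule (ZMod p) (M p)} {n : ℤ} (h : IsOpp p r L n)
    {ρ : L.map (shift p r) →ₗ[ZMod p] (Fin r → ZMod p)}
    (hρ : ∀ x : L.map (shift p r), ρ x = 0 ↔ (x : M p) ∈ L) {i : ℕ} (hi' : i ≤ r) :
    Module.finrank (ZMod p) (resFlag ρ n i) = r - i := by
  have e := h.map_shift.finrank_inf_hi (a := n + i) (by omega)
  have e' : Module.finrank (ZMod p) (resFlag ρ n i) =
      Module.finrank (ZMod p) ((hi p (n + i)).comap (L.map (shift p r)).subtype) := by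
    refine LinearEquiv.finrank_eq (LinearEquiv.symm (LinearEquiv.ofBijective
      (ρ.submoduleMap _) ⟨?_, ρ.submoduleMap_surjective _⟩))
    rw [injective_iff_map_eq_zero]
    rintro ⟨x, hx⟩ hx'
    have hxL : (x : M p) ∈ L := (hρ x).1 (congrArg Subtype.val hx')
    exact Subtype.ext (Subtype.ext (h.eq_zero hxL (hi_anti (by omega) hx)))
  have e'' : (hi p (n + i)).comap (L.map (shift p r)).subtype =
      (L.map (shift p r) ⊓ hi p (n + i)).comap (L.map (shift p r)).subtype := by
    rw [Submodule.comap_inf, Submodule.comap_subtype_self, top_inf_eq]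
  rw [e', e'', (Submodule.comapSubtypeEquivOfLe (inf_le_left :
    L.map (shift p r) ⊓ hi p (n + i) ≤ L.map (shift p r))).finrank_eq]
  omega

lemma IsOpp.resFlag_anti {L : Submodule (ZMod p) (M p)}
    (ρ : L.map (shift p r) →ₗ[ZMod p] (Fin r → ZMod p)) (n : ℤ) : Antitone (resFlag ρ n) :=
  fun i j hij => Submodule.map_mono (Submodule.comap_mono (hi_anti (by omega)))

/-- A subspace between an opposite lattice and its shift is opposite iff its residue is. -/
lemma IsOpp.opp_iff_residue {L W : Submodule (ZMod p) (M p)} {n : ℤ} (h : IsOpp p r L n)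
    {ρ : L.map (shift p r) →ₗ[ZMod p] (Fin r → ZMod p)}
    (hρ : ∀ x : L.map (shift p r), ρ x = 0 ↔ (x : M p) ∈ L) (h1 : L ≤ W)
    (h2 : W ≤ L.map (shift p r)) (i : ℕ) :
    W ⊓ hi p (n + i) = ⊥ ↔
      (W.comap (L.map (shift p r)).subtype).map ρ ⊓ resFlag ρ n i = ⊥ := by
  constructor
  · intro h0
    refine eq_bot_iff.2 ?_
    rintro v ⟨⟨x, hx, rfl⟩, y, hy, hxy⟩
    have h3 : ((y : M p) - x) ∈ L := (hρ (y - x)).1 (by rw [LinearMap.map_sub, hxy, sub_self])
    have h4 : (y : M p) ∈ W := by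
      simpa using W.add_mem (h1 h3) (show (x : M p) ∈ W from hx)
    have h5 : (y : M p) ∈ W ⊓ hi p (n + i) := ⟨h4, hy⟩
    rw [h0, Submodule.mem_bot] at h5
    rw [Submodule.mem_bot, ← hxy, (Subtype.ext h5 : y = 0), map_zero]
  · intro h0
    refine eq_bot_iff.2 fun x ⟨hxW, hxh⟩ => ?_
    have hmem : ρ ⟨x, h2 hxW⟩ ∈
        (W.comap (L.map (shift p r)).subtype).map ρ ⊓ resFlag ρ n i :=
      ⟨Submodule.mem_map_of_mem (show x ∈ W from hxW), Submodule.mem_map_of_mem
        (show x ∈ hi p (n + i) from hxh)⟩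
    rw [h0, Submodule.mem_bot, hρ] at hmem
    exact (Submodule.mem_bot _).2 (h.eq_zero hmem (hi_anti (by omega) hxh))

/-! ### Opposite chambers -/

/-- The canonical lattice of index `n` between opposite lattices of indices `a ≤ n ≤ b`. -/
noncomputable def midLat (A B : Submodule (ZMod p) (M p)) (a b n : ℤ) :
    Submodule (ZMod p) (M p) :=
  A ⊔ (B ⊓ Finsupp.supported (ZMod p) (ZMod p) (Set.Ico a n ∪ Set.Ici b))

lemma midLat_mono (A B : Submodule (ZMod p) (M p)) (a b : ℤ) {m n : ℤ} (h : m ≤ n) :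
    midLat A B a b m ≤ midLat A B a b n :=
  sup_le_sup_left (inf_le_inf_left _ (Finsupp.supported_mono
    (Set.union_subset_union_left _ (Set.Ico_subset_Ico_right h)))) _

lemma midLat_le {A B : Submodule (ZMod p) (M p)} (h : A ≤ B) (a b n : ℤ) :
    midLat A B a b n ≤ B :=
  sup_le h inf_le_left

lemma le_midLat (A B : Submodule (ZMod p) (M p)) (a b n : ℤ) : A ≤ midLat A B a b n :=
  le_sup_left

lemma midLat_self {A B : Submodule (ZMod p) (M p)} {a b : ℤ} (hB : IsOpp p r B b) :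
    midLat A B a b a = A := by
  have h : B ⊓ Finsupp.supported (ZMod p) (ZMod p) (Set.Ico a a ∪ Set.Ici b) = ⊥ := by
    simpa [hi] using hB.2
  rw [midLat, h, sup_bot_eq]

lemma midLat_top {A B : Submodule (ZMod p) (M p)} {a b : ℤ} (hA : IsOpp p r A a) (hAB : A ≤ B)
    (hab : a ≤ b) : midLat A B a b b = B := by
  refine le_antisymm (midLat_le hAB a b b) fun y hy => ?_
  obtain ⟨x, hx, hyx⟩ := hA.exists_sub_mem y
  rw [midLat, Set.Ico_union_Ici_eq_Ici hab, show y = x + (y - x) by abel]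
  exact Submodule.add_mem_sup hx ⟨B.sub_mem hy (hAB hx), hyx⟩

lemma isOpp_midLat {A B : Submodule (ZMod p) (M p)} {a b n : ℤ} (hA : IsOpp p r A a)
    (hB : IsOpp p r B b) (hAB : A ≤ B) (hBA : B ≤ A.map (shift p r)) (han : a ≤ n)
    (hnb : n ≤ b) : IsOpp p r (midLat A B a b n) n := by
  have h0 : midLat A B a b n ⊓ hi p n = ⊥ := by
    refine eq_bot_iff.2 fun z ⟨hz, hzn⟩ => ?_
    obtain ⟨x, hx, y, ⟨hyB, hys⟩, rfl⟩ := Submodule.mem_sup.1 hz
    have hys' := (Finsupp.mem_supported' (ZMod p) y).1 hys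
    have hya : y ∈ hi p a := mem_hi.2 fun k hk => hys' k (by
      simp only [Set.mem_union, Set.mem_Ico, Set.mem_Ici]; omega)
    have hx0 : x = 0 := hA.eq_zero hx (by
      simpa using Submodule.sub_mem _ (hi_anti han hzn) hya)
    subst hx0
    rw [zero_add] at hzn ⊢
    refine (Submodule.mem_bot _).2 (hB.eq_zero hyB (mem_hi.2 fun k hk => ?_))
    rcases lt_or_ge k n with hk' | hk'
    · exact mem_hi.1 hzn k hk'
    · exact hys' k (by simp only [Set.mem_union, Set.mem_Ico, Set.mem_Ici]; omega)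
  have htop : midLat A B a b n ⊔ hi p n = ⊤ := by
    refine eq_top_iff.2 fun x _ => ?_
    obtain ⟨xA, hxA, hh⟩ := hA.exists_sub_mem x
    classical
    set f := (x - xA).filter (fun k => k < n) with hf
    have hf2 : x - xA - f ∈ hi p n := mem_hi.2 fun k hk => by
      simp [hf, Finsupp.sub_apply, hk]
    obtain ⟨y, hy, hfy⟩ := hB.exists_sub_mem f
    have hys : y ∈ Finsupp.supported (ZMod p) (ZMod p) (Set.Ico a n ∪ Set.Ici b) := by
      rw [Finsupp.mem_supported']
      intro k hk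
      simp only [Set.mem_union, Set.mem_Ico, Set.mem_Ici, not_or, not_and, not_lt, not_le] at hk
      have h1 := mem_hi.1 hfy k hk.2
      rw [Finsupp.sub_apply, sub_eq_zero] at h1
      rw [← h1, hf, Finsupp.filter_apply]
      split_ifs with hkn
      · exact mem_hi.1 hh k (lt_of_not_ge fun hak => absurd (hk.1 hak) (not_le.2 hkn))
      · rfl
    rw [show x = (xA + y) + ((f - y) + (x - xA - f)) by abel]
    exact Submodule.add_mem_sup (Submodule.add_mem_sup hxA ⟨hy, hys⟩)
      (Submodule.add_mem _ (hi_anti hnb hfy) hf2)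
  obtain ⟨u, v, -, hu, -⟩ := hA.1.bounds
  obtain ⟨u', v', -, -, hv'⟩ := hB.1.bounds
  exact ⟨isLat_of_compl ((midLat_le hAB a b n).trans (hBA.trans (Submodule.map_mono
      (le_midLat A B a b n)))) (hu.trans (le_midLat A B a b n))
      ((midLat_le hAB a b n).trans hv') h0 htop, h0⟩

lemma map_tr_midLat (A B : Submodule (ZMod p) (M p)) (a b n c : ℤ) :
    (midLat A B a b n).map (tr p c).toLinearMap =
      midLat (A.map (tr p c).toLinearMap) (B.map (tr p c).toLinearMap) (a + c) (b + c) (n + c) := by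
  rw [midLat, Submodule.map_sup, map_tr_inf, map_tr_supported, midLat]
  congr 3
  ext k
  simp only [Set.mem_ofPred_eq, Set.mem_union, Set.mem_Ico, Set.mem_Ici]
  omega

section Chamber

variable [NeZero r]

lemma r_pos : (0 : ℤ) < (r : ℤ) := by exact_mod_cast Nat.pos_of_ne_zero (NeZero.ne r)

omit [Fact p.Prime] in
lemma coord_val (k : ℤ) : (((coord r k : Fin r) : ℕ) : ℤ) = k % (r : ℤ) := by
  have := Int.emod_nonneg k (r_pos (r := r)).ne'
  simp only [coord]
  omega

omit [Fact p.Prime] in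
lemma coord_add (k q : ℤ) : coord r (k + (r : ℤ) * q) = coord r k := by
  refine Fin.ext ?_
  have h1 := coord_val (r := r) (k + (r : ℤ) * q)
  have h2 := coord_val (r := r) k
  rw [Int.add_mul_emod_self_left] at h1
  omega

omit [Fact p.Prime] in
lemma coord_fin (i : Fin r) : coord r ((i : ℕ) : ℤ) = i := by
  refine Fin.ext ?_
  have h1 := coord_val (r := r) ((i : ℕ) : ℤ)
  rw [Int.emod_eq_of_lt (by omega) (by omega)] at h1
  omega

/-- The indices of the members of the periodic family of a chain. -/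
def Simp.Mem {k : ℕ} (s : Simp p r k) (n : ℤ) : Prop := ∃ i, s.ty i = coord r n

/-- The periodic family of a chain. -/
noncomputable def Simp.fam {k : ℕ} (s : Simp p r k) (n : ℤ) : Submodule (ZMod p) (M p) :=
  (Function.extend s.ty s.lat (fun _ => ⊥) (coord r n)).map
    (tr p ((r : ℤ) * (n / (r : ℤ)))).toLinearMap

variable {k : ℕ} {s : Simp p r k}

omit [Fact p.Prime] in
lemma Simp.mem_add {n : ℤ} (q : ℤ) : s.Mem (n + (r : ℤ) * q) ↔ s.Mem n := by
  simp only [Simp.Mem, coord_add]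

omit [Fact p.Prime] in
lemma Simp.mem_ty (i : Fin k) : s.Mem ((s.ty i : ℕ) : ℤ) := ⟨i, (coord_fin _).symm⟩

lemma Simp.fam_add (n q : ℤ) :
    s.fam (n + (r : ℤ) * q) = (s.fam n).map (tr p ((r : ℤ) * q)).toLinearMap := by
  rw [Simp.fam, Simp.fam, coord_add, map_tr_tr, Int.add_mul_ediv_left _ _ (r_pos (r := r)).ne']
  congr 3
  ring

lemma Simp.fam_eq (i : Fin k) (q : ℤ) :
    s.fam (((s.ty i : ℕ) : ℤ) + (r : ℤ) * q) =
      (s.lat i).map (tr p ((r : ℤ) * q)).toLinearMap := by
  rw [Simp.fam_add, Simp.fam, coord_fin, s.ty_mono.injective.extend_apply,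
    Int.ediv_eq_zero_of_lt (by omega) (by omega), mul_zero, map_tr_zero]

lemma Simp.fam_ty (i : Fin k) : s.fam ((s.ty i : ℕ) : ℤ) = s.lat i := by
  simpa [map_tr_zero] using s.fam_eq i 0

omit [Fact p.Prime] in
lemma Simp.exists_eq {n : ℤ} (h : s.Mem n) :
    ∃ i, n = ((s.ty i : ℕ) : ℤ) + (r : ℤ) * (n / (r : ℤ)) := by
  obtain ⟨i, hi⟩ := h
  refine ⟨i, ?_⟩
  rw [hi, coord_val]
  exact (Int.emod_add_mul_ediv n r).symm

lemma Simp.fam_mono {m n : ℤ} (hm : s.Mem m) (hn : s.Mem n) (h : m ≤ n) :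
    s.fam m ≤ s.fam n := by
  obtain ⟨i, ei⟩ := Simp.exists_eq hm
  obtain ⟨j, ej⟩ := Simp.exists_eq hn
  rw [ei, ej, Simp.fam_eq, Simp.fam_eq]
  set q := m / (r : ℤ)
  set q' := n / (r : ℤ)
  have hqq : q ≤ q' := Int.ediv_le_ediv r_pos h
  rcases hqq.eq_or_lt with he | he
  · rw [← he]
    refine Submodule.map_mono (s.mono (s.ty_mono.le_iff_le.1 ?_))
    rw [Fin.le_def]
    rw [← he] at ej
    omega
  · obtain ⟨e, he'⟩ : ∃ e : ℕ, q' = q + 1 + e := ⟨(q' - q - 1).toNat, by omega⟩
    refine (Submodule.map_mono ((s.wrap i j).trans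
      (Submodule.map_mono (le_map_tr (s.isLat j).stable e)))).trans ?_
    rw [shift_eq_tr, map_tr_tr, map_tr_tr, he']
    rw [show (r : ℤ) * (q + 1 + e) = (r : ℤ) * q + ((r : ℤ) + (r : ℤ) * e) by ring, add_assoc]

lemma Simp.fam_opp (hs : s.Opposite) {n : ℤ} (h : s.Mem n) : IsOpp p r (s.fam n) n := by
  obtain ⟨i, ei⟩ := Simp.exists_eq h
  have := (Simp.isOpp hs i).map_tr ((r : ℤ) * (n / (r : ℤ)))
  rwa [← Simp.fam_eq, ← ei] at this

omit [Fact p.Prime] in
lemma Simp.exists_below (i : Fin k) (n : ℤ) : ∃ j : ℕ, s.Mem (n - j) := by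
  have h1 := Int.emod_nonneg (n - ((s.ty i : ℕ) : ℤ)) (r_pos (r := r)).ne'
  have h2 := Int.emod_add_mul_ediv (n - ((s.ty i : ℕ) : ℤ)) (r : ℤ)
  refine ⟨((n - ((s.ty i : ℕ) : ℤ)) % (r : ℤ)).toNat, ?_⟩
  rw [show n - (((n - ((s.ty i : ℕ) : ℤ)) % (r : ℤ)).toNat : ℤ) =
    ((s.ty i : ℕ) : ℤ) + (r : ℤ) * ((n - ((s.ty i : ℕ) : ℤ)) / (r : ℤ)) by omega, Simp.mem_add]
  exact Simp.mem_ty i

omit [Fact p.Prime] in
lemma Simp.exists_above (i : Fin k) (n : ℤ) : ∃ j : ℕ, s.Mem (n + j) := by
  have h1 := Int.emod_nonneg (((s.ty i : ℕ) : ℤ) - n) (r_pos (r := r)).ne'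
  have h2 := Int.emod_add_mul_ediv (((s.ty i : ℕ) : ℤ) - n) (r : ℤ)
  refine ⟨((((s.ty i : ℕ) : ℤ) - n) % (r : ℤ)).toNat, ?_⟩
  rw [show n + (((((s.ty i : ℕ) : ℤ) - n) % (r : ℤ)).toNat : ℤ) =
    ((s.ty i : ℕ) : ℤ) + (r : ℤ) * (-((((s.ty i : ℕ) : ℤ) - n) / (r : ℤ))) by
      rw [mul_neg]; omega, Simp.mem_add]
  exact Simp.mem_ty i

variable (s)

/-- The last member of the family at or below `n`. -/
noncomputable def Simp.below [NeZero k] (n : ℤ) : ℤ :=
  open Classical in n - (Nat.find (Simp.exists_below (s := s) (0 : Fin k) n) : ℤ)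

/-- The first member of the family at or above `n`. -/
noncomputable def Simp.above [NeZero k] (n : ℤ) : ℤ :=
  open Classical in n + (Nat.find (Simp.exists_above (s := s) (0 : Fin k) n) : ℤ)

/-- The canonical member of index `n` of an opposite chamber containing `s`. -/
noncomputable def Simp.filled [NeZero k] (n : ℤ) : Submodule (ZMod p) (M p) :=
  midLat (s.fam (s.below n)) (s.fam (s.above n)) (s.below n) (s.above n) n

variable {s} [NeZero k]

lemma Simp.below_spec (n : ℤ) :
    s.Mem (s.below n) ∧ s.below n ≤ n ∧ ∀ m, m ≤ n → s.Mem m → m ≤ s.below n := by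
  classical
  refine ⟨Nat.find_spec (Simp.exists_below (s := s) (0 : Fin k) n), ?_, fun m hm hmem => ?_⟩
  · simp only [Simp.below]; omega
  · have := Nat.find_min' (Simp.exists_below (s := s) (0 : Fin k) n) (m := (n - m).toNat)
      (by rwa [show n - ((n - m).toNat : ℤ) = m by omega])
    simp only [Simp.below]
    omega

lemma Simp.above_spec (n : ℤ) :
    s.Mem (s.above n) ∧ n ≤ s.above n ∧ ∀ m, n ≤ m → s.Mem m → s.above n ≤ m := by
  classical
  refine ⟨Nat.find_spec (Simp.exists_above (s := s) (0 : Fin k) n), ?_, fun m hm hmem => ?_⟩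
  · simp only [Simp.above]; omega
  · have := Nat.find_min' (Simp.exists_above (s := s) (0 : Fin k) n) (m := (m - n).toNat)
      (by rwa [show n + ((m - n).toNat : ℤ) = m by omega])
    simp only [Simp.above]
    omega

lemma Simp.below_add (n q : ℤ) : s.below (n + (r : ℤ) * q) = s.below n + (r : ℤ) * q := by
  obtain ⟨a1, a2, a3⟩ := Simp.below_spec (s := s) n
  obtain ⟨b1, b2, b3⟩ := Simp.below_spec (s := s) (n + (r : ℤ) * q)
  refine le_antisymm ?_ (b3 _ (by omega) ((Simp.mem_add q).2 a1))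
  have := a3 (s.below (n + (r : ℤ) * q) + (r : ℤ) * (-q)) (by rw [mul_neg]; omega)
    ((Simp.mem_add (-q)).2 b1)
  rw [mul_neg] at this
  omega

lemma Simp.above_add (n q : ℤ) : s.above (n + (r : ℤ) * q) = s.above n + (r : ℤ) * q := by
  obtain ⟨a1, a2, a3⟩ := Simp.above_spec (s := s) n
  obtain ⟨b1, b2, b3⟩ := Simp.above_spec (s := s) (n + (r : ℤ) * q)
  refine le_antisymm (b3 _ (by omega) ((Simp.mem_add q).2 a1)) ?_
  have := a3 (s.above (n + (r : ℤ) * q) + (r : ℤ) * (-q)) (by rw [mul_neg]; omega)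
    ((Simp.mem_add (-q)).2 b1)
  rw [mul_neg] at this
  omega

lemma Simp.filled_add (n q : ℤ) :
    s.filled (n + (r : ℤ) * q) = (s.filled n).map (tr p ((r : ℤ) * q)).toLinearMap := by
  simp only [Simp.filled, Simp.below_add, Simp.above_add, Simp.fam_add, map_tr_midLat]

lemma Simp.filled_opp (hs : s.Opposite) (n : ℤ) : IsOpp p r (s.filled n) n := by
  obtain ⟨a1, a2, a3⟩ := Simp.below_spec (s := s) n
  obtain ⟨b1, b2, b3⟩ := Simp.above_spec (s := s) n
  refine isOpp_midLat (Simp.fam_opp hs a1) (Simp.fam_opp hs b1)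
    (Simp.fam_mono a1 b1 (by omega)) ?_ a2 b2
  have hm : s.Mem (s.below n + (r : ℤ) * 1) := (Simp.mem_add 1).2 a1
  rw [shift_eq_tr, show ((r : ℤ)) = (r : ℤ) * 1 by ring, ← Simp.fam_add]
  refine Simp.fam_mono b1 hm (b3 _ ?_ hm)
  by_contra hh
  have := a3 _ (le_of_lt (not_le.1 hh)) hm
  have := r_pos (r := r)
  omega

lemma Simp.filled_mono {m n : ℤ} (h : m ≤ n) : s.filled m ≤ s.filled n := by
  obtain ⟨a1, a2, a3⟩ := Simp.below_spec (s := s) m
  obtain ⟨b1, b2, b3⟩ := Simp.above_spec (s := s) m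
  obtain ⟨a1', a2', a3'⟩ := Simp.below_spec (s := s) n
  obtain ⟨b1', b2', b3'⟩ := Simp.above_spec (s := s) n
  by_cases hgap : s.above m ≤ n
  · exact (midLat_le (Simp.fam_mono a1 b1 (by omega)) _ _ _).trans
      ((Simp.fam_mono b1 a1' (a3' _ hgap b1)).trans (le_midLat _ _ _ _ _))
  · have ea : s.below n = s.below m := by
      refine le_antisymm (a3 _ ?_ a1') (a3' _ (by omega) a1)
      by_contra hh
      exact hgap (le_trans (b3 _ (le_of_lt (not_le.1 hh)) a1') a2')
    have eb : s.above n = s.above m := le_antisymm (b3' _ (by omega) b1) (b3 _ (by omega) b1')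
    simp only [Simp.filled, ea, eb]
    exact midLat_mono _ _ _ _ h

lemma Simp.filled_ty (hs : s.Opposite) (i : Fin k) :
    s.filled ((s.ty i : ℕ) : ℤ) = s.lat i := by
  obtain ⟨a1, a2, a3⟩ := Simp.below_spec (s := s) ((s.ty i : ℕ) : ℤ)
  have e : s.below ((s.ty i : ℕ) : ℤ) = ((s.ty i : ℕ) : ℤ) :=
    le_antisymm a2 (a3 _ le_rfl (Simp.mem_ty i))
  obtain ⟨b1, b2, b3⟩ := Simp.above_spec (s := s) ((s.ty i : ℕ) : ℤ)
  simp only [Simp.filled, e]
  rw [midLat_self (Simp.fam_opp hs b1), Simp.fam_ty]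

omit [NeZero k] in
/-- Every opposite chain extends to an opposite chamber. -/
theorem exists_chamber (s : Simp p r k) (hs : s.Opposite) :
    ∃ c : Simp p r r, c.Opposite ∧ c.ty = id ∧ ∀ i, c.lat (s.ty i) = s.lat i := by
  obtain ⟨L, hL, hmono, hper, hext⟩ : ∃ L : ℤ → Submodule (ZMod p) (M p),
      (∀ n, IsOpp p r (L n) n) ∧ Monotone L ∧
      (∀ n, L (n + (r : ℤ)) = (L n).map (shift p r)) ∧
      ∀ i, L ((s.ty i : ℕ) : ℤ) = s.lat i := by
    rcases Nat.eq_zero_or_pos k with hk | hk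
    · refine ⟨lo p, isOpp_lo, fun m n h => lo_mono h, fun n => ?_, fun i => ?_⟩
      · rw [shift_eq_tr, map_tr_lo]
      · exact absurd i.2 (by omega)
    · have : NeZero k := ⟨hk.ne'⟩
      refine ⟨s.filled, Simp.filled_opp hs, fun m n h => Simp.filled_mono h, fun n => ?_,
        Simp.filled_ty hs⟩
      have := Simp.filled_add (s := s) n 1
      rwa [mul_one, ← shift_eq_tr] at this
  refine ⟨⟨id, fun i => L ((i : ℕ) : ℤ), strictMono_id, fun i => (hL _).1,
    fun i j h => hmono (by exact_mod_cast h), fun i j => ?_⟩, fun i => (hL _).2, rfl, hext⟩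
  rw [← hper]
  exact hmono (by omega)

end Chamber

end Vale.Agent.P067.Full
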