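import Vale.Agent.P067.Full.Statements
import Vale.Agent.HDX.Q.ToNat

/-!
Assembly, finite part: cones and mixing in the links are transported from complexes of subspaces
opposite to a flag, and the vertices are renamed by natural numbers.
-/

namespace Vale.Agent.P067.Full.Main

open Finset Vale.Agent.HDX

variable {α β : Type*} [DecidableEq α] [DecidableEq β]

/-- The neighbours of a vertex. -/
def Nbr (F : Finset (Finset α)) (a : α) : Set α := {x | x ≠ a ∧ ∃ τ ∈ F, a ∈ τ ∧ x ∈ τ}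

lemma mem_nbr {F : Finset (Finset α)} {a x : α} {τ : Finset α} (hτ : τ ∈ F) (ha : a ∈ τ)
    (hx : x ∈ τ.erase a) : x ∈ Nbr F a :=
  ⟨Finset.ne_of_mem_erase hx, τ, hτ, ha, Finset.mem_of_mem_erase hx⟩

/-- Residue data at a vertex: the link of `a` is a complex of opposite subspaces, through `φ`. -/
structure Res {r : ℕ} (K : Type) [Field K] (col : α → Fin r) (F : Finset (Finset α))
    (Fl : ℕ → Submodule K (Fin r → K)) (φ : α → Submodule K (Fin r → K)) (a : α) : Prop where
  flag : IsCompleteFlag Fl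
  inj : Set.InjOn φ (Nbr F a)
  colour : ∀ x ∈ Nbr F a, (Module.finrank K (φ x) + (col a : ℕ)) % r = (col x : ℕ)
  chain : ∀ σ : Finset (Submodule K (Fin r → K)),
    IsOppChain Fl σ ↔ ∃ τ ∈ F, a ∈ τ ∧ σ ⊆ (τ.erase a).image φ

/-- Pushing chains forward. -/
lemma bd_mapDomain (f : α → β) {z : Ch α} (hz : ∀ σ ∈ z.support, Set.InjOn f (σ : Set α)) :
    bd (Finsupp.mapDomain (Finset.image f) z) = Finsupp.mapDomain (Finset.image f) (bd z) := by
  conv_lhs => rw [← Finsupp.sum_single z]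
  conv_rhs => rw [← Finsupp.sum_single z]
  simp only [Finsupp.sum, Finsupp.mapDomain_finsetSum, map_sum, Finsupp.mapDomain_single]
  refine Finset.sum_congr rfl fun σ hσ => ?_
  rw [← mul_one (z σ), ← smul_eq_mul, ← Finsupp.smul_single, ← Finsupp.smul_single,
    map_smul, map_smul, bd_single, bd_single, Finsupp.mapDomain_smul, Finsupp.mapDomain_finsetSum,
    Finset.sum_image (hz σ hσ)]
  congr 1
  refine Finset.sum_congr rfl fun x hx => ?_
  rw [Finsupp.mapDomain_single]
  congr 1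
  ext y
  simp only [Finset.mem_erase, Finset.mem_image]
  constructor
  · rintro ⟨hne, w, hw, rfl⟩
    exact ⟨w, ⟨fun h => hne (h ▸ rfl), hw⟩, rfl⟩
  · rintro ⟨w, ⟨hne, hw⟩, rfl⟩
    exact ⟨fun h => hne (hz σ hσ hw hx h), w, hw, rfl⟩

/-- Cones in a link, transported through residue data. -/
lemma cones_of_res {r c B : ℕ} (hc : c < r) {K : Type} [Field K] {col : α → Fin r}
    {F : Finset (Finset α)} {Fl : ℕ → Submodule K (Fin r → K)}
    {φ : α → Submodule K (Fin r → K)} {a : α} {ρ : Finset α} (hR : Res K col F Fl φ a)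
    (ha : a ∈ ρ) (hρ : IsFace F ρ)
    (hC : ∀ b' : Finset (Submodule K (Fin r → K)), IsOppChain Fl b' →
      ∃ C : Finset (Submodule K (Fin r → K)) → Ch (Submodule K (Fin r → K)),
      ∀ σ, IsOppChain Fl (b' ∪ σ) → Disjoint σ b' → σ.card + b'.card + 1 < r →
        Supp (fun τ => τ.card = σ.card + 1 ∧ Disjoint τ b' ∧ IsOppChain Fl (b' ∪ τ)) (C σ) ∧
          bd (C σ) = Finsupp.single σ 1 + ∑ x ∈ σ, C (σ.erase x) ∧
          (C σ).support.card ≤ B) :
    ∃ C : Finset α → Ch α, ∀ σ, IsFace F (ρ ∪ σ) → Disjoint σ ρ → σ.card + ρ.card ≤ c →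
      Supp (fun τ => τ.card = σ.card + 1 ∧ Disjoint τ ρ ∧ IsFace F (ρ ∪ τ)) (C σ) ∧
        bd (C σ) = Finsupp.single σ 1 + ∑ x ∈ σ, C (σ.erase x) ∧
        (C σ).support.card ≤ B := by
  classical
  have : Nonempty α := ⟨a⟩
  obtain ⟨τ₀, hτ₀, hρτ₀⟩ := hρ
  set b := ρ.erase a with hb
  set ψ : Submodule K (Fin r → K) → α := Function.invFunOn φ (Nbr F a) with hψ
  have hψφ : ∀ x ∈ Nbr F a, ψ (φ x) = x := fun x hx => hR.inj.leftInvOn_invFunOn hx
  have hb0 : IsOppChain Fl (b.image φ) :=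
    (hR.chain _).mpr ⟨τ₀, hτ₀, hρτ₀ ha, Finset.image_subset_image (Finset.erase_subset_erase a hρτ₀)⟩
  obtain ⟨C', hC'⟩ := hC _ hb0
  refine ⟨fun σ => Finsupp.mapDomain (Finset.image ψ) (C' (σ.image φ)), ?_⟩
  intro σ hσ hdis hcard
  obtain ⟨τ, hτ, hsub⟩ := hσ
  have haτ : a ∈ τ := hsub (Finset.mem_union_left _ ha)
  have hσN : ∀ x ∈ σ, x ∈ Nbr F a := fun x hx => mem_nbr hτ haτ (Finset.mem_erase.mpr
    ⟨fun h => Finset.disjoint_left.mp hdis hx (h ▸ ha), hsub (Finset.mem_union_right _ hx)⟩)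
  have hbN : ∀ x ∈ b, x ∈ Nbr F a := fun x hx => mem_nbr hτ₀ (hρτ₀ ha) (Finset.mem_erase.mpr
    ⟨Finset.ne_of_mem_erase hx, hρτ₀ (Finset.mem_of_mem_erase hx)⟩)
  have hσc : (σ.image φ).card = σ.card :=
    Finset.card_image_of_injOn fun x hx y hy h => hR.inj (hσN x hx) (hσN y hy) h
  have hbc : (b.image φ).card + 1 = ρ.card := by
    rw [Finset.card_image_of_injOn fun x hx y hy h => hR.inj (hbN x hx) (hbN y hy) h, hb,
      Finset.card_erase_add_one ha]
  have hd : Disjoint (σ.image φ) (b.image φ) := by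
    rw [Finset.disjoint_left]
    intro W h1 h2
    obtain ⟨x, hx, rfl⟩ := Finset.mem_image.mp h1
    obtain ⟨y, hy, he⟩ := Finset.mem_image.mp h2
    rw [hR.inj (hbN y hy) (hσN x hx) he] at hy
    exact Finset.disjoint_left.mp hdis hx (Finset.mem_of_mem_erase hy)
  have hch : IsOppChain Fl (b.image φ ∪ σ.image φ) := by
    refine (hR.chain _).mpr ⟨τ, hτ, haτ, ?_⟩
    rw [← Finset.image_union]
    refine Finset.image_subset_image fun x hx => ?_
    rcases Finset.mem_union.mp hx with h | h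
    · exact Finset.mem_erase.mpr ⟨Finset.ne_of_mem_erase h,
        hsub (Finset.mem_union_left _ (Finset.mem_of_mem_erase h))⟩
    · exact Finset.mem_erase.mpr ⟨(hσN x h).1, hsub (Finset.mem_union_right _ h)⟩
  obtain ⟨hsupp, hbd, hsize⟩ := hC' _ hch hd (by omega)
  -- the members of the support come from faces at `a`
  have hgood : ∀ T ∈ (C' (σ.image φ)).support, Set.InjOn ψ (T : Set (Submodule K (Fin r → K))) ∧
      (T.image ψ).card = σ.card + 1 ∧ Disjoint (T.image ψ) ρ ∧ IsFace F (ρ ∪ T.image ψ) := by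
    intro T hT
    obtain ⟨h1, h2, h3⟩ := hsupp T hT
    obtain ⟨τ', hτ', haτ', hsub'⟩ := (hR.chain _).mp h3
    have hφψ : ∀ W ∈ b.image φ ∪ T, ψ W ∈ τ'.erase a ∧ φ (ψ W) = W := by
      intro W hW
      obtain ⟨x, hx, rfl⟩ := Finset.mem_image.mp (hsub' hW)
      rw [hψφ x (mem_nbr hτ' haτ' hx)]
      exact ⟨hx, rfl⟩
    have hinj : Set.InjOn ψ (T : Set (Submodule K (Fin r → K))) := fun W hW W' hW' h => by
      rw [← (hφψ W (Finset.mem_union_right _ hW)).2, h, (hφψ W' (Finset.mem_union_right _ hW')).2]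
    refine ⟨hinj, by rw [Finset.card_image_of_injOn hinj, h1, hσc], ?_, τ', hτ', ?_⟩
    · rw [Finset.disjoint_left]
      intro x hx hxρ
      obtain ⟨W, hW, rfl⟩ := Finset.mem_image.mp hx
      obtain ⟨hmem, he⟩ := hφψ W (Finset.mem_union_right _ hW)
      exact Finset.disjoint_left.mp h2 hW (Finset.mem_image.mpr
        ⟨ψ W, Finset.mem_erase.mpr ⟨Finset.ne_of_mem_erase hmem, hxρ⟩, he⟩)
    · intro x hx
      rcases Finset.mem_union.mp hx with h | h
      · rcases eq_or_ne x a with rfl | hne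
        · exact haτ'
        · have hxb : x ∈ b := Finset.mem_erase.mpr ⟨hne, h⟩
          have := (hφψ _ (Finset.mem_union_left T (Finset.mem_image_of_mem φ hxb))).1
          rw [hψφ x (hbN x hxb)] at this
          exact Finset.mem_of_mem_erase this
      · obtain ⟨W, hW, rfl⟩ := Finset.mem_image.mp h
        exact Finset.mem_of_mem_erase (hφψ W (Finset.mem_union_right _ hW)).1
  refine ⟨?_, ?_, ?_⟩
  · intro T hT
    obtain ⟨T', hT', rfl⟩ := Finset.mem_image.mp (Finsupp.mapDomain_support hT)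
    exact (hgood T' hT').2
  · rw [bd_mapDomain ψ fun T hT => (hgood T hT).1, hbd, Finsupp.mapDomain_add,
      Finsupp.mapDomain_single, Finsupp.mapDomain_finsetSum,
      Finset.sum_image fun x hx y hy h => hR.inj (hσN x hx) (hσN y hy) h]
    congr 1
    · congr 1
      rw [Finset.image_image]
      exact (Finset.image_congr fun x hx => hψφ x (hσN x hx)).trans Finset.image_id
    · refine Finset.sum_congr rfl fun x hx => ?_
      congr 2
      ext W
      simp only [Finset.mem_erase, Finset.mem_image]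
      constructor
      · rintro ⟨hne, w, hw, rfl⟩
        exact ⟨w, ⟨fun h => hne (h ▸ rfl), hw⟩, rfl⟩
      · rintro ⟨w, ⟨hne, hw⟩, rfl⟩
        exact ⟨fun h => hne (hR.inj (hσN w hw) (hσN x hx) h), w, hw, rfl⟩
  · exact (Finset.card_le_card Finsupp.mapDomain_support).trans (Finset.card_image_le.trans hsize)

/-- Bounded cones in all links, from residue data and the cones of opposite complexes. -/
lemma linkCones_of_res {r c B : ℕ} (hc : c < r) {K : Type} [Field K] {col : α → Fin r}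
    {F : Finset (Finset α)}
    (hres : ∀ ρ : Finset α, ρ.Nonempty → IsFace F ρ →
      ∃ Fl φ a, a ∈ ρ ∧ Res K col F Fl φ a)
    (hC : ∀ Fl : ℕ → Submodule K (Fin r → K), IsCompleteFlag Fl →
      ∀ b' : Finset (Submodule K (Fin r → K)), IsOppChain Fl b' →
      ∃ C : Finset (Submodule K (Fin r → K)) → Ch (Submodule K (Fin r → K)),
      ∀ σ, IsOppChain Fl (b' ∪ σ) → Disjoint σ b' → σ.card + b'.card + 1 < r →
        Supp (fun τ => τ.card = σ.card + 1 ∧ Disjoint τ b' ∧ IsOppChain Fl (b' ∪ τ)) (C σ) ∧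
          bd (C σ) = Finsupp.single σ 1 + ∑ x ∈ σ, C (σ.erase x) ∧
          (C σ).support.card ≤ B) :
    LinkCones c B F := by
  intro ρ hne hρ _
  obtain ⟨Fl, φ, a, ha, hR⟩ := hres ρ hne hρ
  exact cones_of_res hc hR ha hρ (hC Fl hR.flag)

open Classical in
/-- Mixing in all links, from residue data and the mixing of opposite complexes. -/
lemma pairMix_of_res {r : ℕ} {lam : ℝ} {K : Type} [Field K] {col : α → Fin r}
    {F : Finset (Finset α)} (hF : Rainbow r col F)
    (hres : ∀ ρ : Finset α, ρ.Nonempty → IsFace F ρ →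
      ∃ Fl φ a, a ∈ ρ ∧ Res K col F Fl φ a)
    (hM : ∀ Fl : ℕ → Submodule K (Fin r → K), IsCompleteFlag Fl →
      ∀ β : Finset (Submodule K (Fin r → K)), IsOppChain Fl β →
      ∀ T : Finset (Finset (Submodule K (Fin r → K))),
        (∀ τ, τ ∈ T ↔ IsOppChain Fl τ ∧ τ.card = r - 1 ∧ β ⊆ τ) →
      ∀ i j : ℕ, i ≠ j → i ∈ Finset.Ioo 0 r → j ∈ Finset.Ioo 0 r →
        (∀ W ∈ β, Module.finrank K W ≠ i ∧ Module.finrank K W ≠ j) →
      ∀ f g : Submodule K (Fin r → K) → ℝ,
        ∑ τ ∈ T, ∑ a ∈ τ.filter (fun a : Submodule K (Fin r → K) => Module.finrank K a = i),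
          f a = 0 →
        ∑ τ ∈ T, ∑ a ∈ τ.filter (fun a : Submodule K (Fin r → K) => Module.finrank K a = j),
          g a = 0 →
        ∑ τ ∈ T,
          (∑ a ∈ τ.filter (fun a : Submodule K (Fin r → K) => Module.finrank K a = i), f a) *
          (∑ a ∈ τ.filter (fun a : Submodule K (Fin r → K) => Module.finrank K a = j), g a) ≤
        lam * (Real.sqrt (∑ τ ∈ T,
            ∑ a ∈ τ.filter (fun a : Submodule K (Fin r → K) => Module.finrank K a = i), f a ^ 2) *
          Real.sqrt (∑ τ ∈ T,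
            ∑ a ∈ τ.filter (fun a : Submodule K (Fin r → K) => Module.finrank K a = j), g a ^ 2))) :
    PairMix lam col F := by
  intro η hne hη i j hij hi hj f g hf0 hg0
  obtain ⟨Fl, φ, a, ha, hR⟩ := hres η hne hη
  obtain ⟨τ₀, hτ₀, hητ₀⟩ := hη
  have : Nonempty α := ⟨a⟩
  set ψ : Submodule K (Fin r → K) → α := Function.invFunOn φ (Nbr F a) with hψ
  have hψφ : ∀ x ∈ Nbr F a, ψ (φ x) = x := fun x hx => hR.inj.leftInvOn_invFunOn hx
  -- ranks of neighbours
  have hrk : ∀ x ∈ Nbr F a, 0 < Module.finrank K (φ x) ∧ Module.finrank K (φ x) < r := by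
    intro x hx
    obtain ⟨τ, hτ, haτ, hxτ⟩ := hx.2
    have hch : IsOppChain Fl {φ x} := (hR.chain _).mpr ⟨τ, hτ, haτ,
      Finset.singleton_subset_iff.mpr (Finset.mem_image_of_mem φ (Finset.mem_erase.mpr ⟨hx.1, hxτ⟩))⟩
    obtain ⟨h1, h2, -⟩ := hch.1 (φ x) (Finset.mem_singleton_self _)
    refine ⟨Nat.pos_of_ne_zero fun h => h1 (Submodule.finrank_eq_zero.mp h), ?_⟩
    simpa using Submodule.finrank_lt h2
  set rk : Fin r → ℕ := fun i => ((i : ℕ) + r - (col a : ℕ)) % r with hrkdef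
  have hiff : ∀ (i : Fin r) x, x ∈ Nbr F a → (Module.finrank K (φ x) = rk i ↔ col x = i) := by
    intro i x hx
    have h := hR.colour x hx
    obtain ⟨-, h2⟩ := hrk x hx
    have h3 := i.2
    have h4 := (col a).2
    have h5 := (col x).2
    have e1 : ∀ A B : ℕ, A < r → B < r → (A + B) % r = if A + B < r then A + B else A + B - r := by
      intro A B hA hB
      split_ifs with h
      · exact Nat.mod_eq_of_lt h
      · rw [Nat.mod_eq_sub_mod (by omega), Nat.mod_eq_of_lt (by omega)]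
    have e2 : rk i = if (col a : ℕ) ≤ i then (i : ℕ) - (col a : ℕ)
        else (i : ℕ) + r - (col a : ℕ) := by
      simp only [hrkdef]
      split_ifs with h
      · rw [Nat.mod_eq_sub_mod (by omega), Nat.mod_eq_of_lt (by omega)]
        omega
      · exact Nat.mod_eq_of_lt (by omega)
    rw [e1 _ _ h2 h4] at h
    rw [e2, Fin.ext_iff]
    split_ifs at h ⊢ <;> omega
  have hmem : ∀ i : Fin r, i ∉ η.image col → rk i ∈ Finset.Ioo 0 r := by
    intro i hi
    have h3 := i.2
    have h4 := (col a).2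
    have hne : (i : ℕ) ≠ col a := fun h => hi (Finset.mem_image.mpr ⟨a, ha, (Fin.ext h).symm⟩)
    refine Finset.mem_Ioo.mpr ⟨?_, Nat.mod_lt _ (by omega)⟩
    simp only [hrkdef]
    rcases lt_or_ge (i : ℕ) (col a) with h | h
    · rw [Nat.mod_eq_of_lt (by omega)]; omega
    · rw [Nat.mod_eq_sub_mod (by omega), Nat.mod_eq_of_lt (by omega)]; omega
  have hrkinj : rk i ≠ rk j := by
    intro h
    have h3 := i.2
    have h4 := (col a).2
    have h5 := j.2
    simp only [hrkdef] at h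
    have hm : ((i : ℕ) + r - col a + col a) % r = ((j : ℕ) + r - col a + col a) % r := by
      rw [Nat.add_mod, h, ← Nat.add_mod]
    rw [Nat.sub_add_cancel (by omega), Nat.sub_add_cancel (by omega), Nat.add_mod_right,
      Nat.add_mod_right, Nat.mod_eq_of_lt h3, Nat.mod_eq_of_lt h5] at hm
    exact hij (Fin.ext hm)
  set S := F.filter (fun τ => η ⊆ τ) with hS
  have hSmem : ∀ τ ∈ S, τ ∈ F ∧ a ∈ τ := fun τ hτ =>
    ⟨(Finset.mem_filter.mp hτ).1, (Finset.mem_filter.mp hτ).2 ha⟩
  have hSN : ∀ τ ∈ S, ∀ x ∈ τ.erase a, x ∈ Nbr F a := fun τ hτ x hx =>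
    mem_nbr (hSmem τ hτ).1 (hSmem τ hτ).2 hx
  set im : Finset α → Finset (Submodule K (Fin r → K)) := fun τ => (τ.erase a).image φ with him
  have himc : ∀ τ ∈ F, a ∈ τ → (im τ).card = r - 1 := fun τ hτ haτ => by
    rw [him, Finset.card_image_of_injOn fun x hx y hy h =>
        hR.inj (mem_nbr hτ haτ hx) (mem_nbr hτ haτ hy) h,
      Finset.card_erase_of_mem haτ, (hF.2 τ hτ).1]
  have himinj : Set.InjOn im (S : Set (Finset α)) := by
    intro τ hτ τ' hτ' h
    have key : ∀ σ ∈ S, σ.erase a = (im σ).image ψ := by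
      intro σ hσ
      rw [him, Finset.image_image]
      exact ((Finset.image_congr fun x hx => hψφ x (hSN σ hσ x hx)).trans Finset.image_id).symm
    have he := key τ hτ
    rw [h, ← key τ' hτ'] at he
    rw [← Finset.insert_erase (hSmem τ hτ).2, he, Finset.insert_erase (hSmem τ' hτ').2]
  set b := η.erase a with hb
  have hbN : ∀ x ∈ b, x ∈ Nbr F a := fun x hx => mem_nbr hτ₀ (hητ₀ ha) (Finset.mem_erase.mpr
    ⟨Finset.ne_of_mem_erase hx, hητ₀ (Finset.mem_of_mem_erase hx)⟩)
  have hb0 : IsOppChain Fl (b.image φ) :=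
    (hR.chain _).mpr ⟨τ₀, hτ₀, hητ₀ ha, Finset.image_subset_image (Finset.erase_subset_erase a hητ₀)⟩
  have hT : ∀ T, T ∈ S.image im ↔ IsOppChain Fl T ∧ T.card = r - 1 ∧ b.image φ ⊆ T := by
    intro T
    rw [Finset.mem_image]
    constructor
    · rintro ⟨τ, hτ, rfl⟩
      exact ⟨(hR.chain _).mpr ⟨τ, (hSmem τ hτ).1, (hSmem τ hτ).2, subset_rfl⟩,
        himc τ (hSmem τ hτ).1 (hSmem τ hτ).2, Finset.image_subset_image
          (Finset.erase_subset_erase a (Finset.mem_filter.mp hτ).2)⟩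
    · rintro ⟨h1, h2, h3⟩
      obtain ⟨τ, hτ, haτ, hsub⟩ := (hR.chain _).mp h1
      have he : T = im τ := Finset.eq_of_subset_of_card_le hsub (by rw [h2]; exact (himc τ hτ haτ).le)
      refine ⟨τ, Finset.mem_filter.mpr ⟨hτ, fun x hx => ?_⟩, he.symm⟩
      rcases eq_or_ne x a with rfl | hne
      · exact haτ
      · have hxb : x ∈ b := Finset.mem_erase.mpr ⟨hne, hx⟩
        obtain ⟨y, hy, hye⟩ := Finset.mem_image.mp (hsub (h3 (Finset.mem_image_of_mem φ hxb)))
        rw [← hR.inj (mem_nbr hτ haτ hy) (hbN x hxb) hye]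
        exact Finset.mem_of_mem_erase hy
  have hsum : ∀ (u : α → ℝ) (k : Fin r), k ∉ η.image col → ∀ τ ∈ S,
      ∑ W ∈ (im τ).filter (fun W : Submodule K (Fin r → K) => Module.finrank K W = rk k), u (ψ W) =
        ∑ x ∈ τ.filter (fun x => col x = k), u x := by
    intro u k hk τ hτ
    rw [him, Finset.filter_image, Finset.sum_image fun x hx y hy h =>
      hR.inj (hSN τ hτ x (Finset.mem_filter.mp hx).1) (hSN τ hτ y (Finset.mem_filter.mp hy).1) h]
    refine Finset.sum_congr ?_ fun x hx => ?_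
    · ext x
      simp only [Finset.mem_filter]
      constructor
      · rintro ⟨hx, he⟩
        exact ⟨Finset.mem_of_mem_erase hx, (hiff k x (hSN τ hτ x hx)).mp he⟩
      · rintro ⟨hx, he⟩
        have hxa : x ∈ τ.erase a := Finset.mem_erase.mpr
          ⟨fun h => hk (he ▸ h ▸ Finset.mem_image_of_mem col ha), hx⟩
        exact ⟨hxa, (hiff k x (hSN τ hτ x hxa)).mpr he⟩
    · rw [hψφ x ⟨fun h => hk ((Finset.mem_filter.mp hx).2 ▸ h ▸ Finset.mem_image_of_mem col ha),
        τ, (hSmem τ hτ).1, (hSmem τ hτ).2, (Finset.mem_filter.mp hx).1⟩]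
  have hout : ∀ W ∈ b.image φ, Module.finrank K W ≠ rk i ∧ Module.finrank K W ≠ rk j := by
    intro W hW
    obtain ⟨x, hx, rfl⟩ := Finset.mem_image.mp hW
    have hxη := Finset.mem_image_of_mem col (Finset.mem_of_mem_erase hx)
    exact ⟨fun h => hi ((hiff i x (hbN x hx)).mp h ▸ hxη),
      fun h => hj ((hiff j x (hbN x hx)).mp h ▸ hxη)⟩
  have key := hM Fl hR.flag _ hb0 (S.image im) hT (rk i) (rk j) hrkinj (hmem i hi) (hmem j hj)
    hout (fun W => f (ψ W)) (fun W => g (ψ W))
  simp only [Finset.sum_image himinj] at key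
  rw [Finset.sum_congr rfl (hsum f i hi), Finset.sum_congr rfl (hsum g j hj),
    Finset.sum_congr rfl (hsum (fun x => f x ^ 2) i hi),
    Finset.sum_congr rfl (hsum (fun x => g x ^ 2) j hj),
    Finset.sum_congr rfl (fun τ hτ => congrArg₂ (· * ·) (hsum f i hi τ hτ) (hsum g j hj τ hτ))]
    at key
  exact key hf0 hg0

/-- A finite complex on any type of vertices can be renamed by natural numbers. -/
lemma exists_nat_copy {F : Finset (Finset α)} {d : ℕ} {ε : ℝ} (h : IsCoboundaryExpander d ε F) :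
    ∃ φ : α → ℕ, ∃ G : Finset (Finset ℕ), Set.InjOn φ (vertices F : Set α) ∧
      G = F.image (Finset.image φ) ∧ IsCoboundaryExpander d ε G := by
  classical
  set V := vertices F with hV
  set F₁ : Finset (Finset V) := F.image fun τ => τ.subtype (· ∈ V) with hF₁
  have hFsub : ∀ τ ∈ F, τ ⊆ V := fun τ hτ x hx => Finset.mem_biUnion.mpr ⟨τ, hτ, hx⟩
  have hback : ∀ τ ∈ F, (τ.subtype (· ∈ V)).image Subtype.val = τ := by
    intro τ hτ
    ext x
    simpa using fun hx => hFsub τ hτ hx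
  have hF : F₁.image (Finset.image Subtype.val) = F := by
    rw [hF₁, Finset.image_image]
    exact (Finset.image_congr fun τ hτ => hback τ hτ).trans Finset.image_id
  have h₁ : IsCoboundaryExpander d ε F₁ := by
    intro i hi f
    obtain ⟨g, hg⟩ := h i hi (Function.extend (Finset.image Subtype.val) f 0)
    have hinj : Function.Injective (Subtype.val : V → α) := Subtype.val_injective
    refine ⟨fun σ => g (σ.image Subtype.val), ?_⟩
    rw [← hF, Q.coNorm_image hinj, Q.coNorm_image hinj] at hg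
    simp only [Q.cobd_image hinj, (Finset.image_injective hinj).extend_apply] at hg
    exact hg
  set e : V → ℕ := fun v => (Fintype.equivFin V v : ℕ) with he
  have heinj : Function.Injective e := Fin.val_injective.comp (Fintype.equivFin V).injective
  refine ⟨fun x => if hx : x ∈ V then e ⟨x, hx⟩ else 0, F₁.image (Finset.image e), ?_, ?_,
    Q.expander_image heinj h₁⟩
  · intro x hx y hy hxy
    simp only [dif_pos (Finset.mem_coe.mp hx), dif_pos (Finset.mem_coe.mp hy)] at hxy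
    exact congrArg Subtype.val (heinj hxy)
  · rw [hF₁, Finset.image_image]
    refine Finset.image_congr fun τ hτ => ?_
    ext n
    simp only [Function.comp_apply, Finset.mem_image, Finset.mem_subtype]
    constructor
    · rintro ⟨⟨x, hx⟩, hxτ, rfl⟩
      exact ⟨x, hxτ, dif_pos hx⟩
    · rintro ⟨x, hx, rfl⟩
      exact ⟨⟨x, hFsub τ hτ hx⟩, hx, by rw [dif_pos (hFsub τ hτ hx)]⟩

end Vale.Agent.P067.Full.Main
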