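import Vale.Agent.P067.Full.MainTop
import Vale.Agent.P067.Full.MainFin

/-!
Assembly of the bounded-degree coboundary expanders from the modules in `Statements.lean`.
-/

namespace Vale.Agent.P067.Full.Main

open Finset Vale.Agent.HDX

variable {α : Type*} [DecidableEq α]

lemma vertices_faces {F : Finset (Finset α)} {r j : ℕ} (hF : ∀ τ ∈ F, τ.card = r) (hj : 0 < j)
    (hjr : j ≤ r) : vertices (faces F j) = vertices F := by
  ext x
  simp only [vertices, Finset.mem_biUnion, id_eq]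
  constructor
  · rintro ⟨σ, hσ, hx⟩
    obtain ⟨⟨τ, hτ, hστ⟩, -⟩ := mem_faces.mp hσ
    exact ⟨τ, hτ, hστ hx⟩
  · rintro ⟨τ, hτ, hx⟩
    obtain ⟨σ, hxσ, hστ, hc⟩ := Finset.exists_subsuperset_card_eq
      (Finset.singleton_subset_iff.mpr hx) (n := j) (by rw [Finset.card_singleton]; omega)
      (by rw [hF τ hτ]; exact hjr)
    exact ⟨σ, mem_faces.mpr ⟨⟨τ, hτ, hστ⟩, hc⟩, hxσ (Finset.mem_singleton_self x)⟩

lemma degree_faces {F : Finset (Finset α)} {r j D : ℕ} (hF : ∀ τ ∈ F, τ.card = r)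
    (hD : DegreeLE D F) (v : α) :
    ((faces F j).filter fun σ => v ∈ σ).card ≤ D * 2 ^ r := by
  have hsub : ((faces F j).filter fun σ => v ∈ σ) ⊆
      (F.filter fun τ => v ∈ τ).biUnion fun τ => τ.powerset := by
    intro σ hσ
    obtain ⟨hσ, hv⟩ := Finset.mem_filter.mp hσ
    obtain ⟨⟨τ, hτ, hστ⟩, -⟩ := mem_faces.mp hσ
    exact Finset.mem_biUnion.mpr
      ⟨τ, Finset.mem_filter.mpr ⟨hτ, hστ hv⟩, Finset.mem_powerset.mpr hστ⟩
  refine (Finset.card_le_card hsub).trans (Finset.card_biUnion_le.trans ?_)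
  refine (Finset.sum_le_card_nsmul _ _ (2 ^ r) fun τ hτ => ?_).trans
    (Nat.mul_le_mul_right _ (hD v))
  rw [Finset.card_powerset, hF τ (Finset.mem_filter.mp hτ).1]

/-- Bounded-degree coboundary expanders in every dimension, from the modules. -/
theorem main_of_modules (hT : AlgTransfer) (hC : OppCones) (hM : OppMix) (hD : OppAcyclic)
    (hG : GammaAction) (hE : StabVanish) (hL : LocalExpansion) (hQ : QuotientComplex) :
    ∀ d : ℕ, 1 ≤ d → ∃ D : ℕ, ∃ ε : ℝ, 0 < ε ∧ ∀ n0 : ℕ, ∃ F : Finset (Finset ℕ),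
      (∀ τ ∈ F, τ.card = d + 1) ∧ n0 ≤ (vertices F).card ∧ IsConnectedComplex F ∧
        IsCoboundaryExpander d ε F ∧ ∀ v, (F.filter fun τ => v ∈ τ).card ≤ D := by
  intro d hd
  obtain ⟨r₀, hE⟩ := hE (d + 1)
  set r := max r₀ (d + 5) with hr
  have hr₀ : r₀ ≤ r := le_max_left _ _
  have hrd : d + 5 ≤ r := le_max_right _ _
  clear_value r
  have hne : NeZero r := ⟨by omega⟩
  obtain ⟨pC, B, hC⟩ := hC r
  obtain ⟨lam, hlam, hL⟩ := hL d r B hd (by omega)
  obtain ⟨pM, hM⟩ := hM r lam hlam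
  have hD' : ∀ s : ℕ, ∃ p₀ : ℕ, ∀ (p : ℕ) [Fact p.Prime], p₀ ≤ p → d + 4 ≤ s →
      (opp p s).Acyclic (d + 1) := by
    intro s
    by_cases hs : d + 4 ≤ s
    · obtain ⟨p₀, h⟩ := hD s (d + 1) (by omega)
      exact ⟨p₀, fun p _ hp _ => h p hp⟩
    · exact ⟨0, fun p _ _ h => absurd h hs⟩
  choose pD hpD using hD'
  obtain ⟨p, hp₀, hp⟩ := Nat.exists_infinite_primes
    (pC + pM + (Finset.range (r + 1)).sup pD + 3)
  have : Fact p.Prime := ⟨hp⟩
  have hp2 : p ≠ 2 := by omega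
  have hac : ∀ s, d + 4 ≤ s → s ≤ r → (opp p s).Acyclic (d + 1) := fun s h1 h2 =>
    hpD s p ((Finset.le_sup (f := pD) (Finset.mem_range.mpr (by omega : s < r + 1))).trans
      (by omega)) h1
  have hgam : ∀ (s : ℕ) [NeZero s], d + 1 + 4 ≤ s → s ≤ r →
      SS.GroupAcyclic (Gam0 p s) (d + 1) := fun s _ h1 h2 =>
    gam0_acyclic hT hG hp2 (hac s (by omega) h2)
  have hN := hE p r hp2 hr₀ hgam
  obtain ⟨D₁, m₀, hQ⟩ := hQ p r d hp2 hd (by omega)
  obtain ⟨ε, hε, hL⟩ := hL D₁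
  refine ⟨D₁ * 2 ^ r, ε, hε, fun n0 => ?_⟩
  obtain ⟨m, hm⟩ : ∃ m, m = m₀ + n0 + 1 := ⟨_, rfl⟩
  obtain ⟨α, hα, col, F, hRain, hHom, hEx, hDeg, hverts, hres⟩ :=
    hQ m (by omega) (hN m (by omega)) (hac r (by omega) le_rfl)
  have hres' : ∀ ρ : Finset α, ρ.Nonempty → IsFace F ρ →
      ∃ Fl φ a, a ∈ ρ ∧ Res (ZMod p) col F Fl φ a := by
    intro ρ hne hρ
    obtain ⟨Fl, φ, a, β, ha, -, hfl, hinj, hcol, hchain⟩ := hres ρ hne hρ
    exact ⟨Fl, φ, a, ha, hfl, hinj, fun x hx => hcol x hx.1 hx.2, hchain⟩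
  have hcard : Fintype.card (ZMod p) = p := ZMod.card p
  have hcones : LinkCones (d + 1) B F :=
    linkCones_of_res (by omega) hres' fun Fl hFl b' hb' =>
      hC (ZMod p) (by omega) Fl hFl b' hb'
  have hmix : PairMix lam col F :=
    pairMix_of_res hRain hres' fun Fl hFl β hβ T hT i j hij hi hj hout f g hf hg =>
      hM (ZMod p) (by omega) Fl hFl β hβ T hT i j hij hi hj hout f g hf hg
  obtain ⟨hexp, -⟩ := hL α col F hRain hHom hcones hmix hEx hDeg
  obtain ⟨φ, G, hφ, hG, hGexp⟩ := exists_nat_copy hexp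
  have hF : ∀ τ ∈ F, τ.card = r := fun τ hτ => (hRain.2 τ hτ).1
  have hsub : ∀ τ ∈ faces F (d + 1), τ ⊆ vertices (faces F (d + 1)) := fun τ hτ x hx =>
    Finset.mem_biUnion.mpr ⟨τ, hτ, hx⟩
  refine ⟨G, ?_, ?_, connected_of_expander hd hε hGexp, hGexp, ?_⟩
  · intro τ hτ
    rw [hG, Finset.mem_image] at hτ
    obtain ⟨σ, hσ, rfl⟩ := hτ
    rw [Finset.card_image_of_injOn (hφ.mono (by exact_mod_cast hsub σ hσ)),
      (mem_faces.mp hσ).2]
  · have hv : vertices G = (vertices (faces F (d + 1))).image φ := by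
      rw [vertices, vertices, hG, Finset.image_biUnion, Finset.biUnion_image]
      rfl
    rw [hv, Finset.card_image_of_injOn hφ, vertices_faces hF (by omega) (by omega)]
    omega
  · intro v
    by_cases hv : ∃ x ∈ vertices (faces F (d + 1)), φ x = v
    · obtain ⟨x, hx, rfl⟩ := hv
      refine le_trans ?_ (degree_faces hF hDeg x (j := d + 1))
      rw [hG, Finset.filter_image]
      refine Finset.card_image_le.trans (Finset.card_le_card fun σ hσ => ?_)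
      obtain ⟨hσ, hxσ⟩ := Finset.mem_filter.mp hσ
      obtain ⟨y, hy, hyx⟩ := Finset.mem_image.mp hxσ
      rw [hφ (hsub σ hσ hy) hx hyx] at hy
      exact Finset.mem_filter.mpr ⟨hσ, hy⟩
    · rw [Finset.filter_false_of_mem, Finset.card_empty]
      · exact Nat.zero_le _
      · intro τ hτ hvτ
        rw [hG, Finset.mem_image] at hτ
        obtain ⟨σ, hσ, rfl⟩ := hτ
        obtain ⟨y, hy, rfl⟩ := Finset.mem_image.mp hvτ
        exact hv ⟨y, hsub σ hσ hy, rfl⟩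

end Vale.Agent.P067.Full.Main
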