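import Vale.Agent.P067.Full.Statements

/-!
Assembly, algebraic part: the homology of the matrices that are lower unitriangular modulo `t`
vanishes below the rank, since their orbits on the opposite complex form a simplex.
-/

namespace Vale.Agent.P067.Full.Main

open Finset

/-- A contracting homotopy gives acyclicity. -/
lemma acyclic_of_contraction {S : SS} (h : ∀ k, S.Ch k →ₗ[ZMod 2] S.Ch (k + 1))
    (h0 : ∀ s : S.X 0, S.bd 0 (h 0 (Finsupp.single s 1)) = Finsupp.single s 1)
    (hk : ∀ k (s : S.X (k + 1)), S.bd (k + 1) (h (k + 1) (Finsupp.single s 1)) +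
      h k (S.bd k (Finsupp.single s 1)) = Finsupp.single s 1) (n : ℕ) : S.Acyclic n := by
  rintro (_ | k) - z hz
  · have he : (S.bd 0).comp (h 0) = LinearMap.id :=
      Finsupp.lhom_ext' fun s => LinearMap.ext_ring (by simpa using h0 s)
    exact ⟨h 0 z, LinearMap.congr_fun he z⟩
  · have he : (S.bd (k + 1)).comp (h (k + 1)) + (h k).comp (S.bd k) = LinearMap.id :=
      Finsupp.lhom_ext' fun s => LinearMap.ext_ring (by simpa using hk k s)
    refine ⟨h (k + 1) z, ?_⟩
    have := LinearMap.congr_fun he z
    simp only [LinearMap.add_apply, LinearMap.comp_apply, LinearMap.id_apply] at this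
    rw [show S.bd k z = 0 from hz, map_zero, add_zero] at this
    exact this

/-- Two copies of an element over `ZMod 2` cancel. -/
lemma add_add_self {α : Type*} (x y : α →₀ ZMod 2) : x + y + y = x := by
  rw [add_assoc, ZModModule.add_self, add_zero]

/-- The boundary of a cell. -/
lemma bd_single {S : SS} (k : ℕ) (s : S.X (k + 1)) :
    S.bd k (Finsupp.single s 1) = ∑ i, Finsupp.single (S.face k i s) 1 := by
  simp [SS.bd]

/-- Linear extension of a map on cells. -/
noncomputable def ext {S : SS} {k l : ℕ} (f : S.X k → S.Ch l) : S.Ch k →ₗ[ZMod 2] S.Ch l :=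
  Finsupp.linearCombination (ZMod 2) f

lemma ext_single {S : SS} {k l : ℕ} (f : S.X k → S.Ch l) (s : S.X k) :
    ext f (Finsupp.single s 1) = f s := by
  simp [ext]

/-- Putting a point in front of a tuple. -/
def consTup {Ω : Type} (a : Ω) {k : ℕ} (s : (SS.tup Ω).X k) : (SS.tup Ω).X (k + 1) :=
  (Fin.cons a s : Fin (k + 1) → Ω)

/-- Tuples in a nonempty type are acyclic. -/
lemma tup_acyclic (Ω : Type) [Nonempty Ω] (n : ℕ) : (SS.tup Ω).Acyclic n := by
  letI : Inhabited Ω := Classical.inhabited_of_nonempty ‹_›
  refine acyclic_of_contraction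
    (fun k => ext fun s => Finsupp.single (consTup (default : Ω) s) (1 : ZMod 2)) ?_ ?_ n
  · intro s
    rw [ext_single, bd_single]
    exact (Fin.sum_univ_one _).trans
      (congrArg (fun w => Finsupp.single w (1 : ZMod 2)) (funext fun i => i.elim0))
  · intro k s
    rw [ext_single, bd_single, bd_single, map_sum, Fin.sum_univ_succ]
    have h0 : (SS.tup Ω).face (k + 1) 0 (consTup default s) = s := by
      funext l
      simp [SS.tup, consTup]
      rfl
    have hs : ∀ i : Fin (k + 1), (SS.tup Ω).face (k + 1) i.succ (consTup default s) =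
        consTup default ((SS.tup Ω).face k i s) := by
      intro i
      funext l
      refine Fin.cases ?_ (fun l => ?_) l
      · simp [SS.tup, consTup]
        rfl
      · simp [SS.tup, consTup]
        rfl
    rw [h0]
    simp only [hs, ext_single]
    exact add_add_self _ _

section Simplex

variable {p r : ℕ} [Fact p.Prime] [NeZero r]

/-- The standard chain of lattices with given indices. -/
noncomputable def stdSimp {k : ℕ} (t : Fin k → Fin r) (ht : StrictMono t) : Simp p r k where
  ty := t
  lat i := lo p ((t i : ℕ) : ℤ)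
  ty_mono := ht
  isLat i := by
    refine ⟨?_, ((t i : ℕ) : ℤ), ((t i : ℕ) : ℤ), le_rfl, le_rfl, ?_⟩
    · unfold lo shift
      rw [Finsupp.lmapDomain_supported]
      refine Finsupp.supported_mono fun x hx => ⟨x - r, ?_, by simp⟩
      simp only [Set.mem_Iio] at hx ⊢
      omega
    · rw [Submodule.mkQ_map_self, finrank_bot]
      simp
  mono a b hab := by
    refine Finsupp.supported_mono fun x hx => ?_
    have := Fin.le_def.mp (ht.monotone hab)
    simp only [Set.mem_Iio] at hx ⊢
    omega
  wrap i j := by
    unfold lo shift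
    rw [Finsupp.lmapDomain_supported]
    refine Finsupp.supported_mono fun x hx => ⟨x - r, ?_, by simp⟩
    have := (t i).2
    simp only [Set.mem_Iio] at hx ⊢
    omega

omit [NeZero r] in
lemma stdSimp_opposite {k : ℕ} (t : Fin k → Fin r) (ht : StrictMono t) :
    (stdSimp (p := p) t ht).Opposite := by
  intro i
  rw [← disjoint_iff]
  exact Finsupp.disjoint_supported_supported (Set.disjoint_left.mpr fun x hx hx' =>
    (not_lt.mpr (Set.mem_Ici.mp hx') (Set.mem_Iio.mp hx)))

/-- A cell of the opposite complex of given type. -/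
noncomputable def stdOpp {k : ℕ} (t : Fin k → Fin r) (ht : StrictMono t) : (opp p r).X k :=
  ⟨stdSimp t ht, stdSimp_opposite t ht⟩

/-- If the group acts transitively on the cells of each type, the orbits form a simplex, so are
acyclic. -/
lemma quot_opp_acyclic {G : Type} [Group G] (A : SS.Act G (opp p r))
    (hty : ∀ k (g : G) (s : (opp p r).X k), (A.act k g s).1.ty = s.1.ty)
    (htr : ∀ k (s t : (opp p r).X k), s.1.ty = t.1.ty → ∃ g, A.act k g s = t) (n : ℕ) :
    (SS.quot A).Acyclic n := by
  classical
  -- the type of an orbit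
  let ty : ∀ {k}, (SS.quot A).X k → Fin k → Fin r := fun {k} =>
    Quotient.lift (fun s : (opp p r).X k => s.1.ty) fun a b ⟨g, hg⟩ => by rw [← hg, hty]
  have hinj : ∀ {k} (u v : (SS.quot A).X k), ty u = ty v → u = v := by
    intro k u v
    induction u using Quotient.inductionOn with | h a => ?_
    induction v using Quotient.inductionOn with | h b => ?_
    exact fun h => Quotient.sound (htr k a b h)
  have hmono : ∀ {k} (u : (SS.quot A).X k), StrictMono (ty u) := by
    intro k u
    induction u using Quotient.inductionOn with | h a => exact a.1.ty_mono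
  have hface : ∀ {k} (i : Fin (k + 1)) (u : (SS.quot A).X (k + 1)),
      ty ((SS.quot A).face k i u) = ty u ∘ i.succAbove := by
    intro k i u
    induction u using Quotient.inductionOn with | h a => rfl
  have hcons : ∀ {k} (u : (SS.quot A).X k), (¬ ∃ i, ty u i = 0) →
      StrictMono (Fin.cons (0 : Fin r) (ty u) : Fin (k + 1) → Fin r) := by
    intro k u hu a
    refine Fin.cases ?_ (fun a => ?_) a
    · intro b hb
      obtain ⟨b, rfl⟩ := Fin.eq_succ_of_ne_zero hb.ne'
      rw [Fin.cons_zero, Fin.cons_succ]
      exact Fin.pos_iff_ne_zero.mpr fun h => hu ⟨b, h⟩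
    · intro b hb
      obtain ⟨b, rfl⟩ := Fin.eq_succ_of_ne_zero (Fin.ne_zero_of_lt hb)
      rw [Fin.cons_succ, Fin.cons_succ]
      exact hmono u (Fin.succ_lt_succ_iff.mp hb)
  -- the cone on the vertex of type zero
  let cn : ∀ k, (SS.quot A).X k → (SS.quot A).Ch (k + 1) := fun k u =>
    if hu : ∃ i, ty u i = 0 then 0
    else Finsupp.single (Quotient.mk _ (stdOpp (p := p) _ (hcons u hu))) 1
  have hcn : ∀ {k} (u : (SS.quot A).X k), (¬ ∃ i, ty u i = 0) → ∃ v, ty v = Fin.cons 0 (ty u) ∧
      cn k u = Finsupp.single v 1 :=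
    fun u hu => ⟨_, rfl, dif_neg hu⟩
  refine acyclic_of_contraction (fun k => ext (cn k)) ?_ ?_ n
  · intro u
    obtain ⟨v, hv, hc⟩ := hcn u (fun ⟨i, _⟩ => i.elim0)
    rw [ext_single, hc, bd_single]
    exact (Fin.sum_univ_one _).trans
      (congrArg (fun w => Finsupp.single w (1 : ZMod 2)) (hinj _ _ (funext fun i => i.elim0)))
  · intro k u
    rw [ext_single, bd_single, map_sum]
    simp only [ext_single]
    by_cases hu : ∃ i, ty u i = 0
    · simp only [cn, dif_pos hu, map_zero, zero_add]
      obtain ⟨i, hi⟩ := hu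
      have hi0 : i = 0 := by
        by_contra hne
        exact not_lt.mpr (Fin.zero_le _)
          (hi ▸ hmono u (Fin.pos_iff_ne_zero.mpr hne) : ty u 0 < (0 : Fin r))
      subst hi0
      rw [Fin.sum_univ_succ]
      have hsucc : ∀ j : Fin k, (if hu : ∃ i, ty ((SS.quot A).face k j.succ u) i = 0 then
          (0 : (SS.quot A).Ch (k + 1))
          else Finsupp.single (Quotient.mk _ (stdOpp (p := p) _ (hcons _ hu))) 1) = 0 := by
        intro j
        have : NeZero k := ⟨Nat.pos_iff_ne_zero.mp j.pos⟩
        exact dif_pos ⟨0, by rw [hface]; simp [hi]⟩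
      simp only [hsucc, Finset.sum_const_zero, add_zero]
      have hnot : ¬ ∃ i, ty ((SS.quot A).face k 0 u) i = 0 := by
        rintro ⟨l, hl⟩
        rw [hface] at hl
        simp only [Function.comp_apply, Fin.succAbove_zero] at hl
        have hlt : ty u 0 < ty u l.succ := hmono u (Fin.succ_pos l)
        rw [hl, hi] at hlt
        exact lt_irrefl _ hlt
      obtain ⟨v, hv, hc⟩ := hcn _ hnot
      refine hc.trans (congrArg (fun w => Finsupp.single w (1 : ZMod 2)) (hinj _ _ ?_))
      rw [hv, hface]
      funext l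
      refine Fin.cases ?_ (fun l => ?_) l
      · simp [hi]
      · simp
    · obtain ⟨v, hv, hc⟩ := hcn u hu
      rw [hc, bd_single, Fin.sum_univ_succ]
      have h0 : (SS.quot A).face (k + 1) 0 v = u := by
        refine hinj _ _ ?_
        rw [hface, hv]
        funext l
        simp
      have hs : ∀ i : Fin (k + 1), cn k ((SS.quot A).face k i u) =
          Finsupp.single ((SS.quot A).face (k + 1) i.succ v) 1 := by
        intro i
        obtain ⟨w, hw, hcw⟩ := hcn ((SS.quot A).face k i u) fun ⟨l, hl⟩ =>
          hu ⟨i.succAbove l, by rw [hface] at hl; exact hl⟩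
        refine hcw.trans (congrArg (fun w => Finsupp.single w (1 : ZMod 2)) (hinj _ _ ?_))
        rw [hw, hface, hface, hv]
        funext l
        refine Fin.cases ?_ (fun l => ?_) l
        · simp
        · simp
      rw [h0]
      simp only [hs]
      exact add_add_self _ _

/-- The homology of the lower unitriangular matrices modulo `t` vanishes as far as the opposite
complex is acyclic. -/
lemma gam0_acyclic (hT : AlgTransfer) (hG : GammaAction) {n : ℕ} (hp : p ≠ 2)
    (hac : (opp p r).Acyclic n) : SS.GroupAcyclic (Gam0 p r) n := by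
  obtain ⟨A, hodd, hact, htr⟩ := hG p r hp
  have hq : (SS.quot A).Acyclic n :=
    quot_opp_acyclic A (fun k g s => (hact k g s).1) htr n
  have : Subsingleton ((opp p r).X 0) :=
    ⟨fun a b => Subtype.ext (Simp.ext (funext fun i => i.elim0) (funext fun i => i.elim0))⟩
  have hne : Nonempty ((opp p r).X 0) := ⟨stdOpp (fun i => i.elim0) fun i => i.elim0⟩
  refine hT (Gam0 p r) (opp p r) (SS.tup (SL p r)) A ((SS.tupAct (SL p r)).restrict (Gam0 p r)) n
    hodd ?_ hac (tup_acyclic _ n) this ⟨fun a b => funext fun i => i.elim0⟩ hne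
    ⟨fun i => i.elim0⟩ hq
  intro k hk s
  have hset : {g : Gam0 p r | ((SS.tupAct (SL p r)).restrict (Gam0 p r)).act k g s = s} = {1} := by
    ext g
    refine ⟨fun h => ?_, fun h => by rw [Set.mem_singleton_iff.mp h]; simp⟩
    have h' : (g : SL p r) * s ⟨0, hk⟩ = s ⟨0, hk⟩ := congrFun h ⟨0, hk⟩
    exact Subtype.ext (mul_eq_right.mp h')
  rw [hset]
  exact ⟨Set.finite_singleton _, by simp⟩

end Simplex

end Vale.Agent.P067.Full.Main
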