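import Vale.Agent.P067.Full.Lattice

/-!
The linear action of matrices over `F_p[t]` on `F_p[t, 1/t]^r`: it is multiplicative, commutes
with the shift, is bounded, and the matrices that are lower unitriangular modulo `t` preserve the
fixed flag and move no vector at its leading index.
-/

namespace Vale.Agent.P067.Full

open Polynomial

variable {p r : ℕ}

/-- The vectors with given polynomial coordinates, shifted by `q` periods. -/
noncomputable def emb (p r : ℕ) (q : ℤ) : (Fin r → (ZMod p)[X]) →ₗ[ZMod p] M p :=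
  ∑ b : Fin r, (Polynomial.lsum fun l : ℕ =>
    Finsupp.lsingle (((b : ℕ) : ℤ) + (r : ℤ) * (q + (l : ℤ)))).comp (LinearMap.proj b)

lemma emb_apply (q : ℤ) (v : Fin r → (ZMod p)[X]) :
    emb p r q v = ∑ b : Fin r, (v b).sum fun l c =>
      Finsupp.single (((b : ℕ) : ℤ) + (r : ℤ) * (q + (l : ℤ))) c := by
  simp [emb]

lemma emb_add_X_pow (q : ℤ) (l : ℕ) (v : Fin r → (ZMod p)[X]) :
    emb p r (q + l) v = emb p r q fun b => X ^ l * v b := by
  simp only [emb_apply]
  refine Finset.sum_congr rfl fun b _ => ?_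
  induction v b using Polynomial.induction_on' with
  | add f g hf hg =>
    rw [mul_add, Polynomial.sum_add_index _ _ _ (by simp) (by simp),
      Polynomial.sum_add_index _ _ _ (by simp) (by simp), hf, hg]
  | monomial n c =>
    rw [X_pow_mul_monomial, Polynomial.sum_monomial_index _ _ (by simp),
      Polynomial.sum_monomial_index _ _ (by simp)]
    congr 2
    push_cast
    ring

lemma emb_tr (q q' : ℤ) (v : Fin r → (ZMod p)[X]) :
    emb p r (q + q') v = tr p ((r : ℤ) * q') (emb p r q v) := by
  simp only [emb_apply, map_sum, Polynomial.sum_def]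
  refine Finset.sum_congr rfl fun b _ => Finset.sum_congr rfl fun l _ => ?_
  rw [tr_single]
  congr 1
  ring

lemma emb_coeff [NeZero r] (q : ℤ) (v : Fin r → (ZMod p)[X]) (b : Fin r) (l : ℕ) :
    emb p r q v (((b : ℕ) : ℤ) + (r : ℤ) * (q + (l : ℤ))) = (v b).coeff l := by
  classical
  have hinj : ∀ (b' : Fin r) (l' : ℕ), ((b' : ℕ) : ℤ) + (r : ℤ) * (q + (l' : ℤ)) =
      ((b : ℕ) : ℤ) + (r : ℤ) * (q + (l : ℤ)) → b' = b ∧ l' = l := by
    intro b' l' h
    have hb : b' = b := by
      rw [← coord_fin b', ← coord_fin b, ← coord_add ((b' : ℕ) : ℤ) (q + (l' : ℤ)), h, coord_add]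
    subst hb
    have h' := mul_left_cancel₀ (r_pos (r := r)).ne' (add_left_cancel h)
    exact ⟨rfl, by omega⟩
  rw [emb_apply, Finsupp.finsetSum_apply, Finset.sum_eq_single b]
  · rw [Polynomial.sum_def, Finsupp.finsetSum_apply, Finset.sum_eq_single l]
    · exact Finsupp.single_eq_same
    · intro l' _ hl
      exact Finsupp.single_eq_of_ne fun h => hl (hinj b l' h.symm).2
    · intro hl
      rw [Finsupp.single_eq_same]
      exact notMem_support_iff.1 hl
  · intro b' _ hb
    rw [Polynomial.sum_def, Finsupp.finsetSum_apply]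
    refine Finset.sum_eq_zero fun l' _ => ?_
    exact Finsupp.single_eq_of_ne fun h => hb (hinj b' l' h.symm).1
  · simp

lemma emb_apply_low [NeZero r] (q : ℤ) (v : Fin r → (ZMod p)[X]) {k : ℤ} (hk : k < (r : ℤ) * q) :
    emb p r q v k = 0 := by
  rw [emb_apply, Finsupp.finsetSum_apply]
  refine Finset.sum_eq_zero fun b _ => ?_
  rw [Polynomial.sum_def, Finsupp.finsetSum_apply]
  refine Finset.sum_eq_zero fun l _ => Finsupp.single_eq_of_ne fun h => ?_
  have : (r : ℤ) * q ≤ (r : ℤ) * (q + l) := mul_le_mul_of_nonneg_left (by omega) (by omega)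
  omega

lemma emb_injective [NeZero r] (q : ℤ) : Function.Injective (emb p r q) := by
  intro v w h
  funext b
  ext l
  rw [← emb_coeff q v b l, ← emb_coeff q w b l, h]

variable [NeZero r]

lemma matVec_eq (g : Matrix (Fin r) (Fin r) (ZMod p)[X]) (k : ℤ) :
    matVec p r g k = emb p r (k / (r : ℤ)) (fun b => g b (coord r k)) := by
  rw [emb_apply]
  rfl

lemma matLin_single (g : Matrix (Fin r) (Fin r) (ZMod p)[X]) (k : ℤ) (c : ZMod p) :
    matLin p r g (Finsupp.single k c) = c • matVec p r g k := by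
  simp [matLin]

lemma matLin_emb (g : Matrix (Fin r) (Fin r) (ZMod p)[X]) (q : ℤ) (v : Fin r → (ZMod p)[X]) :
    matLin p r g (emb p r q v) = emb p r q (g.mulVec v) := by
  classical
  have key : (matLin p r g).comp (emb p r q) =
      (emb p r q).comp ((Matrix.mulVecLin g).restrictScalars (ZMod p)) := by
    refine LinearMap.pi_ext fun a f => ?_
    induction f using Polynomial.induction_on' with
    | add f f' hf hf' => rw [Pi.single_add, map_add, map_add, hf, hf']
    | monomial l c =>
      simp only [LinearMap.comp_apply, LinearMap.restrictScalars_apply, Matrix.mulVecLin_apply]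
      rw [emb_apply, Finset.sum_eq_single a (fun b _ hb => by simp [Pi.single_eq_of_ne hb])
        (by simp), Pi.single_eq_same, Polynomial.sum_monomial_index _ _ (by simp), matLin_single,
        matVec_eq, coord_add, coord_fin, Int.add_mul_ediv_left _ _ (r_pos (r := r)).ne',
        Int.ediv_eq_zero_of_lt (by omega) (by omega), zero_add, emb_add_X_pow, ← map_smul]
      congr 1
      funext b
      rw [Matrix.mulVec_single, Pi.smul_apply, ← C_mul_X_pow_eq_monomial, smul_eq_C_mul]
      simp only [Pi.smul_apply, MulOpposite.smul_eq_mul_unop, MulOpposite.unop_op, Matrix.col_apply]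
      ring
  exact LinearMap.congr_fun key v

lemma matLin_mul (g h : Matrix (Fin r) (Fin r) (ZMod p)[X]) (x : M p) :
    matLin p r (g * h) x = matLin p r g (matLin p r h x) := by
  have key : matLin p r (g * h) = (matLin p r g).comp (matLin p r h) := by
    refine Finsupp.lhom_ext fun k c => ?_
    rw [LinearMap.comp_apply, matLin_single, matLin_single, map_smul, matVec_eq, matVec_eq,
      matLin_emb]
    rfl
  rw [key, LinearMap.comp_apply]

lemma matVec_one (k : ℤ) :
    matVec p r (1 : Matrix (Fin r) (Fin r) (ZMod p)[X]) k = Finsupp.single k 1 := by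
  rw [matVec_eq, emb_apply, Finset.sum_eq_single (coord r k)
    (fun b _ hb => by simp [Matrix.one_apply_ne hb]) (by simp), Matrix.one_apply_eq, ← C_1,
    ← monomial_zero_left, Polynomial.sum_monomial_index _ _ (by simp)]
  congr 1
  rw [coord_val, Nat.cast_zero, add_zero]
  exact Int.emod_add_mul_ediv k r

lemma matLin_one (x : M p) : matLin p r (1 : Matrix (Fin r) (Fin r) (ZMod p)[X]) x = x := by
  have key : matLin p r (1 : Matrix (Fin r) (Fin r) (ZMod p)[X]) = LinearMap.id := by
    refine Finsupp.lhom_ext fun k c => ?_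
    rw [matLin_single, matVec_one, LinearMap.id_apply, Finsupp.smul_single, smul_eq_mul, mul_one]
  rw [key, LinearMap.id_apply]

lemma matLin_tr (g : Matrix (Fin r) (Fin r) (ZMod p)[X]) (q : ℤ) (x : M p) :
    matLin p r g (tr p ((r : ℤ) * q) x) = tr p ((r : ℤ) * q) (matLin p r g x) := by
  have key : (matLin p r g).comp (tr p ((r : ℤ) * q)).toLinearMap =
      (tr p ((r : ℤ) * q)).toLinearMap.comp (matLin p r g) := by
    refine Finsupp.lhom_ext fun k c => ?_
    simp only [LinearMap.comp_apply, LinearEquiv.coe_coe, tr_single, matLin_single, map_smul,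
      matVec_eq, coord_add, Int.add_mul_ediv_left _ _ (r_pos (r := r)).ne', emb_tr]
  exact LinearMap.congr_fun key x

lemma matLin_shift (g : Matrix (Fin r) (Fin r) (ZMod p)[X]) (x : M p) :
    matLin p r g (shift p r x) = shift p r (matLin p r g x) := by
  have := matLin_tr g 1 x
  rwa [mul_one, ← LinearEquiv.coe_coe, ← shift_eq_tr] at this

/-- The image of a standard lattice is bounded. -/
lemma exists_map_lo_le (g : Matrix (Fin r) (Fin r) (ZMod p)[X]) :
    ∃ D : ℤ, ∀ n, (lo p n).map (matLin p r g) ≤ lo p (n + D) := by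
  refine ⟨(r : ℤ) * (((Finset.univ.sup fun b => Finset.univ.sup fun a => (g b a).natDegree) :
    ℕ) + 1 : ℤ), fun n => ?_⟩
  rw [Submodule.map_le_iff_le_comap, lo, Finsupp.supported_eq_span_single, Submodule.span_le]
  rintro _ ⟨k, hk, rfl⟩
  simp only [Set.mem_Iio] at hk
  rw [SetLike.mem_coe, Submodule.mem_comap, matLin_single, one_smul, matVec, mem_lo]
  intro j hj
  rw [Finsupp.finsetSum_apply]
  refine Finset.sum_eq_zero fun b _ => ?_
  rw [Polynomial.sum_def, Finsupp.finsetSum_apply]
  refine Finset.sum_eq_zero fun l hl => Finsupp.single_eq_of_ne fun h => ?_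
  have h1 : l ≤ Finset.univ.sup fun b => Finset.univ.sup fun a => (g b a).natDegree :=
    (le_natDegree_of_mem_supp l hl).trans ((Finset.le_sup
      (f := fun a => (g b a).natDegree) (Finset.mem_univ (coord r k))).trans
      (Finset.le_sup (f := fun b => Finset.univ.sup fun a => (g b a).natDegree)
        (Finset.mem_univ b)))
  have h2 : (r : ℤ) * (k / (r : ℤ)) ≤ k := Int.mul_ediv_self_le (r_pos (r := r)).ne'
  have h3 : (r : ℤ) * (l : ℤ) ≤ (r : ℤ) *
      ((Finset.univ.sup fun b => Finset.univ.sup fun a => (g b a).natDegree : ℕ) : ℤ) :=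
    mul_le_mul_of_nonneg_left (by exact_mod_cast h1) (by omega)
  have := b.2
  simp only [mul_add, mul_one] at hj h
  omega

section Triangular

variable [Fact p.Prime]

omit [NeZero r] in
lemma mem_Gam0 {g : SL p r} :
    g ∈ Gam0 p r ↔ (∀ i j : Fin r, i < j → ((g : Matrix (Fin r) (Fin r) (ZMod p)[X]) i j).coeff 0 = 0) ∧
      ∀ i, ((g : Matrix (Fin r) (Fin r) (ZMod p)[X]) i i).coeff 0 = 1 := by
  simp only [coeff_zero_eq_eval_zero]
  exact Iff.rfl

lemma matVec_below {g : SL p r} (hg : g ∈ Gam0 p r) {k j : ℤ} (hj : j ≤ k) :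
    matVec p r (g : Matrix (Fin r) (Fin r) (ZMod p)[X]) k j = if j = k then 1 else 0 := by
  rw [matVec_eq]
  rcases lt_or_ge j ((r : ℤ) * (k / (r : ℤ))) with h | h
  · have h2 : (r : ℤ) * (k / (r : ℤ)) ≤ k := Int.mul_ediv_self_le (r_pos (r := r)).ne'
    rw [emb_apply_low _ _ h, if_neg (by omega)]
  · have hk := Int.emod_add_mul_ediv k (r : ℤ)
    have hk' := Int.emod_lt_of_pos k (r_pos (r := r))
    have hk'' := coord_val (r := r) k
    obtain ⟨b, hb⟩ : ∃ b : Fin r, ((b : ℕ) : ℤ) = j - (r : ℤ) * (k / (r : ℤ)) :=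
      ⟨⟨(j - (r : ℤ) * (k / (r : ℤ))).toNat, by omega⟩, by simp only; omega⟩
    have e := emb_coeff (p := p) (k / (r : ℤ))
      (fun b => (g : Matrix (Fin r) (Fin r) (ZMod p)[X]) b (coord r k)) b 0
    rw [Nat.cast_zero, add_zero, show ((b : ℕ) : ℤ) + (r : ℤ) * (k / (r : ℤ)) = j by omega] at e
    rw [e]
    obtain ⟨h1, h2⟩ := mem_Gam0.1 hg
    split_ifs with hjk
    · rw [show b = coord r k from Fin.ext (by omega)]
      exact h2 _
    · exact h1 _ _ (Fin.lt_def.2 (by omega))

lemma matLin_apply_eq {g : SL p r} (hg : g ∈ Gam0 p r) {n : ℤ} {x : M p} (hx : x ∈ hi p n)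
    {j : ℤ} (hj : j ≤ n) :
    matLin p r (g : Matrix (Fin r) (Fin r) (ZMod p)[X]) x j = x j := by
  rw [matLin, Finsupp.linearCombination_apply, Finsupp.sum, Finsupp.finsetSum_apply]
  have hterm : ∀ k ∈ x.support, (x k • matVec p r (g : Matrix (Fin r) (Fin r) (ZMod p)[X]) k) j =
      if j = k then x k else 0 := by
    intro k hk
    have hnk : n ≤ k := by
      by_contra hh
      exact Finsupp.mem_support_iff.1 hk (mem_hi.1 hx k (not_le.1 hh))
    rw [Finsupp.smul_apply, matVec_below hg (hj.trans hnk), smul_eq_mul]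
    split_ifs <;> simp
  rw [Finset.sum_congr rfl hterm, Finset.sum_ite_eq]
  split_ifs with h
  · rfl
  · exact (Finsupp.notMem_support_iff.1 h).symm

lemma matLin_mem_hi {g : SL p r} (hg : g ∈ Gam0 p r) {n : ℤ} {x : M p} (hx : x ∈ hi p n) :
    matLin p r (g : Matrix (Fin r) (Fin r) (ZMod p)[X]) x ∈ hi p n :=
  mem_hi.2 fun j hj => by rw [matLin_apply_eq hg hx hj.le, mem_hi.1 hx j hj]

/-- The matrices lower unitriangular modulo `t` contain no involution in odd characteristic. -/
lemma eq_one_of_sq_eq_one (hp : p ≠ 2) {g : SL p r} (hg : g ∈ Gam0 p r) (h2 : g * g = 1) :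
    g = 1 := by
  have hinv : ∀ x, matLin p r (g : Matrix (Fin r) (Fin r) (ZMod p)[X])
      (matLin p r (g : Matrix (Fin r) (Fin r) (ZMod p)[X]) x) = x := fun x => by
    rw [← matLin_mul, ← Matrix.SpecialLinearGroup.coe_mul, h2, Matrix.SpecialLinearGroup.coe_one,
      matLin_one]
  have h2ne : (2 : ZMod p) ≠ 0 := by
    intro h
    have : p ∣ 2 := (ZMod.natCast_eq_zero_iff 2 p).1 (by exact_mod_cast h)
    exact hp ((Nat.prime_dvd_prime_iff_eq Fact.out Nat.prime_two).1 this)
  have hfix : ∀ k, matVec p r (g : Matrix (Fin r) (Fin r) (ZMod p)[X]) k = Finsupp.single k 1 := by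
    intro k
    set w := matVec p r (g : Matrix (Fin r) (Fin r) (ZMod p)[X]) k - Finsupp.single k 1 with hw
    have hgw : matLin p r (g : Matrix (Fin r) (Fin r) (ZMod p)[X]) w = -w := by
      have := hinv (Finsupp.single k 1)
      rw [matLin_single, one_smul] at this
      rw [hw, map_sub, this, matLin_single, one_smul, neg_sub]
    have hmem : ∀ m : ℕ, w ∈ hi p (k + m) := by
      intro m
      induction m with
      | zero =>
        refine mem_hi.2 fun j hj => ?_
        rw [hw, Finsupp.sub_apply, matVec_below hg (by omega), if_neg (by omega),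
          Finsupp.single_eq_of_ne (by omega), sub_zero]
      | succ m ih =>
        refine mem_hi.2 fun j hj => ?_
        rcases lt_or_ge j (k + m) with h | h
        · exact mem_hi.1 ih j h
        · have e := matLin_apply_eq hg ih (j := j) (by omega)
          rw [hgw, Finsupp.neg_apply, neg_eq_iff_add_eq_zero, ← two_mul] at e
          exact (mul_eq_zero.1 e).resolve_left h2ne
    refine sub_eq_zero.1 (Finsupp.ext fun j => ?_)
    obtain ⟨m, hm⟩ : ∃ m : ℕ, j < k + m := ⟨(j - k + 1).toNat, by omega⟩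
    simpa [hw] using mem_hi.1 (hmem m) j hm
  refine Subtype.ext (Matrix.ext fun b a => ?_)
  have h := hfix ((a : ℕ) : ℤ)
  rw [matVec_eq, ← matVec_one (p := p) (r := r), matVec_eq, coord_fin] at h
  exact congrFun (emb_injective _ h) b

end Triangular

end Vale.Agent.P067.Full
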