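import Vale.Agent.P067.Full.OppConesProof
import Vale.Agent.P067.Full.Acyc.Assemble
import Vale.Agent.P067.Full.Acyc.Height
import Vale.Agent.P067.Full.Acyc.Link
import Vale.Agent.P067.Full.Acyc.Bridge

/-!
The complex of chains opposite to the fixed flag is acyclic below the rank.
-/

namespace Vale.Agent.P067.Full

theorem oppAcyclic : OppAcyclic := by
  intro r n hr
  obtain ⟨p₀, hp⟩ := Acyc.exists_cones oppCones r
  refine ⟨p₀, fun p _ hpp => ?_⟩
  haveI : NeZero r := ⟨by omega⟩
  exact Acyc.opp_acyclic_of_cells Acyc.isHeight_hHi n fun k hk z hz hbd =>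
    Acyc.level_zero_acyclic Acyc.isHeight_hHi Acyc.isHeight_rk
      (fun b hb hne => Acyc.exists_link Acyc.isHeight_hHi hb hne) (hp p hpp) (by omega) z hz hbd

end Vale.Agent.P067.Full
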