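import Vale.Agent.P067.Cones
import Vale.Agent.P067.Full.Statements

/-!
Bounded cones in complexes of subspaces opposite to a flag.
-/

open Finset Module
open Vale.Agent.HDX
open Vale.Agent.P067

namespace Vale.Agent.P067.Full

variable {K : Type} [Field K] {b : ℕ}

lemma finrank_amb : finrank K (Fin b → K) = b := Module.finrank_fin_fun K

/-- Opposite subspaces are in general position to all steps of the flag. -/
lemma trans_of_opp {Fl : ℕ → Submodule K (Fin b → K)} (hF : IsCompleteFlag Fl)
    {W : Submodule K (Fin b → K)} (h : W ⊓ Fl (finrank K W) = ⊥) :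
    Opp.Trans (fun i : Fin (b + 1) => Fl i) W := by
  intro i
  rcases le_total (finrank K W) (i : ℕ) with hi | hi
  · exact Or.inl (le_bot_iff.1 (h ▸ inf_le_inf_left W (hF.1 hi)))
  · refine Or.inr (top_le_iff.1 (le_trans (le_of_eq ?_) (sup_le_sup_left (hF.1 hi) W)))
    have hW : finrank K W ≤ b := (Submodule.finrank_le W).trans_eq finrank_amb
    have h1 := Submodule.finrank_sup_add_finrank_inf_eq W (Fl (finrank K W))
    rw [h, finrank_bot, hF.2 _ hW] at h1
    refine (Submodule.eq_top_of_finrank_eq ?_).symm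
    rw [finrank_amb]
    omega

lemma opp_of_trans {Fl : ℕ → Submodule K (Fin b → K)} (hF : IsCompleteFlag Fl)
    {W : Submodule K (Fin b → K)} (h : Opp.Trans (fun i : Fin (b + 1) => Fl i) W) :
    W ⊓ Fl (finrank K W) = ⊥ := by
  have hW : finrank K W ≤ b := (Submodule.finrank_le W).trans_eq finrank_amb
  rcases h ⟨finrank K W, by omega⟩ with h | h
  · exact h
  · have h1 := Submodule.finrank_sup_add_finrank_inf_eq W (Fl (finrank K W))
    change W ⊔ Fl (finrank K W) = ⊤ at h
    rw [h, finrank_top, finrank_amb, hF.2 _ hW] at h1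
    exact Submodule.finrank_eq_zero.1 (by omega)

lemma trans_bot {κ : Type*} (F : κ → Submodule K (Fin b → K)) : Opp.Trans F ⊥ :=
  fun _ => Or.inl (bot_inf_eq _)

lemma trans_top {κ : Type*} (F : κ → Submodule K (Fin b → K)) : Opp.Trans F ⊤ :=
  fun _ => Or.inr (top_sup_eq _)

section Map

variable {α γ : Type*} [DecidableEq α] [DecidableEq γ]

/-- The chain map induced by a map of vertices. -/
noncomputable def mapCh (f : α → γ) : Ch α →ₗ[ZMod 2] Ch γ :=
  Finsupp.linearCombination (ZMod 2) fun σ => Finsupp.single (σ.image f) 1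

lemma mapCh_single (f : α → γ) (σ : Finset α) :
    mapCh f (Finsupp.single σ 1) = Finsupp.single (σ.image f) 1 := by simp [mapCh]

lemma bd_mapCh (f : α → γ) {z : Ch α} (hz : ∀ σ ∈ z.support, Set.InjOn f σ) :
    bd (mapCh f z) = mapCh f (bd z) := by
  conv_lhs => rw [← Finsupp.sum_single z]
  conv_rhs => rw [← Finsupp.sum_single z]
  simp only [Finsupp.sum, map_sum]
  refine Finset.sum_congr rfl fun σ hσ => ?_
  rw [show (Finsupp.single σ (z σ) : Ch α) = z σ • Finsupp.single σ 1 by simp, map_smul, map_smul,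
    map_smul, map_smul, mapCh_single, bd_single, bd_single, map_sum,
    Finset.sum_image (hz σ hσ)]
  congr 1
  refine Finset.sum_congr rfl fun x hx => ?_
  rw [mapCh_single]
  congr 1
  ext y
  simp only [Finset.mem_erase, Finset.mem_image]
  constructor
  · rintro ⟨hne, a, ha, rfl⟩
    exact ⟨a, ⟨fun e => hne (e ▸ rfl), ha⟩, rfl⟩
  · rintro ⟨a, ⟨hne, ha⟩, rfl⟩
    exact ⟨fun e => hne (hz σ hσ ha hx e), a, ha, rfl⟩

lemma card_mapCh (f : α → γ) (z : Ch α) :
    (mapCh f z).support.card ≤ z.support.card := by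
  rw [mapCh, Finsupp.linearCombination_apply, Finsupp.sum]
  refine (Finset.card_le_card Finsupp.support_finsetSum).trans
    (Finset.card_biUnion_le.trans ?_)
  refine (Finset.sum_le_card_nsmul _ _ 1 fun σ _ => ?_).trans_eq (by rw [smul_eq_mul, mul_one])
  exact (Finset.card_le_card Finsupp.support_smul).trans (Opp.card_single_le _)

end Map

/-- Every complex of subspaces opposite to a flag has bounded cones. -/
theorem oppCones : OppCones := by
  intro b
  refine ⟨(∑ N ∈ Finset.range (b * b + 1), Opp.coneField (b + 1) N) + 1,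
    ∑ N ∈ Finset.range (b * b + 1), ∑ i ∈ Finset.range (b + 1), Opp.coneSize N i, ?_⟩
  intro K _ _ hp Fl hF β hβ
  classical
  by_cases hb : β.card + 1 < b
  swap
  · exact ⟨fun _ => 0, fun σ _ _ h => absurd h (by omega)⟩
  -- the blocks are indexed by their lower ends
  let low : Finset (Submodule K (Fin b → K)) := insert ⊥ β
  let Bl : low → Submodule K (Fin b → K) := fun A => A.1
  let Up : low → Submodule K (Fin b → K) := fun A => (β.filter fun W => A.1 < W).inf id
  let F : Fin (b + 1) → Submodule K (Fin b → K) := fun i => Fl i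
  have hTβ : ∀ W ∈ β, Opp.Trans F W := fun W hW => trans_of_opp hF (hβ.1 W hW).2.2
  have hUp : ∀ A : low, Up A = ⊤ ∨ (Up A ∈ β ∧ A.1 < Up A) := by
    intro A
    rcases (β.filter fun W => A.1 < W).eq_empty_or_nonempty with he | hne
    · exact Or.inl (by simp only [Up, he, Finset.inf_empty])
    · obtain ⟨M, hM, hmin⟩ := Finset.exists_min_image _ (fun W : Submodule K (Fin b → K) => finrank K W) hne
      obtain ⟨hMβ, hAM⟩ := Finset.mem_filter.1 hM
      refine Or.inr ?_
      have hinf : Up A = M := le_antisymm (Finset.inf_le (f := id) hM) (Finset.le_inf fun W hW => by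
        obtain ⟨hWβ, -⟩ := Finset.mem_filter.1 hW
        rcases hβ.2 M hMβ W hWβ with h | h
        · exact h
        · exact (Submodule.eq_of_le_of_finrank_le h (hmin W hW)).ge)
      rw [hinf]
      exact ⟨hMβ, hAM⟩
  have hBU : ∀ A : low, Bl A ≤ Up A ∧ Opp.Trans F (Bl A) ∧ Opp.Trans F (Up A) := by
    intro A
    refine ⟨Finset.le_inf fun W hW => (Finset.mem_filter.1 hW).2.le, ?_, ?_⟩
    · rcases Finset.mem_insert.1 A.2 with h | h
      · simp only [Bl, h]; exact trans_bot F
      · exact hTβ _ h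
    · rcases hUp A with h | ⟨h, -⟩
      · rw [h]; exact trans_top F
      · exact hTβ _ h
  set N := Opp.budget (S := low) Bl Up with hN
  have hlow : Fintype.card low ≤ b := by
    rw [Fintype.card_coe]
    exact (Finset.card_insert_le _ _).trans (by omega)
  have hNb : N ≤ b * b := by
    refine (Finset.sum_le_card_nsmul _ _ b fun A _ => ?_).trans ?_
    · have := (Submodule.finrank_le (Up A)).trans_eq finrank_amb
      omega
    · rw [smul_eq_mul, Finset.card_univ]
      exact Nat.mul_le_mul_right _ hlow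
  have hNlow : b ≤ N + β.card + 1 := by
    have hsub : Finset.Ioo 0 b \ β.image (fun W : Submodule K (Fin b → K) => finrank K W) ⊆
        (Finset.univ : Finset low).biUnion
          (fun A => Finset.Ioo (finrank K (Bl A)) (finrank K (Up A))) := by
      intro i hi
      obtain ⟨hi, hne⟩ := Finset.mem_sdiff.1 hi
      rw [Finset.mem_Ioo] at hi
      have hne' : (low.filter fun A : Submodule K (Fin b → K) => finrank K A < i).Nonempty :=
        ⟨⊥, Finset.mem_filter.2 ⟨Finset.mem_insert_self _ _, by rw [finrank_bot]; omega⟩⟩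
      obtain ⟨A, hA, hmax⟩ := Finset.exists_max_image _ (fun A : Submodule K (Fin b → K) => finrank K A) hne'
      obtain ⟨hAl, hAi⟩ := Finset.mem_filter.1 hA
      refine Finset.mem_biUnion.2 ⟨⟨A, hAl⟩, Finset.mem_univ _, Finset.mem_Ioo.2 ⟨hAi, ?_⟩⟩
      rcases hUp ⟨A, hAl⟩ with h | ⟨h, hlt⟩
      · rw [h, finrank_top, finrank_amb]; omega
      · rcases lt_trichotomy (finrank K (Up ⟨A, hAl⟩)) i with h' | h' | h'
        · have h1 := hmax _ (Finset.mem_filter.2 ⟨Finset.mem_insert_of_mem h, h'⟩)
          have h2 := Submodule.finrank_lt_finrank_of_lt hlt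
          simp only at h1 h2
          omega
        · exact absurd (Finset.mem_image.2 ⟨_, h, h'⟩) hne
        · exact h'
    have h1 := (Finset.card_le_card hsub).trans Finset.card_biUnion_le
    have h2 := Finset.le_card_sdiff (β.image fun W : Submodule K (Fin b → K) => finrank K W) (Finset.Ioo 0 b)
    have h3 : (β.image fun W : Submodule K (Fin b → K) => finrank K W).card ≤ β.card := Finset.card_image_le
    simp only [Nat.card_Ioo, tsub_zero] at h1 h2
    change b ≤ (∑ A : low, (finrank K (Up A) - finrank K (Bl A) - 1)) + β.card + 1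
    omega
  have hcF : Fintype.card (Fin (b + 1)) = b + 1 := Fintype.card_fin _
  obtain ⟨C, hC⟩ := Opp.exists_cones (F := F) Bl Up hBU (by
    rw [hcF]
    have : Opp.coneField (b + 1) N ≤ ∑ M ∈ Finset.range (b * b + 1), Opp.coneField (b + 1) M :=
      Finset.single_le_sum (fun M _ => Nat.zero_le (Opp.coneField (b + 1) M))
        (Finset.mem_range.2 (Nat.lt_succ_of_le hNb))
    exact lt_of_le_of_lt this (Nat.lt_of_succ_le hp))
  -- the block of a vertex
  have hblock : ∀ W : Submodule K (Fin b → K), ∃ A : low, W ≠ ⊥ → W ≠ ⊤ → W ∉ β →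
      (∀ W' ∈ β, W ≤ W' ∨ W' ≤ W) → Bl A < W ∧ W < Up A := by
    intro W
    have hbot : (low.filter fun A => A ≤ W).Nonempty :=
      ⟨⊥, Finset.mem_filter.2 ⟨Finset.mem_insert_self _ _, bot_le⟩⟩
    obtain ⟨A, hA, hmax⟩ := Finset.exists_max_image _ (fun A : Submodule K (Fin b → K) => finrank K A) hbot
    obtain ⟨hAl, hAW⟩ := Finset.mem_filter.1 hA
    refine ⟨⟨A, hAl⟩, fun h1 h2 h3 h4 => ⟨lt_of_le_of_ne hAW fun e => ?_, ?_⟩⟩
    · rcases Finset.mem_insert.1 hAl with h | h
      · exact h1 (e ▸ h)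
      · exact h3 (e ▸ h)
    · rcases hUp ⟨A, hAl⟩ with h | ⟨h, hlt⟩
      · rw [h]; exact lt_top_iff_ne_top.2 h2
      · rcases h4 _ h with h' | h'
        · exact lt_of_le_of_ne h' fun e => h3 (e ▸ h)
        · have h5 := hmax _ (Finset.mem_filter.2 ⟨Finset.mem_insert_of_mem h, h'⟩)
          have h6 := Submodule.finrank_lt_finrank_of_lt hlt
          simp only at h5 h6
          omega
  choose blk hblk using hblock
  let g : Submodule K (Fin b → K) → low × Submodule K (Fin b → K) := fun W => (blk W, W)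
  have g_inj : Function.Injective g := fun x y h => congrArg Prod.snd h
  -- a face and its projection
  have hback : ∀ k τ, Opp.Face F Bl Up k τ →
      Set.InjOn Prod.snd (τ : Set (low × Submodule K (Fin b → K))) ∧
      ((τ.image Prod.snd).card = k ∧ Disjoint (τ.image Prod.snd) β ∧
        IsOppChain Fl (β ∪ τ.image Prod.snd)) := by
    rintro k τ ⟨hc, hv, hch⟩
    have hin : ∀ v ∈ τ, ∀ W ∈ β, (W ≤ Bl v.1 ∨ Up v.1 ≤ W) := by
      intro v _ W hW
      by_cases hlt : Bl v.1 < W
      · exact Or.inr (Finset.inf_le (f := id) (Finset.mem_filter.2 ⟨hW, hlt⟩))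
      · refine Or.inl ?_
        rcases Finset.mem_insert.1 v.1.2 with h | h
        · by_cases hWb : W = ⊥
          · simp [hWb]
          · exact absurd (show Bl v.1 < W by simpa [Bl, h] using bot_lt_iff_ne_bot.2 hWb) hlt
        · rcases hβ.2 W hW v.1.1 h with h' | h'
          · exact h'
          · exact (eq_of_le_of_not_lt h' hlt).ge
    have horder : ∀ A A' : low, A.1 < A'.1 → Up A ≤ Bl A' := by
      intro A A' h
      refine Finset.inf_le (f := id) (Finset.mem_filter.2 ⟨?_, h⟩)
      rcases Finset.mem_insert.1 A'.2 with h' | h'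
      · exact absurd (h' ▸ h) not_lt_bot
      · exact h'
    have hcases : ∀ v ∈ τ, ∀ w ∈ τ,
        v.1 = w.1 ∨ Up v.1 ≤ Bl w.1 ∨ Up w.1 ≤ Bl v.1 := by
      intro v _ w _
      by_cases he : v.1 = w.1
      · exact Or.inl he
      · refine Or.inr ?_
        have hne : v.1.1 ≠ w.1.1 := fun e => he (Subtype.ext e)
        have hcmp : v.1.1 ≤ w.1.1 ∨ w.1.1 ≤ v.1.1 := by
          rcases Finset.mem_insert.1 v.1.2 with h | h
          · exact Or.inl (h ▸ bot_le)
          rcases Finset.mem_insert.1 w.1.2 with h' | h'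
          · exact Or.inr (h' ▸ bot_le)
          exact hβ.2 _ h _ h'
        rcases hcmp with h | h
        · exact Or.inl (horder _ _ (lt_of_le_of_ne h hne))
        · exact Or.inr (horder _ _ (lt_of_le_of_ne h hne.symm))
    have hinj : Set.InjOn Prod.snd (τ : Set (low × Submodule K (Fin b → K))) := by
      intro v hv' w hw' e
      refine Prod.ext ?_ e
      rcases hcases v hv' w hw' with h | h | h
      · exact h
      · exact absurd ((hv v hv').2.1.trans_le h) (by rw [e]; exact (hv w hw').1.asymm)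
      · exact absurd ((hv w hw').2.1.trans_le h) (by rw [← e]; exact (hv v hv').1.asymm)
    refine ⟨hinj, by rw [Finset.card_image_of_injOn hinj, hc], ?_, ?_, ?_⟩
    · refine Finset.disjoint_left.2 fun W hW hWβ => ?_
      obtain ⟨v, hv', rfl⟩ := Finset.mem_image.1 hW
      rcases hin v hv' _ hWβ with h | h
      · exact lt_irrefl _ ((hv v hv').1.trans_le h)
      · exact lt_irrefl _ ((hv v hv').2.1.trans_le h)
    · intro W hW
      rcases Finset.mem_union.1 hW with h | h
      · exact hβ.1 W h
      · obtain ⟨v, hv', rfl⟩ := Finset.mem_image.1 h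
        obtain ⟨h1, h2, h3⟩ := hv v hv'
        exact ⟨(lt_of_le_of_lt bot_le h1).ne', (h2.trans_le le_top).ne, opp_of_trans hF h3⟩
    · intro W hW W' hW'
      have hcmp : ∀ W ∈ β, ∀ v ∈ τ, W ≤ v.2 ∨ v.2 ≤ W := fun W hWβ v hv' =>
        (hin v hv' W hWβ).imp (fun h => h.trans (hv v hv').1.le)
          fun h => (hv v hv').2.1.le.trans h
      rcases Finset.mem_union.1 hW with h | h <;> rcases Finset.mem_union.1 hW' with h' | h'
      · exact hβ.2 W h W' h'
      · obtain ⟨v, hv', rfl⟩ := Finset.mem_image.1 h'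
        exact hcmp W h v hv'
      · obtain ⟨v, hv', rfl⟩ := Finset.mem_image.1 h
        exact (hcmp W' h' v hv').symm
      · obtain ⟨v, hv', rfl⟩ := Finset.mem_image.1 h
        obtain ⟨w, hw', rfl⟩ := Finset.mem_image.1 h'
        rcases hcases v hv' w hw' with e | e | e
        · exact hch v hv' w hw' e
        · exact Or.inl (((hv v hv').2.1.le.trans e).trans (hv w hw').1.le)
        · exact Or.inr (((hv w hw').2.1.le.trans e).trans (hv v hv').1.le)
  have hfwd : ∀ σ, IsOppChain Fl (β ∪ σ) → Disjoint σ β →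
      Opp.Face F Bl Up (σ.image g).card (σ.image g) := by
    intro σ hσ hdis
    refine ⟨rfl, fun v hv => ?_, fun v hv w hw _ => ?_⟩
    · obtain ⟨W, hW, rfl⟩ := Finset.mem_image.1 hv
      obtain ⟨h1, h2, h3⟩ := hσ.1 W (Finset.mem_union_right _ hW)
      obtain ⟨h4, h5⟩ := hblk W h1 h2 (Finset.disjoint_left.1 hdis hW) fun W' hW' =>
        hσ.2 W (Finset.mem_union_right _ hW) W' (Finset.mem_union_left _ hW')
      exact ⟨h4, h5, trans_of_opp hF h3⟩
    · obtain ⟨W, hW, rfl⟩ := Finset.mem_image.1 hv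
      obtain ⟨W', hW', rfl⟩ := Finset.mem_image.1 hw
      exact hσ.2 W (Finset.mem_union_right _ hW) W' (Finset.mem_union_right _ hW')
  refine ⟨fun σ => mapCh Prod.snd (C (σ.image g)), fun σ hσ hdis hcard => ?_⟩
  have hgc : (σ.image g).card = σ.card := Finset.card_image_of_injective σ g_inj
  obtain ⟨hs, hb', hsz⟩ := hC (σ.image g) (hfwd σ hσ hdis) (by rw [hgc, ← hN]; omega)
  rw [hgc] at hs
  refine ⟨Supp.linearCombination hs fun τ hτ => Supp.single ?_ 1, ?_, ?_⟩
  · obtain ⟨-, h⟩ := hback _ τ hτ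
    exact h
  · rw [bd_mapCh Prod.snd (fun τ hτ => (hback _ τ (hs τ hτ)).1), hb', map_add, mapCh_single,
      map_sum, Finset.sum_image (fun x _ y _ h => g_inj h), Finset.image_image,
      show (Prod.snd ∘ g) = id from rfl, Finset.image_id]
    congr 1
    refine Finset.sum_congr rfl fun x hx => ?_
    simp only [Finset.image_erase g_inj]
  · refine (card_mapCh Prod.snd (C (σ.image g))).trans (hsz.trans ?_)
    rw [hgc]
    have h1 : Opp.coneSize N σ.card ≤ ∑ i ∈ Finset.range (b + 1), Opp.coneSize N i :=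
      Finset.single_le_sum (fun i _ => Nat.zero_le (Opp.coneSize N i))
        (Finset.mem_range.2 (by omega : σ.card < b + 1))
    have h2 : ∑ i ∈ Finset.range (b + 1), Opp.coneSize N i ≤
        ∑ M ∈ Finset.range (b * b + 1), ∑ i ∈ Finset.range (b + 1), Opp.coneSize M i :=
      Finset.single_le_sum (fun M _ => Nat.zero_le (∑ i ∈ Finset.range (b + 1), Opp.coneSize M i))
        (Finset.mem_range.2 (Nat.lt_succ_of_le hNb))
    exact h1.trans h2

end Vale.Agent.P067.Full
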