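import Vale.Agent.P067.Full.Mix.Opposite
import Vale.Agent.P067.Full.Statements
import Vale.Agent.HDX.Q.Mixing

/-! Mixing between two dimensions in complexes of subspaces opposite to a flag. -/

set_option linter.unusedSectionVars false

namespace Vale.Agent.P067.Full.Mix

open Finset Module Vale.Agent.HDX.Q

variable {K : Type} [Field K] [Fintype K] {b : ℕ} {Fl : ℕ → Submodule K (Fin b → K)}
  {β : Finset (Submodule K (Fin b → K))}

open Classical in
/-- The subspaces of dimension `k` compatible with `β`. -/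
noncomputable def vset (Fl : ℕ → Submodule K (Fin b → K))
    (β : Finset (Submodule K (Fin b → K))) (k : ℕ) : Finset (Submodule K (Fin b → K)) :=
  Finset.univ.filter fun X => finrank K X = k ∧ IsOppChain Fl (insert X β)

lemma mem_vset {k : ℕ} {X : Submodule K (Fin b → K)} :
    X ∈ vset Fl β k ↔ finrank K X = k ∧ IsOppChain Fl (insert X β) := by
  simp [vset]

lemma member_mem_vset {τ : Finset (Submodule K (Fin b → K))} (hτ : τ ∈ full Fl β)
    {X : Submodule K (Fin b → K)} (hX : X ∈ τ) : X ∈ vset Fl β (finrank K X) :=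
  mem_vset.mpr ⟨rfl, chain_subset (mem_full.mp hτ).1
    (Finset.insert_subset hX (mem_full.mp hτ).2.2)⟩

lemma filter_rank_eq {τ : Finset (Submodule K (Fin b → K))} (hτ : τ ∈ full Fl β) (k : ℕ) :
    τ.filter (fun a : Submodule K (Fin b → K) => finrank K a = k) =
      (vset Fl β k).filter (fun X => X ∈ τ) := by
  ext X
  simp only [Finset.mem_filter]
  exact ⟨fun ⟨h1, h2⟩ => ⟨h2 ▸ member_mem_vset hτ h1, h1⟩,
    fun ⟨h1, h2⟩ => ⟨h2, (mem_vset.mp h1).1⟩⟩

lemma vset_filter_card {τ : Finset (Submodule K (Fin b → K))} (hτ : τ ∈ full Fl β) {k : ℕ}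
    (h0 : 0 < k) (hk : k < b) : ((vset Fl β k).filter (fun X => X ∈ τ)).card = 1 := by
  obtain ⟨t1, t2, -⟩ := mem_full.mp hτ
  obtain ⟨X, hX, hXk⟩ := exists_rank t1 t2 h0 hk
  refine Finset.card_eq_one.mpr ⟨X, Finset.eq_singleton_iff_unique_mem.mpr
    ⟨Finset.mem_filter.mpr ⟨hXk ▸ member_mem_vset hτ hX, hX⟩, fun Y hY => ?_⟩⟩
  obtain ⟨hY1, hY2⟩ := Finset.mem_filter.mp hY
  exact (chain_isFlag t1).injOn hY2 hX ((mem_vset.mp hY1).1.trans hXk.symm)

lemma sum_full_eq (k : ℕ) (f : Submodule K (Fin b → K) → ℝ) :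
    ∑ τ ∈ full Fl β, ∑ a ∈ τ.filter (fun a : Submodule K (Fin b → K) => finrank K a = k), f a =
      ∑ X ∈ vset Fl β k, (((full Fl β).filter fun τ => X ∈ τ).card : ℝ) * f X := by
  rw [Finset.sum_congr rfl fun τ hτ => by rw [filter_rank_eq hτ k, Finset.sum_filter],
    Finset.sum_comm]
  refine Finset.sum_congr rfl fun X _ => ?_
  rw [← Finset.sum_filter, Finset.sum_const, nsmul_eq_mul]

lemma prod_full_eq (i j : ℕ) (f g : Submodule K (Fin b → K) → ℝ) :
    ∑ τ ∈ full Fl β, (∑ a ∈ τ.filter (fun a : Submodule K (Fin b → K) => finrank K a = i), f a) *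
        (∑ a ∈ τ.filter (fun a : Submodule K (Fin b → K) => finrank K a = j), g a) =
      ∑ Y ∈ vset Fl β j, ∑ X ∈ vset Fl β i,
        (((full Fl β).filter fun τ => X ∈ τ ∧ Y ∈ τ).card : ℝ) * (f X * g Y) := by
  rw [Finset.sum_congr rfl fun τ hτ => by
    rw [filter_rank_eq hτ i, filter_rank_eq hτ j, Finset.sum_filter, Finset.sum_filter,
      Finset.sum_mul_sum, Finset.sum_comm]]
  rw [Finset.sum_comm]
  refine Finset.sum_congr rfl fun Y _ => ?_
  rw [Finset.sum_comm]
  refine Finset.sum_congr rfl fun X _ => ?_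
  rw [← nsmul_eq_mul, ← Finset.sum_const, Finset.sum_filter]
  refine Finset.sum_congr rfl fun τ _ => ?_
  by_cases h1 : X ∈ τ <;> by_cases h2 : Y ∈ τ <;> simp [h1, h2]

lemma filter_one (X : Submodule K (Fin b → K)) :
    (full Fl β).filter (fun τ => X ∈ τ) = full Fl (insert X β) := by
  ext τ
  simp only [Finset.mem_filter, mem_full, Finset.insert_subset_iff]
  tauto

lemma filter_two (X Y : Submodule K (Fin b → K)) :
    (full Fl β).filter (fun τ => X ∈ τ ∧ Y ∈ τ) = full Fl (insert X (insert Y β)) := by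
  ext τ
  simp only [Finset.mem_filter, mem_full, Finset.insert_subset_iff]
  tauto

lemma two_chain {i j : ℕ} {X Y : Submodule K (Fin b → K)} (hX : X ∈ vset Fl β i)
    (hY : Y ∈ vset Fl β j) (h : X ≤ Y) : IsOppChain Fl (insert X (insert Y β)) := by
  obtain ⟨-, hX'⟩ := mem_vset.mp hX
  obtain ⟨-, hY'⟩ := mem_vset.mp hY
  refine ⟨fun W hW => ?_, fun W hW W' hW' => ?_⟩
  · rcases Finset.mem_insert.mp hW with rfl | hW
    · exact hX'.1 _ (Finset.mem_insert_self _ _)
    · exact hY'.1 W hW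
  · rcases Finset.mem_insert.mp hW with rfl | hW1 <;>
      rcases Finset.mem_insert.mp hW' with rfl | hW'1
    · exact Or.inl le_rfl
    · rcases Finset.mem_insert.mp hW'1 with rfl | h2
      · exact Or.inl h
      · exact hX'.2 _ (Finset.mem_insert_self _ _) _ (Finset.mem_insert_of_mem h2)
    · rcases Finset.mem_insert.mp hW1 with rfl | h2
      · exact Or.inr h
      · exact hX'.2 _ (Finset.mem_insert_of_mem h2) _ (Finset.mem_insert_self _ _)
    · exact hY'.2 _ hW1 _ hW'1

/-- The opposite subspaces of an interval are many. -/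
lemma opp_many (hFl : IsCompleteFlag Fl) {x y : Submodule K (Fin b → K)} (hx : Opp Fl x)
    (hy : Opp Fl y) (hxy : x ≤ y) {k : ℕ} (h1 : finrank K x ≤ k) (h2 : k ≤ finrank K y)
    (S : Finset (Submodule K (Fin b → K)))
    (hS : ∀ Z, x ≤ Z → Z ≤ y → finrank K Z = k → Z ⊓ Fl k = ⊥ → Z ∈ S) :
    subCount K (finrank K y - finrank K x) (k - finrank K x) ≤ 2 ^ b * S.card := by
  classical
  have hle := subCount_le (K := K) (m := finrank K y - finrank K x)
    (s := k - finrank K x) (by omega)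
  have hc := oppCount hFl hx hy hxy h1 h2
  rw [show finrank K y - finrank K x - (k - finrank K x) = finrank K y - k by omega] at hle
  refine hle.trans (Nat.mul_le_mul (Nat.pow_le_pow_right (by omega) ?_) (hc.trans ?_))
  · have := Submodule.finrank_le y
    rw [finrank_fin_fun] at this
    omega
  · rw [Nat.card_eq_fintype_card, Fintype.card_subtype]
    refine Finset.card_le_card fun Z hZ => ?_
    obtain ⟨z1, z2, z3, z4⟩ := (Finset.mem_filter.mp hZ).2
    exact hS Z z1 z2 z3 z4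

theorem mix_lt {lam : ℝ} (hlam : 0 < lam)
    (hq : (4 : ℝ) ^ (b + 1) ≤ lam ^ 2 * Fintype.card K) (hFl : IsCompleteFlag Fl)
    (hβ : IsOppChain Fl β) {i j : ℕ} (hij : i < j) (hi0 : 0 < i) (hjb : j < b)
    (hβij : ∀ W ∈ β, finrank K W ≠ i ∧ finrank K W ≠ j)
    (f g : Submodule K (Fin b → K) → ℝ)
    (hf : ∑ τ ∈ full Fl β,
      ∑ a ∈ τ.filter (fun a : Submodule K (Fin b → K) => finrank K a = i), f a = 0) :
    ∑ τ ∈ full Fl β, (∑ a ∈ τ.filter (fun a : Submodule K (Fin b → K) => finrank K a = i), f a) *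
        (∑ a ∈ τ.filter (fun a : Submodule K (Fin b → K) => finrank K a = j), g a) ≤
      lam * (Real.sqrt (∑ τ ∈ full Fl β,
            ∑ a ∈ τ.filter (fun a : Submodule K (Fin b → K) => finrank K a = i), f a ^ 2) *
          Real.sqrt (∑ τ ∈ full Fl β,
            ∑ a ∈ τ.filter (fun a : Submodule K (Fin b → K) => finrank K a = j), g a ^ 2)) := by
  classical
  set Si := vset Fl β i with hSi
  set Sj := vset Fl β j with hSj
  obtain ⟨τ₀, hτ₀⟩ := full_nonempty hFl hβ
  obtain ⟨t1, t2, -⟩ := mem_full.mp hτ₀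
  obtain ⟨X₀, hX₀τ, hX₀r⟩ := exists_rank t1 t2 hi0 (hij.trans hjb)
  obtain ⟨Y₀, hY₀τ, hY₀r⟩ := exists_rank t1 t2 (hi0.trans hij) hjb
  have hX₀ : X₀ ∈ Si := by rw [hSi, ← hX₀r]; exact member_mem_vset hτ₀ hX₀τ
  have hY₀ : Y₀ ∈ Sj := by rw [hSj, ← hY₀r]; exact member_mem_vset hτ₀ hY₀τ
  have hXY₀ : X₀ ≤ Y₀ := (chain_isFlag t1).le_of_rk hX₀τ hY₀τ
    (show finrank K X₀ ≤ finrank K Y₀ by omega)
  have himg : ∀ (l : ℕ) (X : Submodule K (Fin b → K)), X ∈ vset Fl β l →
      ∀ σ : Finset (Submodule K (Fin b → K)),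
      (insert X σ).image (fun W : Submodule K (Fin b → K) => finrank K W) =
        insert l (σ.image (fun W : Submodule K (Fin b → K) => finrank K W)) := by
    intro l X hX σ
    rw [Finset.image_insert, (mem_vset.mp hX).1]
  set ci := ((full Fl β).filter fun τ => X₀ ∈ τ).card with hci
  set cj := ((full Fl β).filter fun τ => Y₀ ∈ τ).card with hcj
  set cij := ((full Fl β).filter fun τ => X₀ ∈ τ ∧ Y₀ ∈ τ).card with hcij
  have hcipos : 0 < ci := Finset.card_pos.mpr ⟨τ₀, Finset.mem_filter.mpr ⟨hτ₀, hX₀τ⟩⟩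
  have hcX : ∀ X ∈ Si, ((full Fl β).filter fun τ => X ∈ τ).card = ci := by
    intro X hX
    rw [hci, filter_one, filter_one]
    exact full_card hFl (mem_vset.mp hX).2 (mem_vset.mp hX₀).2
      (by rw [himg i X hX, himg i X₀ hX₀])
  have hcY : ∀ Y ∈ Sj, ((full Fl β).filter fun τ => Y ∈ τ).card = cj := by
    intro Y hY
    rw [hcj, filter_one, filter_one]
    exact full_card hFl (mem_vset.mp hY).2 (mem_vset.mp hY₀).2
      (by rw [himg j Y hY, himg j Y₀ hY₀])
  have hcXY : ∀ X ∈ Si, ∀ Y ∈ Sj,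
      ((full Fl β).filter fun τ => X ∈ τ ∧ Y ∈ τ).card = if X ≤ Y then cij else 0 := by
    intro X hX Y hY
    split_ifs with hle
    · rw [hcij, filter_two, filter_two]
      exact full_card hFl (two_chain hX hY hle) (two_chain hX₀ hY₀ hXY₀)
        (by rw [himg i X hX, himg j Y hY, himg i X₀ hX₀, himg j Y₀ hY₀])
    · refine Finset.card_eq_zero.mpr (Finset.filter_eq_empty_iff.mpr fun τ hτ h => hle ?_)
      refine (chain_isFlag (mem_full.mp hτ).1).le_of_rk h.1 h.2 ?_
      show finrank K X ≤ finrank K Y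
      rw [(mem_vset.mp hX).1, (mem_vset.mp hY).1]
      exact hij.le
  have hsum : ∀ f' : Submodule K (Fin b → K) → ℝ, ∑ τ ∈ full Fl β,
      ∑ a ∈ τ.filter (fun a : Submodule K (Fin b → K) => finrank K a = i), f' a =
        ci * ∑ X ∈ Si, f' X := by
    intro f'
    rw [sum_full_eq, Finset.mul_sum]
    exact Finset.sum_congr rfl fun X hX => by rw [hcX X hX]
  have hsumj : ∀ f' : Submodule K (Fin b → K) → ℝ, ∑ τ ∈ full Fl β,
      ∑ a ∈ τ.filter (fun a : Submodule K (Fin b → K) => finrank K a = j), f' a =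
        cj * ∑ Y ∈ Sj, f' Y := by
    intro f'
    rw [sum_full_eq, Finset.mul_sum]
    exact Finset.sum_congr rfl fun Y hY => by rw [hcY Y hY]
  have hf0 : ∑ X ∈ Si, f X = 0 := by
    rw [hsum f] at hf
    rcases mul_eq_zero.mp hf with h | h
    · exact absurd (Nat.cast_eq_zero.mp h) hcipos.ne'
    · exact h
  set U : Submodule K (Fin b → K) → ℝ := fun Y => ∑ X ∈ Si.filter (fun X => X ≤ Y), f X with hU
  have hprod : ∑ τ ∈ full Fl β,
      (∑ a ∈ τ.filter (fun a : Submodule K (Fin b → K) => finrank K a = i), f a) *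
        (∑ a ∈ τ.filter (fun a : Submodule K (Fin b → K) => finrank K a = j), g a) =
      cij * ∑ Y ∈ Sj, g Y * U Y := by
    rw [prod_full_eq, Finset.mul_sum]
    refine Finset.sum_congr rfl fun Y hY => ?_
    simp only [hU, Finset.sum_filter, Finset.mul_sum]
    refine Finset.sum_congr rfl fun X hX => ?_
    rw [hcXY X hX Y hY]
    by_cases hle : X ≤ Y
    · rw [if_pos hle, if_pos hle]; ring
    · rw [if_neg hle, if_neg hle, Nat.cast_zero]; ring
  rw [hprod, hsum, hsumj]
  by_cases hsep : ∃ W ∈ β, i < finrank K W ∧ finrank K W < j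
  · -- a member of `β` separates the two dimensions
    obtain ⟨W, hW, hW1, hW2⟩ := hsep
    have hz : ∀ Y ∈ Sj, U Y = 0 := by
      intro Y hY
      rw [hU]
      refine (Finset.sum_congr (Finset.filter_true_of_mem fun X hX => ?_) fun _ _ => rfl).trans hf0
      have hXW : X ≤ W := (chain_isFlag (mem_vset.mp hX).2).le_of_rk (Finset.mem_insert_self _ _)
        (Finset.mem_insert_of_mem hW) (show finrank K X ≤ finrank K W by
          rw [(mem_vset.mp hX).1]; exact hW1.le)
      have hWY : W ≤ Y := (chain_isFlag (mem_vset.mp hY).2).le_of_rk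
        (Finset.mem_insert_of_mem hW) (Finset.mem_insert_self _ _)
        (show finrank K W ≤ finrank K Y by rw [(mem_vset.mp hY).1]; exact hW2.le)
      exact hXW.trans hWY
    rw [Finset.sum_eq_zero fun Y hY => by rw [hz Y hY, mul_zero], mul_zero]
    exact mul_nonneg hlam.le (mul_nonneg (Real.sqrt_nonneg _) (Real.sqrt_nonneg _))
  -- one interval contains both dimensions
  have hnb : ∀ W ∈ β, finrank K W < i ∨ j < finrank K W := by
    intro W hW
    by_contra hcon
    exact hsep ⟨W, hW, by have := hβij W hW; omega, by have := hβij W hW; omega⟩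
  set x := (β.filter fun S => (geo K b).rk S < i).sup id with hx
  set y := (β.filter fun S => i < (geo K b).rk S).inf id with hy
  have hlo : (β.filter fun S => (geo K b).rk S < j).sup id = x := by
    rw [hx]
    congr 1
    refine Finset.filter_congr fun S hS => ?_
    simp only [geo_rk]
    have := hnb S hS
    omega
  have hhi : (β.filter fun S => j < (geo K b).rk S).inf id = y := by
    rw [hy]
    congr 1
    refine Finset.filter_congr fun S hS => ?_
    simp only [geo_rk]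
    have := hnb S hS
    omega
  have hxy : x ≤ y := lo_le_hi (chain_isFlag hβ) i
  have hxi : finrank K x ≤ i :=
    lo_rk_le (chain_isFlag hβ) (by rw [geo_bot]) (Nat.zero_le i)
  have hjy : j ≤ finrank K y := by
    rw [← hhi]
    exact hi_rk_ge (chain_isFlag hβ) (by rw [geo_top]) hjb.le
  have hnot : ∀ l, l = i ∨ l = j → l ∉ β.image (geo K b).rk := by
    intro l hl hm
    obtain ⟨W, hW, hWl⟩ := Finset.mem_image.mp hm
    have := hβij W hW
    simp only [geo_rk] at hWl
    omega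
  have hlev : ∀ l, l = i ∨ l = j → ∀ X, X ∈ vset Fl β l ↔
      X ∈ (geo K b).level x y l ∧ X ⊓ Fl l = ⊥ := by
    intro l hl X
    have e1 : (β.filter fun S => (geo K b).rk S < l).sup id = x := by
      rcases hl with rfl | rfl
      exacts [hx.symm, hlo]
    have e2 : (β.filter fun S => l < (geo K b).rk S).inf id = y := by
      rcases hl with rfl | rfl
      exacts [hy.symm, hhi]
    have hl0 : 0 < l ∧ l < b := by omega
    constructor
    · intro hX
      obtain ⟨hr, hc⟩ := mem_vset.mp hX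
      refine ⟨?_, hr ▸ (hc.1 X (Finset.mem_insert_self _ _)).2.2⟩
      rw [← e1, ← e2, ← fits_eq_level (chain_isFlag hβ) (hnot l hl) rfl rfl, mem_fits]
      exact ⟨hr, fun S hS => hc.2 S (Finset.mem_insert_of_mem hS) X (Finset.mem_insert_self _ _)⟩
    · rintro ⟨hX, hopp⟩
      refine mem_vset.mpr ⟨((geo K b).mem_level.mp hX).2.2, ?_⟩
      exact chain_insert hβ hl0.1 hl0.2 (hnot l hl) (by rwa [e1, e2]) hopp
  obtain ⟨s, hs⟩ : ∃ s, i = (geo K b).rk x + s := ⟨i - finrank K x, by rw [geo_rk]; omega⟩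
  obtain ⟨t, ht⟩ : ∃ t, j = (geo K b).rk x + t := ⟨j - finrank K x, by rw [geo_rk]; omega⟩
  set m := (geo K b).rk y - (geo K b).rk x with hm
  have hst : s + 1 ≤ t := by omega
  have htm : t ≤ m := by rw [hm, geo_rk]; omega
  set f' : Submodule K (Fin b → K) → ℝ := fun X => if X ∈ Si then f X else 0 with hf'
  have hsub : ∀ X ∈ Si, X ∈ (geo K b).level x y i := fun X hX =>
    ((hlev i (Or.inl rfl) X).mp hX).1
  have hf'0 : ∑ X ∈ (geo K b).level x y ((geo K b).rk x + s), f' X = 0 := by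
    rw [← hs, ← hf0, ← Finset.sum_subset hsub fun X _ hX => by rw [hf']; simp [hX]]
    exact Finset.sum_congr rfl fun X hX => by simp [hf', hX]
  have hf'2 : ∑ X ∈ (geo K b).level x y ((geo K b).rk x + s), f' X ^ 2 = ∑ X ∈ Si, f X ^ 2 := by
    rw [← hs, ← Finset.sum_subset hsub fun X _ hX => by rw [hf']; simp [hX]]
    exact Finset.sum_congr rfl fun X hX => by simp [hf', hX]
  have hw := (geo K b).walk_bound hxy f' hf'0 t hst htm
  rw [hf'2, (geo K b).card_level hxy (Nat.le_add_right _ _),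
    (geo K b).card_level hxy (Nat.le_add_right _ _), Nat.add_sub_cancel_left,
    Nat.add_sub_cancel_left, ← hm] at hw
  have hUsq : ∑ Y ∈ Sj, U Y ^ 2 ≤
      ∑ Z ∈ (geo K b).level x y ((geo K b).rk x + t), (geo K b).upSum x y s f' Z ^ 2 := by
    refine le_trans (le_of_eq (Finset.sum_congr rfl fun Y hY => ?_))
      (Finset.sum_le_sum_of_subset_of_nonneg (fun Y hY => ht ▸ ((hlev j (Or.inr rfl) Y).mp hY).1)
        fun _ _ _ => sq_nonneg _)
    congr 1
    simp only [hU, Geo.upSum, ← hs]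
    rw [Finset.sum_filter, ← Finset.sum_subset hsub fun X _ hX => by simp [hf', hX]]
    exact Finset.sum_congr rfl fun X hX => by simp [hf', hX]
  have hdc := (geo K b).double_count hxy (e := s) (s := t) (by omega)
  rw [← hm] at hdc
  -- degrees
  have hdeg1 : ci = cij * (Sj.filter fun Y => X₀ ≤ Y).card := by
    have h1 : ∑ τ ∈ (full Fl β).filter (fun τ => X₀ ∈ τ),
        (Sj.filter fun Y => Y ∈ τ).card = ci := by
      rw [Finset.sum_congr rfl fun τ hτ => vset_filter_card (Finset.mem_filter.mp hτ).1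
        (hi0.trans hij) hjb, Finset.sum_const, smul_eq_mul, mul_one]
    rw [← h1]
    simp only [Finset.card_filter _ Sj, Finset.mul_sum]
    rw [Finset.sum_comm]
    refine Finset.sum_congr rfl fun Y hY => ?_
    rw [← Finset.card_filter, Finset.filter_filter, hcXY X₀ hX₀ Y hY, mul_ite, mul_one, mul_zero]
  have hdeg2 : cj = cij * (Si.filter fun X => X ≤ Y₀).card := by
    have h1 : ∑ τ ∈ (full Fl β).filter (fun τ => Y₀ ∈ τ),
        (Si.filter fun X => X ∈ τ).card = cj := by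
      rw [Finset.sum_congr rfl fun τ hτ => vset_filter_card (Finset.mem_filter.mp hτ).1
        hi0 (hij.trans hjb), Finset.sum_const, smul_eq_mul, mul_one]
    rw [← h1]
    simp only [Finset.card_filter _ Si, Finset.mul_sum]
    rw [Finset.sum_comm]
    refine Finset.sum_congr rfl fun X hX => ?_
    rw [← Finset.card_filter, Finset.filter_filter, mul_ite, mul_one, mul_zero,
      ← hcXY X hX Y₀ hY₀]
    simp only [and_comm]
  obtain ⟨hx₀, hx₀o⟩ := (hlev i (Or.inl rfl) X₀).mp hX₀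
  obtain ⟨hy₀, hy₀o⟩ := (hlev j (Or.inr rfl) Y₀).mp hY₀
  obtain ⟨a1, a2, -⟩ := (geo K b).mem_level.mp hx₀
  obtain ⟨b1, b2, -⟩ := (geo K b).mem_level.mp hy₀
  have hxo : Opp Fl x := lo_opp hβ i
  have hyo : Opp Fl y := hi_opp hFl hβ i
  have hd1 : subCount K (m - s) (t - s) ≤ 2 ^ b * (Sj.filter fun Y => X₀ ≤ Y).card := by
    have h := opp_many hFl (x := X₀) (y := y) (by rw [Opp, hX₀r]; exact hx₀o) hyo a2 (k := j)
      (by omega) hjy (Sj.filter fun Y => X₀ ≤ Y) fun Z z1 z2 z3 z4 =>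
        Finset.mem_filter.mpr ⟨(hlev j (Or.inr rfl) Z).mpr
          ⟨(geo K b).mem_level.mpr ⟨a1.trans z1, z2, z3⟩, z4⟩, z1⟩
    rw [hX₀r] at h
    refine le_trans (le_of_eq ?_) h
    simp only [geo_rk] at hs ht hm
    congr 1 <;> omega
  have hd2 : subCount K t s ≤ 2 ^ b * (Si.filter fun X => X ≤ Y₀).card := by
    have h := opp_many hFl (x := x) (y := Y₀) hxo (by rw [Opp, hY₀r]; exact hy₀o) b1 (k := i)
      hxi (by omega) (Si.filter fun X => X ≤ Y₀) fun Z z1 z2 z3 z4 =>
        Finset.mem_filter.mpr ⟨(hlev i (Or.inl rfl) Z).mpr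
          ⟨(geo K b).mem_level.mpr ⟨z1, z2.trans b2, z3⟩, z4⟩, z2⟩
    rw [hY₀r] at h
    refine le_trans (le_of_eq ?_) h
    simp only [geo_rk] at hs ht
    congr 1 <;> omega
  -- the inequality
  set A := ∑ X ∈ Si, f X ^ 2 with hA
  set B := ∑ Y ∈ Sj, g Y ^ 2 with hB
  set SU := ∑ Y ∈ Sj, U Y ^ 2 with hSU
  have hA0 : 0 ≤ A := Finset.sum_nonneg fun _ _ => sq_nonneg _
  have hB0 : 0 ≤ B := Finset.sum_nonneg fun _ _ => sq_nonneg _
  have hqpos : (0 : ℝ) < Fintype.card K := by exact_mod_cast Fintype.card_pos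
  have hGms : (0 : ℝ) < subCount K m s := by exact_mod_cast subCount_pos (by omega)
  have hstep1 : (Fintype.card K : ℝ) * SU ≤
      4 * (subCount K t s : ℝ) * (subCount K (m - s) (t - s) : ℝ) * A := by
    refine le_of_mul_le_mul_left ?_ hGms
    calc (subCount K m s : ℝ) * ((Fintype.card K : ℝ) * SU)
        ≤ (Fintype.card K : ℝ) * (subCount K m s : ℝ) *
          ∑ Z ∈ (geo K b).level x y ((geo K b).rk x + t), (geo K b).upSum x y s f' Z ^ 2 := by
          rw [← mul_assoc, mul_comm (subCount K m s : ℝ)]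
          exact mul_le_mul_of_nonneg_left hUsq (by positivity)
      _ ≤ 4 * (subCount K t s : ℝ) ^ 2 * (subCount K m t : ℝ) * A := hw
      _ = _ := by
          have hdc' : (subCount K m s : ℝ) * (subCount K (m - s) (t - s) : ℝ) =
              (subCount K m t : ℝ) * (subCount K t s : ℝ) := by exact_mod_cast hdc
          linear_combination (-4 * (subCount K t s : ℝ) * A) * hdc'
  have hd1' : (subCount K (m - s) (t - s) : ℝ) ≤
      2 ^ b * ((Sj.filter fun Y => X₀ ≤ Y).card : ℝ) := by exact_mod_cast hd1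
  have hd2' : (subCount K t s : ℝ) ≤
      2 ^ b * ((Si.filter fun X => X ≤ Y₀).card : ℝ) := by exact_mod_cast hd2
  have hkey : (cij : ℝ) ^ 2 * SU ≤ lam ^ 2 * ((ci : ℝ) * cj) * A := by
    refine le_of_mul_le_mul_left ?_ hqpos
    calc (Fintype.card K : ℝ) * ((cij : ℝ) ^ 2 * SU)
        = (cij : ℝ) ^ 2 * ((Fintype.card K : ℝ) * SU) := by ring
      _ ≤ (cij : ℝ) ^ 2 *
          (4 * (subCount K t s : ℝ) * (subCount K (m - s) (t - s) : ℝ) * A) :=
          mul_le_mul_of_nonneg_left hstep1 (sq_nonneg _)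
      _ ≤ (cij : ℝ) ^ 2 * (4 * (2 ^ b * ((Si.filter fun X => X ≤ Y₀).card : ℝ)) *
          (2 ^ b * ((Sj.filter fun Y => X₀ ≤ Y).card : ℝ)) * A) :=
          mul_le_mul_of_nonneg_left (mul_le_mul_of_nonneg_right
            (mul_le_mul (mul_le_mul_of_nonneg_left hd2' (by norm_num)) hd1' (Nat.cast_nonneg _)
              (mul_nonneg (by norm_num) (mul_nonneg (pow_nonneg (by norm_num) _)
                (Nat.cast_nonneg _)))) hA0) (sq_nonneg _)
      _ = 4 ^ (b + 1) * ((ci : ℝ) * cj * A) := by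
          rw [hdeg1, hdeg2, show (4 : ℝ) = 2 * 2 by norm_num, mul_pow]
          push_cast
          ring
      _ ≤ lam ^ 2 * Fintype.card K * ((ci : ℝ) * cj * A) :=
          mul_le_mul_of_nonneg_right hq
            (mul_nonneg (mul_nonneg (Nat.cast_nonneg _) (Nat.cast_nonneg _)) hA0)
      _ = _ := by ring
  have hcs : (∑ Y ∈ Sj, g Y * U Y) ^ 2 ≤ B * SU := Finset.sum_mul_sq_le_sq_mul_sq _ _ _
  rw [← Real.sqrt_mul (mul_nonneg (Nat.cast_nonneg _) hA0), ← Real.sqrt_sq hlam.le,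
    ← Real.sqrt_mul (sq_nonneg _)]
  refine le_trans (le_abs_self _) (Real.abs_le_sqrt ?_)
  calc ((cij : ℝ) * ∑ Y ∈ Sj, g Y * U Y) ^ 2
      = (cij : ℝ) ^ 2 * (∑ Y ∈ Sj, g Y * U Y) ^ 2 := mul_pow _ _ _
    _ ≤ (cij : ℝ) ^ 2 * (B * SU) := mul_le_mul_of_nonneg_left hcs (sq_nonneg _)
    _ = B * ((cij : ℝ) ^ 2 * SU) := by ring
    _ ≤ B * (lam ^ 2 * ((ci : ℝ) * cj) * A) := mul_le_mul_of_nonneg_left hkey hB0
    _ = _ := by ring

end Vale.Agent.P067.Full.Mix

namespace Vale.Agent.P067.Full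

open Finset Module Vale.Agent.P067.Full.Mix

theorem oppMix : OppMix := by
  intro b lam hlam
  refine ⟨⌈(4 : ℝ) ^ (b + 1) / lam ^ 2⌉₊, fun K _ _ hp Fl hFl β hβ T hT i j hij hi hj hd f g hf hg => ?_⟩
  obtain rfl : T = full Fl β := Finset.ext fun τ => (hT τ).trans mem_full.symm
  have hq : (4 : ℝ) ^ (b + 1) ≤ lam ^ 2 * Fintype.card K := by
    have h := (Nat.le_ceil ((4 : ℝ) ^ (b + 1) / lam ^ 2)).trans (Nat.cast_le.mpr hp)
    rw [div_le_iff₀ (by positivity)] at h
    linarith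
  obtain ⟨hi0, hib⟩ := Finset.mem_Ioo.mp hi
  obtain ⟨hj0, hjb⟩ := Finset.mem_Ioo.mp hj
  rcases lt_or_gt_of_ne hij with h | h
  · exact mix_lt hlam hq hFl hβ h hi0 hjb hd f g hf
  · have := mix_lt hlam hq hFl hβ h hj0 hib (fun W hW => (hd W hW).symm) g f hg
    rw [mul_comm (Real.sqrt _)] at this
    exact le_trans (le_of_eq (Finset.sum_congr rfl fun τ _ => mul_comm _ _)) this

end Vale.Agent.P067.Full
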