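import Vale.Agent.P067.Full.Statements
import Vale.Agent.P067.Full.Lattice

/-!
The orbit complex of the opposite complex by a congruence subgroup as a coloured complex given by
vertex sets: separation of neighbours, top faces, symmetries, degree, number of vertices.
-/

namespace Vale.Agent.P067.Full

open Finset Polynomial Vale.Agent.HDX

variable {p r : ℕ}

/-- Restriction of an action along a homomorphism. -/
def SS.Act.along {G H : Type*} [Group G] [Group H] {S : SS} (A : SS.Act G S) (f : H →* G) :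
    SS.Act H S where
  act k := (A.act k).comp f
  face_act k g i s := A.face_act k (f g) i s

/-- A vertex of a cell of the opposite complex. -/
def vert {k : ℕ} (s : (opp p r).X k) (i : Fin k) : (opp p r).X 1 :=
  ⟨{ ty := fun _ => s.1.ty i
     lat := fun _ => s.1.lat i
     ty_mono := Subsingleton.strictMono _
     isLat := fun _ => s.1.isLat i
     mono := monotone_const
     wrap := fun _ _ => s.1.wrap i i }, fun _ => s.2 i⟩

/-- The cell on some of the vertices of a cell. -/
def sub {k n : ℕ} (s : (opp p r).X n) (f : Fin k → Fin n) (hf : StrictMono f) : (opp p r).X k :=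
  ⟨{ ty := s.1.ty ∘ f
     lat := s.1.lat ∘ f
     ty_mono := s.1.ty_mono.comp hf
     isLat := fun _ => s.1.isLat _
     mono := s.1.mono.comp hf.monotone
     wrap := fun _ _ => s.1.wrap _ _ }, fun _ => s.2 _⟩

theorem vert_sub {k n : ℕ} (s : (opp p r).X n) (f : Fin k → Fin n) (hf : StrictMono f) (i : Fin k) :
    vert (sub s f hf) i = vert s (f i) := rfl

theorem vert_face {k : ℕ} (s : (opp p r).X (k + 1)) (i : Fin (k + 1)) (l : Fin k) :
    vert ((opp p r).face k i s) l = vert s (i.succAbove l) := rfl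

theorem vert_self (x : (opp p r).X 1) : vert x 0 = x := by
  refine Subtype.ext (Simp.ext ?_ ?_) <;>
    (funext i; rw [Subsingleton.elim i 0]; rfl)

theorem cell_ext {k : ℕ} {s t : (opp p r).X k} (h : ∀ i, vert s i = vert t i) : s = t :=
  Subtype.ext (Simp.ext (funext fun i => congrArg (fun x : (opp p r).X 1 => x.1.ty 0) (h i))
    (funext fun i => congrArg (fun x : (opp p r).X 1 => x.1.lat 0) (h i)))

theorem ty_chamber (c : (opp p r).X r) (i : Fin r) : c.1.ty i = i :=
  congrFun ((c.1.ty_mono.range_inj strictMono_id).1 (by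
    rw [Set.range_id, (Finite.injective_iff_surjective.1 c.1.ty_mono.injective).range_eq])) i

/-- The standard chamber. -/
noncomputable def stdChamber [Fact p.Prime] : (opp p r).X r :=
  ⟨{ ty := id
     lat := fun i => lo p ((i : ℕ) : ℤ)
     ty_mono := strictMono_id
     isLat := fun i => (isOpp_lo _).1
     mono := fun i j h => Finsupp.supported_mono (Set.Iio_subset_Iio (by exact_mod_cast h))
     wrap := fun i j => by
       rw [shift, lo, lo, Finsupp.lmapDomain_supported]
       refine Finsupp.supported_mono fun k hk => ⟨k - r, ?_, by simp⟩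
       simp only [Set.mem_Iio] at hk ⊢
       have := i.2
       omega }, fun i => lo_inf_hi _⟩

/-- Two vertices of one chamber. -/
def Nbr (x y : (opp p r).X 1) : Prop := ∃ (c : (opp p r).X r) (i j : Fin r), vert c i = x ∧ vert c j = y

/-- Every cell is contained in a chamber. -/
def Extends (p r : ℕ) : Prop :=
  ∀ k (s : (opp p r).X k), ∃ c : (opp p r).X r, ∀ i, vert c (s.1.ty i) = vert s i

theorem Nbr.of_cell (hext : Extends p r) {k : ℕ} (s : (opp p r).X k) (i j : Fin k) :
    Nbr (vert s i) (vert s j) := by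
  obtain ⟨c, hc⟩ := hext k s
  exact ⟨c, _, _, hc i, hc j⟩

variable [NeZero r]

/-- The action given by matrices. -/
def IsMatAct [Fact p.Prime] (A : SS.Act (Gam0 p r) (opp p r)) : Prop :=
  A.OddStab ∧
    (∀ k (g : Gam0 p r) (s : (opp p r).X k), (A.act k g s).1.ty = s.1.ty ∧
      ∀ i, (A.act k g s).1.lat i =
        (s.1.lat i).map (matLin p r (g.1 : Matrix (Fin r) (Fin r) (Polynomial (ZMod p))))) ∧
    ∀ k (s t : (opp p r).X k), s.1.ty = t.1.ty → ∃ g, A.act k g s = t

/-- At level `m` two neighbours of one vertex in the same orbit are equal. -/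
def Sep [Fact p.Prime] (A : SS.Act (Gam0 p r) (opp p r)) (m : ℕ) : Prop :=
  ∀ (n : Gam0 p r), (n : SL p r) ∈ Nm p r m →
    ∀ x y : (opp p r).X 1, Nbr x y → Nbr x (A.act 1 n y) → A.act 1 n y = y

theorem extends_all [Fact p.Prime] : Extends p r := by
  intro k s
  obtain ⟨c, hc, hty, hlat⟩ := exists_chamber s.1 s.2
  refine ⟨⟨c, hc⟩, fun i => Subtype.ext (Simp.ext ?_ ?_)⟩
  · funext l
    exact congrFun hty (s.1.ty i)
  · funext l
    exact hlat i

variable [hp : Fact p.Prime] {A : SS.Act (Gam0 p r) (opp p r)} (hA : IsMatAct A)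
include hA

theorem vert_act {k : ℕ} (g : Gam0 p r) (s : (opp p r).X k) (i : Fin k) :
    vert (A.act k g s) i = A.act 1 g (vert s i) := by
  refine Subtype.ext (Simp.ext ?_ ?_)
  · funext l
    rw [(hA.2.1 1 g (vert s i)).1]
    exact congrFun (hA.2.1 k g s).1 i
  · funext l
    rw [(hA.2.1 1 g (vert s i)).2 l]
    exact (hA.2.1 k g s).2 i

theorem ty_act (g : Gam0 p r) (x : (opp p r).X 1) : (A.act 1 g x).1.ty 0 = x.1.ty 0 :=
  congrFun (hA.2.1 1 g x).1 0

theorem exists_chamber_act (c : (opp p r).X r) : ∃ g, A.act r g stdChamber = c :=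
  hA.2.2 r _ _ (funext fun i => by rw [ty_chamber, ty_chamber])

theorem exists_vertex_act (x : (opp p r).X 1) :
    ∃ g, A.act 1 g (vert stdChamber (x.1.ty 0)) = x :=
  hA.2.2 1 _ _ (funext fun l => by rw [Subsingleton.elim l 0]; rfl)

theorem exists_act_of_vert_eq {c : (opp p r).X r} {i : Fin r} {g : Gam0 p r}
    (h : A.act 1 g (vert stdChamber i) = vert c i) :
    ∃ q : Gam0 p r, A.act 1 q (vert stdChamber i) = vert stdChamber i ∧
      A.act r (g * q) stdChamber = c := by
  obtain ⟨a, ha⟩ := exists_chamber_act hA c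
  have h1 : A.act 1 a (vert stdChamber i) = vert c i := by rw [← vert_act hA, ha]
  refine ⟨g⁻¹ * a, ?_, by rw [mul_inv_cancel_left, ha]⟩
  rw [map_mul, Equiv.Perm.mul_apply, h1, ← h, map_inv, Equiv.Perm.inv_def, Equiv.symm_apply_apply]

theorem finite_stab (x : (opp p r).X 1) : {g : Gam0 p r | A.act 1 g x = x}.Finite :=
  (hA.1 1 le_rfl x).1

theorem finite_move (x y : (opp p r).X 1) : {g : Gam0 p r | A.act 1 g x = y}.Finite := by
  rcases Set.eq_empty_or_nonempty {g : Gam0 p r | A.act 1 g x = y} with h | ⟨a, ha⟩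
  · rw [h]; exact Set.finite_empty
  refine ((finite_stab hA x).image (a * ·)).subset fun g hg => ⟨a⁻¹ * g, ?_, mul_inv_cancel_left a g⟩
  show A.act 1 (a⁻¹ * g) x = x
  rw [map_mul, Equiv.Perm.mul_apply, show A.act 1 g x = y from hg, ← show A.act 1 a x = y from ha,
    map_inv, Equiv.Perm.inv_def, Equiv.symm_apply_apply]

theorem finite_nbr (i : Fin r) :
    {y | Nbr (vert (p := p) stdChamber i) y}.Finite := by
  refine (Set.finite_iUnion fun j : Fin r =>
    (finite_stab hA (vert stdChamber i)).image fun g => A.act 1 g (vert stdChamber j)).subset ?_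
  rintro y ⟨c, i', j, hi, rfl⟩
  obtain rfl : i' = i := by
    have := congrArg (fun x : (opp p r).X 1 => x.1.ty 0) hi
    exact (ty_chamber c i').symm.trans this
  obtain ⟨q, hq, hc⟩ := exists_act_of_vert_eq hA (c := c) (i := i') (g := 1) (by rw [map_one, hi]; rfl)
  refine Set.mem_iUnion.2 ⟨j, q, hq, ?_⟩
  show A.act 1 q (vert stdChamber j) = vert c j
  rw [← vert_act hA, ← one_mul q, hc]

omit hA

omit [NeZero r] in
theorem mem_Nm {m : ℕ} {g : SL p r} : g ∈ Nm p r m ↔
    ∀ a b, (X : (ZMod p)[X]) ^ m ∣ g.1 a b - (1 : Matrix (Fin r) (Fin r) (ZMod p)[X]) a b := by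
  simp only [← Ideal.mem_span_singleton, ← Ideal.Quotient.eq]
  rw [Nm, MonoidHom.mem_ker]
  constructor
  · intro h a b
    have h' := congrArg (fun u : Matrix.SpecialLinearGroup (Fin r) _ => u.1 a b) h
    refine h'.trans ?_
    rcases eq_or_ne a b with rfl | hab
    · simp
    · simp [Matrix.one_apply_ne hab]
  · intro h
    refine Matrix.SpecialLinearGroup.ext _ _ fun a b => (h a b).trans ?_
    rcases eq_or_ne a b with rfl | hab
    · simp
    · simp [Matrix.one_apply_ne hab]

omit [NeZero r] in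
theorem Nm_anti {m m' : ℕ} (h : m ≤ m') : Nm p r m' ≤ Nm p r m :=
  fun _ hg => mem_Nm.2 fun a b => (pow_dvd_pow _ h).trans (mem_Nm.1 hg a b)

omit [NeZero r] in
theorem Nm_le_Gam0 {m : ℕ} (hm : 1 ≤ m) : Nm p r m ≤ Gam0 p r := by
  intro g hg
  have h : Matrix.SpecialLinearGroup.map (n := Fin r) (Polynomial.evalRingHom (0 : ZMod p)) g = 1 := by
    refine Matrix.SpecialLinearGroup.ext _ _ fun a b => ?_
    have h0 := (dvd_pow_self X (by omega : m ≠ 0)).trans (mem_Nm.1 hg a b)
    rw [Polynomial.X_dvd_iff, Polynomial.coeff_zero_eq_eval_zero, Polynomial.eval_sub,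
      sub_eq_zero] at h0
    refine (show _ = Polynomial.eval 0 (g.1 a b) from rfl).trans (h0.trans ?_)
    rcases eq_or_ne a b with rfl | hab
    · simp
    · simp [Matrix.one_apply_ne hab]
  show Matrix.SpecialLinearGroup.map (n := Fin r) (Polynomial.evalRingHom 0) g ∈ lowerUni p r
  rw [h]
  exact one_mem _

omit [NeZero r] in
theorem exists_not_mem_Nm (g : Gam0 p r) :
    ∃ N : ℕ, ∀ m, N ≤ m → (g : SL p r) ∈ Nm p r m → g = 1 := by
  classical
  set f : Fin r × Fin r → ℕ := fun ab =>
    ((g : SL p r).1 ab.1 ab.2 - (1 : Matrix (Fin r) (Fin r) (ZMod p)[X]) ab.1 ab.2).natDegree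
    with hf
  refine ⟨Finset.univ.sup f + 1, fun m hm hg =>
    Subtype.ext (Matrix.SpecialLinearGroup.ext _ _ fun a b => ?_)⟩
  have hle : f (a, b) ≤ Finset.univ.sup f := Finset.le_sup (Finset.mem_univ _)
  have hlt : f (a, b) < ((X : (ZMod p)[X]) ^ m).natDegree := by
    rw [natDegree_X_pow]
    omega
  exact sub_eq_zero.1 (Polynomial.eq_zero_of_dvd_of_natDegree_lt (mem_Nm.1 hg a b) hlt)

instance (m : ℕ) : (Nm p r m).Normal := MonoidHom.normal_ker _

include hA

/-- From some level on, the congruence subgroup separates the neighbours of every vertex. -/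
theorem exists_separating : ∃ m₁ : ℕ, ∀ m, m₁ ≤ m → Sep A m := by
  classical
  have hfin : (⋃ i : Fin r, ⋃ y ∈ {y | Nbr (vert (p := p) stdChamber i) y},
      ⋃ y' ∈ {y | Nbr (vert (p := p) stdChamber i) y}, {g : Gam0 p r | A.act 1 g y = y'}).Finite :=
    Set.finite_iUnion fun i => (finite_nbr hA i).biUnion fun y _ =>
      (finite_nbr hA i).biUnion fun y' _ => finite_move hA y y'
  choose N hN using fun g : Gam0 p r => exists_not_mem_Nm g
  refine ⟨hfin.toFinset.sup N, fun m hm n hn x y h h' => ?_⟩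
  obtain ⟨a, ha⟩ := exists_vertex_act hA x
  have hact : ∀ z, Nbr x z → Nbr (vert (p := p) stdChamber (x.1.ty 0)) (A.act 1 a⁻¹ z) := by
    rintro z ⟨c, i, j, rfl, rfl⟩
    refine ⟨A.act r a⁻¹ c, i, j, ?_, vert_act hA _ _ _⟩
    rw [vert_act hA, map_inv, Equiv.Perm.inv_def, Equiv.symm_apply_eq]
    exact ha.symm
  have hmem : a⁻¹ * n * a ∈ hfin.toFinset := hfin.mem_toFinset.2 (Set.mem_iUnion.2 ⟨x.1.ty 0,
    Set.mem_biUnion (hact y h) (Set.mem_biUnion (hact _ h') (by
      show A.act 1 (a⁻¹ * n * a) (A.act 1 a⁻¹ y) = A.act 1 a⁻¹ (A.act 1 n y)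
      simp only [← Equiv.Perm.mul_apply, ← map_mul, mul_assoc, mul_inv_cancel, mul_one]))⟩)
  have hone := hN (a⁻¹ * n * a) m ((Finset.le_sup (f := N) hmem).trans hm) (by
    simpa using (inferInstance : (Nm p r m).Normal).conj_mem _ hn (a⁻¹ : Gam0 p r).1)
  have hn1 : n = 1 := by
    have := congrArg (fun z => a * z * a⁻¹) hone
    simpa [mul_assoc] using this
  rw [hn1, map_one]
  rfl

end Vale.Agent.P067.Full
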