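import Vale.Agent.P067.Full.QuotCells

/-!
The orbit complex of the opposite complex by a congruence subgroup, as a family of vertex sets:
rainbow, homogeneous, of bounded degree, with many vertices, exact.
-/

namespace Vale.Agent.P067.Full

open Finset Polynomial Vale.Agent.HDX

variable {p r m : ℕ} [NeZero r] [hp : Fact p.Prime]

/-- The action of the congruence subgroup. -/
noncomputable def nmAct (A : SS.Act (Gam0 p r) (opp p r)) (hm : 1 ≤ m) :
    SS.Act (Nm p r m) (opp p r) :=
  A.along (Subgroup.inclusion (Nm_le_Gam0 hm))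

/-- The orbits of vertices. -/
abbrev Vtx (A : SS.Act (Gam0 p r) (opp p r)) (hm : 1 ≤ m) : Type := (SS.quot (nmAct A hm)).X 1

/-- The class of a vertex. -/
noncomputable def cls (A : SS.Act (Gam0 p r) (opp p r)) (hm : 1 ≤ m) (x : (opp p r).X 1) :
    Vtx A hm :=
  Quotient.mk ((nmAct A hm).setoid 1) x

theorem cls_eq_iff (A : SS.Act (Gam0 p r) (opp p r)) (hm : 1 ≤ m) {x y : (opp p r).X 1} :
    cls A hm x = cls A hm y ↔ ∃ n : Gam0 p r, (n : SL p r) ∈ Nm p r m ∧ A.act 1 n x = y := by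
  refine Quotient.eq.trans ⟨?_, ?_⟩
  · rintro ⟨n, hn⟩
    exact ⟨Subgroup.inclusion (Nm_le_Gam0 hm) n, n.2, hn⟩
  · rintro ⟨n, hn, h⟩
    exact ⟨⟨n.1, hn⟩, h⟩

theorem cls_act_nm (A : SS.Act (Gam0 p r) (opp p r)) (hm : 1 ≤ m) {n : Gam0 p r}
    (hn : (n : SL p r) ∈ Nm p r m) (x : (opp p r).X 1) : cls A hm (A.act 1 n x) = cls A hm x :=
  ((cls_eq_iff A hm).2 ⟨n, hn, rfl⟩).symm

open Classical in
/-- The set of the classes of the vertices of a cell. -/
noncomputable def vset (A : SS.Act (Gam0 p r) (opp p r)) (hm : 1 ≤ m) {k : ℕ}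
    (s : (opp p r).X k) : Finset (Vtx A hm) :=
  Finset.univ.image fun i => cls A hm (vert s i)

theorem mem_vset {A : SS.Act (Gam0 p r) (opp p r)} {hm : 1 ≤ m} {k : ℕ} {s : (opp p r).X k}
    {v : Vtx A hm} : v ∈ vset A hm s ↔ ∃ i, cls A hm (vert s i) = v := by
  simp [vset]

variable {A : SS.Act (Gam0 p r) (opp p r)} (hA : IsMatAct A) (hm : 1 ≤ m)

/-- The colour of a class. -/
noncomputable def colV : Vtx A hm → Fin r :=
  Quotient.lift (fun x : (opp p r).X 1 => x.1.ty 0) (by
    rintro x y ⟨n, rfl⟩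
    exact (ty_act hA (Subgroup.inclusion (Nm_le_Gam0 hm) n) x).symm)

include hA

theorem colV_vert {k : ℕ} (s : (opp p r).X k) (i : Fin k) :
    colV hA hm (cls A hm (vert s i)) = s.1.ty i := rfl

theorem cls_vert_injective {k : ℕ} (s : (opp p r).X k) :
    Function.Injective fun i => cls A hm (vert s i) := fun _ _ h =>
  s.1.ty_mono.injective (congrArg (colV hA hm) h)

theorem card_vset {k : ℕ} (s : (opp p r).X k) : (vset A hm s).card = k := by
  classical
  rw [vset, Finset.card_image_of_injective _ (cls_vert_injective hA hm s), Finset.card_fin]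

theorem vset_act_nm {k : ℕ} {n : Gam0 p r} (hn : (n : SL p r) ∈ Nm p r m) (s : (opp p r).X k) :
    vset A hm (A.act k n s) = vset A hm s := by
  ext v
  simp only [mem_vset, vert_act hA, cls_act_nm A hm hn]

/-- The permutation of classes given by an element of the large group. -/
noncomputable def permV (A : SS.Act (Gam0 p r) (opp p r)) (hm : 1 ≤ m) (g : Gam0 p r) : Vtx A hm ≃ Vtx A hm :=
  Quotient.congr (A.act 1 g) (by
    intro x y
    constructor
    · rintro ⟨n, rfl⟩
      refine ⟨⟨_, (inferInstance : (Nm p r m).Normal).conj_mem _ n.2 g.1⟩, ?_⟩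
      show A.act 1 (g * Subgroup.inclusion (Nm_le_Gam0 hm) n * g⁻¹) (A.act 1 g x) = _
      rw [← Equiv.Perm.mul_apply, ← map_mul, inv_mul_cancel_right, map_mul]
      rfl
    · rintro ⟨n, hn⟩
      refine ⟨⟨_, (inferInstance : (Nm p r m).Normal).conj_mem _ n.2 (g⁻¹).1⟩, ?_⟩
      show A.act 1 (g⁻¹ * Subgroup.inclusion (Nm_le_Gam0 hm) n * g⁻¹⁻¹) x = y
      rw [inv_inv]
      apply (A.act 1 g).injective
      rw [← hn, ← Equiv.Perm.mul_apply, ← map_mul, ← mul_assoc, ← mul_assoc, mul_inv_cancel,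
        one_mul, map_mul]
      rfl)

omit hA in
theorem permV_cls (g : Gam0 p r) (x : (opp p r).X 1) :
    permV A hm g (cls A hm x) = cls A hm (A.act 1 g x) := rfl

theorem vset_act {k : ℕ} (g : Gam0 p r) (s : (opp p r).X k) [DecidableEq (Vtx A hm)] :
    vset A hm (A.act k g s) = (vset A hm s).image (permV A hm g) := by
  ext v
  simp only [mem_vset, Finset.mem_image, exists_exists_eq_and, vert_act hA]
  rfl

theorem colV_permV (g : Gam0 p r) (v : Vtx A hm) : colV hA hm (permV A hm g v) = colV hA hm v := by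
  induction v using Quotient.inductionOn with
  | h x => exact ty_act hA g x

omit hA hp in
theorem finite_quot_pow (p m : ℕ) [Fact p.Prime] :
    Finite ((ZMod p)[X] ⧸ Ideal.span {(X : (ZMod p)[X]) ^ m}) :=
  have := (monic_X_pow m : ((X : (ZMod p)[X]) ^ m).Monic).finite_quotient
  Module.finite_of_finite (ZMod p)

theorem finite_tops : (Set.range fun c : (opp p r).X r => vset A hm c).Finite := by
  classical
  have := finite_quot_pow p m
  set π := Matrix.SpecialLinearGroup.map (n := Fin r)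
    (Ideal.Quotient.mk (Ideal.span {(X : (ZMod p)[X]) ^ m})) with hπ
  set π' : Gam0 p r → Matrix.SpecialLinearGroup (Fin r) _ := fun g => π g.1 with hπ'
  refine (Set.finite_range ((fun g => vset A hm (A.act r g stdChamber)) ∘
    Function.invFun π')).subset ?_
  rintro _ ⟨c, rfl⟩
  obtain ⟨g, rfl⟩ := exists_chamber_act hA c
  refine ⟨π' g, ?_⟩
  set g' := Function.invFun π' (π' g) with hg'
  have hmem : ((g' * g⁻¹ : Gam0 p r) : SL p r) ∈ Nm p r m := by
    show π (g'.1 * g.1⁻¹) = 1
    rw [map_mul, map_inv, mul_inv_eq_one]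
    exact Function.invFun_eq (f := π') ⟨g, rfl⟩
  show vset A hm (A.act r g' stdChamber) = vset A hm (A.act r g stdChamber)
  rw [← vset_act_nm hA hm hmem (A.act r g stdChamber), ← Equiv.Perm.mul_apply, ← map_mul,
    inv_mul_cancel_right]

/-- The top faces. -/
noncomputable def tops : Finset (Finset (Vtx A hm)) := (finite_tops hA hm).toFinset

theorem mem_tops {τ : Finset (Vtx A hm)} :
    τ ∈ tops hA hm ↔ ∃ c : (opp p r).X r, vset A hm c = τ := by
  rw [tops, Set.Finite.mem_toFinset]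
  rfl

open Classical in
theorem rainbow_tops : Rainbow r (colV hA hm) (tops hA hm) := by
  refine ⟨⟨_, (mem_tops hA hm).2 ⟨stdChamber, rfl⟩⟩, fun τ hτ => ?_⟩
  obtain ⟨c, rfl⟩ := (mem_tops hA hm).1 hτ
  refine ⟨card_vset hA hm c, ?_⟩
  intro v hv w hw h
  obtain ⟨i, rfl⟩ := mem_vset.1 hv
  obtain ⟨j, rfl⟩ := mem_vset.1 hw
  rw [colV_vert, colV_vert] at h
  rw [c.1.ty_mono.injective h]

open Classical in
theorem homog_tops : Homog (colV hA hm) (tops hA hm) := by
  intro τ hτ τ' hτ'
  obtain ⟨c, rfl⟩ := (mem_tops hA hm).1 hτ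
  obtain ⟨c', rfl⟩ := (mem_tops hA hm).1 hτ'
  obtain ⟨g, rfl⟩ := hA.2.2 r c c' (funext fun i => by rw [ty_chamber, ty_chamber])
  refine ⟨permV A hm g, ?_, colV_permV hA hm g, (vset_act hA hm g c).symm⟩
  ext σ
  simp only [Finset.mem_image, mem_tops]
  constructor
  · rintro ⟨_, ⟨d, rfl⟩, rfl⟩
    exact ⟨A.act r g d, vset_act hA hm g d⟩
  · rintro ⟨d, rfl⟩
    refine ⟨_, ⟨A.act r g⁻¹ d, rfl⟩, ?_⟩
    rw [← vset_act hA hm g, ← Equiv.Perm.mul_apply, ← map_mul, mul_inv_cancel, map_one]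
    rfl

/-- The total number of elements fixing a vertex of the standard chamber. -/
noncomputable def stabSum (A : SS.Act (Gam0 p r) (opp p r)) : ℕ :=
  ∑ i : Fin r, {g : Gam0 p r | A.act 1 g (vert stdChamber i) = vert stdChamber i}.ncard

omit hA [NeZero r] in
theorem ncard_le_stabSum (i : Fin r) :
    {g : Gam0 p r | A.act 1 g (vert stdChamber i) = vert stdChamber i}.ncard ≤ stabSum A :=
  Finset.single_le_sum (f := fun i : Fin r =>
    {g : Gam0 p r | A.act 1 g (vert stdChamber i) = vert stdChamber i}.ncard)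
    (fun _ _ => Nat.zero_le _) (Finset.mem_univ i)

open Classical in
theorem degree_tops : DegreeLE (stabSum A) (tops hA hm) := by
  intro v
  obtain ⟨x, rfl⟩ : ∃ x, cls A hm x = v := Quotient.exists_rep v
  obtain ⟨a, ha⟩ := exists_vertex_act hA x
  set i := x.1.ty 0 with hi
  have hfin := finite_stab hA (vert stdChamber i)
  refine le_trans (le_trans (Finset.card_le_card (t := hfin.toFinset.image fun q =>
    vset A hm (A.act r (a * q) stdChamber)) ?_) Finset.card_image_le) ?_
  · intro τ hτ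
    obtain ⟨hτ, hv⟩ := Finset.mem_filter.1 hτ
    obtain ⟨c, rfl⟩ := (mem_tops hA hm).1 hτ
    obtain ⟨j, hj⟩ := mem_vset.1 hv
    obtain ⟨n, hn, hnx⟩ := (cls_eq_iff A hm).1 hj
    have hji : j = i := by
      have := congrArg (colV hA hm) hj
      rwa [colV_vert, ty_chamber] at this
    rw [hji] at hnx
    have hc : A.act 1 a (vert stdChamber i) = vert (A.act r n c) i := by
      rw [vert_act hA, hnx, ha]
    obtain ⟨q, hq, hqc⟩ := exists_act_of_vert_eq hA hc
    exact Finset.mem_image.2 ⟨q, hfin.mem_toFinset.2 hq, by rw [hqc, vset_act_nm hA hm hn]⟩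
  · rw [← Set.ncard_eq_toFinset_card _ hfin]
    exact ncard_le_stabSum i

end Vale.Agent.P067.Full
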