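import Vale.Agent.P067.Full.QuotExact
import Vale.Agent.P067.Full.AlgBasic

/-!
The orbit complex has many vertices, and it is acyclic when the congruence subgroup is.
-/

namespace Vale.Agent.P067.Full

open Finset Polynomial Vale.Agent.HDX

variable {p r m : ℕ} [NeZero r] [hp : Fact p.Prime]
variable {A : SS.Act (Gam0 p r) (opp p r)} (hA : IsMatAct A) (hm : 1 ≤ m)

omit hp in
theorem sq_le_two_pow (n : ℕ) (hn : 4 ≤ n) : n * n ≤ 2 ^ n := by
  induction n, hn using Nat.le_induction with
  | base => norm_num
  | succ k hk ih =>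
    rw [pow_succ]
    nlinarith

/-- A lower transvection with polynomial entry. -/
noncomputable def lowerT (h : 1 < r) (f : (ZMod p)[X]) : SL p r :=
  ⟨Matrix.transvection ⟨1, h⟩ (0 : Fin r) f,
    Matrix.det_transvection_of_ne _ _ (fun e => Nat.one_ne_zero (congrArg Fin.val e)) f⟩

theorem lowerT_mem (h : 1 < r) (f : (ZMod p)[X]) : lowerT h f ∈ Gam0 p r := by
  have hne : (⟨1, h⟩ : Fin r) ≠ 0 := fun e => Nat.one_ne_zero (congrArg Fin.val e)
  have hmap : ((Matrix.SpecialLinearGroup.map (n := Fin r) (Polynomial.evalRingHom (0 : ZMod p))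
      (lowerT h f)).1) = Matrix.transvection ⟨1, h⟩ (0 : Fin r) (f.eval 0) := by
    ext a b
    show Polynomial.eval 0 (Matrix.transvection ⟨1, h⟩ (0 : Fin r) f a b) = _
    simp only [Matrix.transvection, Matrix.add_apply, Matrix.single_apply, Matrix.one_apply]
    split_ifs <;> simp
  show IsLowerUni p r _
  rw [hmap]
  constructor
  · intro a b hab
    simp only [Matrix.transvection, Matrix.add_apply, Matrix.single_apply, Matrix.one_apply]
    rw [if_neg hab.ne, if_neg, add_zero]
    rintro ⟨rfl, rfl⟩
    exact absurd hab (not_lt.2 (Fin.zero_le _))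
  · intro a
    simp only [Matrix.transvection, Matrix.add_apply, Matrix.single_apply, Matrix.one_apply]
    rw [if_pos trivial, if_neg, add_zero]
    rintro ⟨rfl, h'⟩
    exact hne h'.symm

include hA

open Classical in
theorem le_card_vertices (hr : 1 < r) (hext : Extends p r) (hm' : stabSum A + 4 ≤ m) :
    m ≤ (vertices (tops hA hm)).card := by
  classical
  set o : Fin r := 0 with ho
  set T : (Fin m → ZMod p) → Gam0 p r := fun c =>
    ⟨lowerT hr (∑ l : Fin m, Polynomial.monomial (l : ℕ) (c l)), lowerT_mem hr _⟩ with hT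
  set ψ : (Fin m → ZMod p) → Vtx A hm := fun c => cls A hm (A.act 1 (T c) (vert stdChamber o))
  set π := Matrix.SpecialLinearGroup.map (n := Fin r)
    (Ideal.Quotient.mk (Ideal.span {(X : (ZMod p)[X]) ^ m})) with hπ
  have hinj : Function.Injective fun c => π (T c).1 := by
    intro c c' h
    have h' := congrArg (fun u : Matrix.SpecialLinearGroup (Fin r) _ => u.1 ⟨1, hr⟩ o) h
    have e : ∀ c'' : Fin m → ZMod p, (π (T c'').1).1 ⟨1, hr⟩ o =
        Ideal.Quotient.mk _ (∑ l : Fin m, Polynomial.monomial (l : ℕ) (c'' l)) := fun c'' => by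
      show Ideal.Quotient.mk _ (Matrix.transvection ⟨1, hr⟩ o _ ⟨1, hr⟩ o) = _
      simp [Matrix.transvection, o]
    rw [e, e, Ideal.Quotient.eq, Ideal.mem_span_singleton, Polynomial.X_pow_dvd_iff] at h'
    funext l
    have := h' l l.2
    simpa [Polynomial.finsetSum_coeff, Polynomial.coeff_monomial, Fin.val_inj, sub_eq_zero]
      using this
  have hfin := finite_stab hA (vert stdChamber o)
  have hfib : ∀ v ∈ Finset.univ.image ψ,
      (Finset.univ.filter fun c => ψ c = v).card ≤ stabSum A := by
    intro v hv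
    obtain ⟨c₀, -, rfl⟩ := Finset.mem_image.1 hv
    refine le_trans ?_ (le_trans (Finset.card_image_le (f := fun q : Gam0 p r => π q.1)
      (s := hfin.toFinset)) ?_)
    · refine Finset.card_le_card_of_injOn (fun c => (π (T c).1)⁻¹ * π (T c₀).1) ?_ ?_
      · intro c hc
        obtain ⟨n, hn, hnx⟩ := (cls_eq_iff A hm).1 (Finset.mem_filter.1 hc).2.symm
        refine Finset.mem_image.2 ⟨(T c)⁻¹ * n * T c₀, hfin.mem_toFinset.2 ?_, ?_⟩
        · show A.act 1 ((T c)⁻¹ * n * T c₀) (vert stdChamber o) = vert stdChamber o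
          rw [map_mul, map_mul, Equiv.Perm.mul_apply, Equiv.Perm.mul_apply, hnx, map_inv,
            Equiv.Perm.inv_def, Equiv.symm_apply_apply]
        · show π ((T c).1⁻¹ * n.1 * (T c₀).1) = _
          have hn1 : π n.1 = 1 := hn
          rw [map_mul, map_mul, hn1, map_inv, mul_one]
      · intro c _ c' _ h
        exact hinj (inv_injective (mul_right_cancel h))
    · rw [← Set.ncard_eq_toFinset_card _ hfin]
      exact ncard_le_stabSum o
  have hsub : Finset.univ.image ψ ⊆ vertices (tops hA hm) := by
    intro v hv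
    obtain ⟨c, -, rfl⟩ := Finset.mem_image.1 hv
    simp only [vertices, Finset.mem_biUnion, id, mem_tops]
    obtain ⟨ch, hch⟩ := vset_subset_top hm hext (A.act 1 (T c) (vert stdChamber o))
    exact ⟨_, ⟨ch, rfl⟩, hch (mem_vset.2 ⟨0, by rw [vert_self]⟩)⟩
  have h1 := Finset.card_le_mul_card_image (f := ψ) Finset.univ (stabSum A) hfib
  rw [Finset.card_univ, Fintype.card_fun, ZMod.card, Fintype.card_fin] at h1
  by_contra hlt
  have h2 : (Finset.univ.image ψ).card < m := lt_of_le_of_lt (Finset.card_le_card hsub) (by omega)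
  have h3 := (Nat.pow_le_pow_left hp.out.two_le m).trans h1
  have h4 := sq_le_two_pow m (by omega)
  nlinarith

/-- Acyclicity of the congruence subgroup passes to the orbit complex. -/
theorem acyclic_quot_opp (hT : AlgTransfer) {n : ℕ} (hg : SS.GroupAcyclic (Nm p r m) n)
    (hopp : (opp p r).Acyclic n) : (SS.quot (nmAct A hm)).Acyclic n := by
  refine hT (Nm p r m) (SS.tup (SL p r)) (opp p r) ((SS.tupAct (SL p r)).restrict (Nm p r m))
    (nmAct A hm) n (SS.tupAct_oddStab _) ?_ (SS.acyclic_tup _ n) hopp ?_ ?_ ?_ ?_ hg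
  · intro k hk s
    obtain ⟨hfin, hodd⟩ := hA.1 k hk s
    set f := Subgroup.inclusion (Nm_le_Gam0 hm : Nm p r m ≤ Gam0 p r)
    have hf : Function.Injective f := Subgroup.inclusion_injective _
    refine ⟨hfin.preimage hf.injOn, ?_⟩
    let K : Subgroup (Gam0 p r) :=
      { carrier := {g | A.act k g s = s}
        one_mem' := by show A.act k 1 s = s; rw [map_one]; rfl
        mul_mem' := fun {a b} ha hb => by
          show A.act k (a * b) s = s
          rw [map_mul, Equiv.Perm.mul_apply, show A.act k b s = s from hb]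
          exact ha
        inv_mem' := fun {a} ha => by
          show A.act k a⁻¹ s = s
          rw [map_inv, Equiv.Perm.inv_def, Equiv.symm_apply_eq]
          exact (show A.act k a s = s from ha).symm }
    have hdvd : Nat.card (K.comap f) ∣ Nat.card K :=
      Subgroup.card_dvd_of_injective ((f.comp (K.comap f).subtype).codRestrict K fun g => g.2)
        fun a b hab => Subtype.ext (hf (congrArg Subtype.val hab))
    rw [← Nat.card_coe_set_eq]
    rw [← Nat.card_coe_set_eq] at hodd
    exact Odd.of_dvd_nat hodd hdvd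
  · exact inferInstanceAs (Subsingleton (Fin 0 → SL p r))
  · exact ⟨fun s t => cell_ext fun i => i.elim0⟩
  · exact inferInstanceAs (Nonempty (Fin 0 → SL p r))
  · exact ⟨sub stdChamber Fin.elim0 fun i => i.elim0⟩

end Vale.Agent.P067.Full
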