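import Vale.Agent.P067.Full.QuotComplex

/-!
Faces of the orbit complex are orbits of cells; exactness by duality; the number of vertices.
-/

namespace Vale.Agent.P067.Full

open Finset Polynomial Vale.Agent.HDX

variable {p r m : ℕ} [NeZero r] [hp : Fact p.Prime]
variable {A : SS.Act (Gam0 p r) (opp p r)} (hA : IsMatAct A) (hm : 1 ≤ m)
include hA

theorem exists_cell_of_face {k : ℕ} {σ : Finset (Vtx A hm)} [DecidableEq (Vtx A hm)]
    (h : σ ∈ faces (tops hA hm) k) : ∃ s : (opp p r).X k, vset A hm s = σ := by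
  classical
  simp only [faces, Finset.mem_biUnion, mem_tops, Finset.mem_powersetCard] at h
  obtain ⟨_, ⟨c, rfl⟩, hsub, hcard⟩ := h
  set I : Finset (Fin r) := Finset.univ.filter fun i => cls A hm (vert c i) ∈ σ with hI
  have hσ : σ = I.image fun i => cls A hm (vert c i) := by
    ext v
    refine ⟨fun hv => ?_, fun hv => ?_⟩
    · obtain ⟨i, rfl⟩ := mem_vset.1 (hsub hv)
      exact Finset.mem_image.2 ⟨i, by simp [hI, hv], rfl⟩
    · obtain ⟨i, hi, rfl⟩ := Finset.mem_image.1 hv
      exact (Finset.mem_filter.1 hi).2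
  have hIc : I.card = k := by
    rw [← hcard, hσ, Finset.card_image_of_injective _ (cls_vert_injective hA hm c)]
  refine ⟨sub c (I.orderEmbOfFin hIc) (I.orderEmbOfFin hIc).strictMono, ?_⟩
  rw [hσ]
  conv_rhs => rw [← Finset.image_orderEmbOfFin_univ I hIc, Finset.image_image]
  ext v
  simp [mem_vset, vert_sub, Finset.mem_image]

omit hA in
theorem vset_subset_top (hext : Extends p r) {k : ℕ} (s : (opp p r).X k) :
    ∃ c : (opp p r).X r, vset A hm s ⊆ vset A hm c := by
  obtain ⟨c, hc⟩ := hext k s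
  refine ⟨c, fun v hv => ?_⟩
  obtain ⟨i, rfl⟩ := mem_vset.1 hv
  exact mem_vset.2 ⟨s.1.ty i, by rw [hc]⟩

theorem vset_mem_faces (hext : Extends p r) [DecidableEq (Vtx A hm)] {k : ℕ}
    (s : (opp p r).X k) : vset A hm s ∈ faces (tops hA hm) k := by
  obtain ⟨c, hc⟩ := vset_subset_top hm hext s
  simp only [faces, Finset.mem_biUnion, mem_tops, Finset.mem_powersetCard]
  exact ⟨_, ⟨c, rfl⟩, hc, card_vset hA hm s⟩

theorem ty_eq_of_vset_eq {k : ℕ} {s t : (opp p r).X k} (h : vset A hm s = vset A hm t) :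
    s.1.ty = t.1.ty := by
  classical
  have key : ∀ u : (opp p r).X k,
      Finset.univ.image u.1.ty = (vset A hm u).image (colV hA hm) := fun u => by
    ext i
    simp [mem_vset, Finset.mem_image, colV_vert]
  refine (s.1.ty_mono.range_inj t.1.ty_mono).1 ?_
  have := congrArg (fun S : Finset (Fin r) => (S : Set (Fin r)))
    ((key s).trans ((congrArg (fun u => u.image (colV hA hm)) h).trans (key t).symm))
  simpa using this

theorem vert_cls_eq {k : ℕ} {s t : (opp p r).X k} (h : vset A hm s = vset A hm t) (i : Fin k) :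
    cls A hm (vert s i) = cls A hm (vert t i) := by
  obtain ⟨j, hj⟩ := mem_vset.1 (show cls A hm (vert s i) ∈ vset A hm t from h ▸ mem_vset.2 ⟨i, rfl⟩)
  have := congrArg (colV hA hm) hj
  rw [colV_vert, colV_vert, ty_eq_of_vset_eq hA hm h] at this
  rw [← hj, t.1.ty_mono.injective this]

/-- Cells with the same classes of vertices lie in one orbit. -/
theorem exists_nm_of_vset_eq (hext : Extends p r) (hsep : Sep A m) {k : ℕ} {s t : (opp p r).X k}
    (h : vset A hm s = vset A hm t) :
    ∃ n : Gam0 p r, (n : SL p r) ∈ Nm p r m ∧ A.act k n s = t := by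
  rcases Nat.eq_zero_or_pos k with rfl | hk
  · exact ⟨1, one_mem _, cell_ext fun i => i.elim0⟩
  set i₀ : Fin k := ⟨0, hk⟩
  obtain ⟨n, hn, hn0⟩ := (cls_eq_iff A hm).1 (vert_cls_eq hA hm h i₀)
  refine ⟨n, hn, cell_ext fun i => ?_⟩
  have hi : cls A hm (vert (A.act k n s) i) = cls A hm (vert t i) := by
    rw [vert_act hA, cls_act_nm A hm hn, vert_cls_eq hA hm h i]
  obtain ⟨q, hq, hqi⟩ := (cls_eq_iff A hm).1 hi
  have h1 : Nbr (vert t i₀) (vert (A.act k n s) i) := by
    rw [show vert t i₀ = vert (A.act k n s) i₀ by rw [vert_act hA, hn0]]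
    exact Nbr.of_cell hext _ _ _
  have h2 : Nbr (vert t i₀) (A.act 1 q (vert (A.act k n s) i)) := by
    rw [hqi]
    exact Nbr.of_cell hext _ _ _
  rw [← hsep q hq _ _ h1 h2]
  exact hqi

/-- The classes of the vertices of an orbit of cells. -/
noncomputable def vsetQ (k : ℕ) : (SS.quot (nmAct A hm)).X k → Finset (Vtx A hm) :=
  Quotient.lift (fun s : (opp p r).X k => vset A hm s) (by
    rintro s t ⟨n, rfl⟩
    exact (vset_act_nm hA hm (n := Subgroup.inclusion (Nm_le_Gam0 hm) n) n.2 s).symm)

theorem vsetQ_injective (hext : Extends p r) (hsep : Sep A m) (k : ℕ) :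
    Function.Injective (vsetQ hA hm k) := by
  intro a b
  induction a using Quotient.inductionOn with
  | h s =>
    induction b using Quotient.inductionOn with
    | h t =>
      intro h
      obtain ⟨n, hn, hnt⟩ := exists_nm_of_vset_eq hA hm hext hsep h
      exact Quotient.sound ⟨⟨n.1, hn⟩, hnt⟩

theorem vset_face [DecidableEq (Vtx A hm)] {k : ℕ} (s : (opp p r).X (k + 1)) (i : Fin (k + 1)) :
    vset A hm ((opp p r).face k i s) = (vset A hm s).erase (cls A hm (vert s i)) := by
  ext v
  simp only [mem_vset, vert_face, Finset.mem_erase]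
  constructor
  · rintro ⟨l, rfl⟩
    exact ⟨fun h => Fin.succAbove_ne i l (cls_vert_injective hA hm s h), i.succAbove l, rfl⟩
  · rintro ⟨hne, j, rfl⟩
    obtain ⟨l, rfl⟩ := Fin.exists_succAbove_eq (x := j) (y := i) fun h => hne (by rw [h])
    exact ⟨l, rfl⟩

theorem cobd_vset [DecidableEq (Vtx A hm)] {k : ℕ} (g : Finset (Vtx A hm) → ZMod 2)
    (s : (opp p r).X (k + 1)) :
    cobd k g (vset A hm s) = ∑ i : Fin (k + 1), g (vset A hm ((opp p r).face k i s)) := by
  classical
  have h : (vset A hm s).powersetCard k =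
      Finset.univ.image fun i : Fin (k + 1) => vset A hm ((opp p r).face k i s) := by
    refine (Finset.eq_of_subset_of_card_le (fun σ hσ => ?_) ?_).symm
    · obtain ⟨i, -, rfl⟩ := Finset.mem_image.1 hσ
      rw [Finset.mem_powersetCard, vset_face hA hm]
      refine ⟨Finset.erase_subset _ _, ?_⟩
      rw [← vset_face hA hm, card_vset hA hm]
    · rw [Finset.card_powersetCard, card_vset hA hm, Finset.card_image_of_injective _ ?_,
        Finset.card_fin, Nat.choose_succ_self_right]
      intro i j hij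
      simp only [vset_face hA hm] at hij
      exact cls_vert_injective hA hm s ((Finset.erase_inj _ (mem_vset.2 ⟨i, rfl⟩)).1 hij)
  unfold cobd
  rw [h, Finset.sum_image]
  intro i _ j _ hij
  simp only [vset_face hA hm] at hij
  exact cls_vert_injective hA hm s ((Finset.erase_inj _ (mem_vset.2 ⟨i, rfl⟩)).1 hij)

open Classical in
/-- Vanishing homology of the orbit complex gives exactness of the vertex-set complex. -/
theorem exact_tops (hext : Extends p r) (hsep : Sep A m) {d : ℕ}
    (hacyc : (SS.quot (nmAct A hm)).Acyclic (d + 1)) : Exact d (tops hA hm) := by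
  intro j hj f hf
  rcases Nat.eq_zero_or_pos j with rfl | hj0
  · refine ⟨f, fun σ hσ => ?_⟩
    simp only [faces, Finset.mem_biUnion, Finset.mem_powersetCard] at hσ
    obtain ⟨_, -, -, hc⟩ := hσ
    simp [Finset.card_eq_zero.1 hc, cobd]
  obtain ⟨k, rfl⟩ : ∃ k, j = k + 1 := ⟨j - 1, by omega⟩
  set Q := SS.quot (nmAct A hm) with hQ
  set φ : Q.Ch (k + 1) →ₗ[ZMod 2] ZMod 2 :=
    Finsupp.linearCombination (ZMod 2) fun t => f (vsetQ hA hm (k + 1) t) with hφ
  have hφbd : φ.comp (Q.bd (k + 1)) = 0 := by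
    refine Finsupp.lhom_ext fun t c => ?_
    have hs : ∑ i : Fin (k + 2), f (vsetQ hA hm (k + 1) (Q.face (k + 1) i t)) = 0 := by
      induction t using Quotient.inductionOn with
      | h s =>
        have := cobd_vset hA hm (k := k + 1) f s
        rw [hf _ (vset_mem_faces hA hm hext s)] at this
        exact this.symm
    simp [SS.bd, hφ, Finsupp.linearCombination_single, map_sum, hs]
  have hker : LinearMap.ker (Q.bd k) ≤ LinearMap.ker φ := by
    intro z hz
    obtain ⟨w, rfl⟩ := hacyc (k + 1) (by omega) z hz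
    exact LinearMap.congr_fun hφbd w
  obtain ⟨g', hg'⟩ := LinearMap.exists_extend
    (((LinearMap.ker (Q.bd k)).liftQ φ hker).comp (Q.bd k).quotKerEquivRange.symm.toLinearMap)
  refine ⟨fun σ => if h : ∃ t, vsetQ hA hm k t = σ then g' (Finsupp.single h.choose 1) else 0,
    fun σ hσ => ?_⟩
  obtain ⟨s, rfl⟩ := exists_cell_of_face hA hm hσ
  set t : Q.X (k + 1) := Quotient.mk ((nmAct A hm).setoid (k + 1)) s with ht
  have h1 : g' (Q.bd k (Finsupp.single t 1)) = φ (Finsupp.single t 1) := by
    have := LinearMap.congr_fun hg' ⟨_, LinearMap.mem_range_self (Q.bd k) (Finsupp.single t 1)⟩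
    refine this.trans ?_
    rw [LinearMap.comp_apply, LinearEquiv.coe_toLinearMap,
      LinearMap.quotKerEquivRange_symm_apply_image (Q.bd k) (Finsupp.single t 1),
      Submodule.mkQ_apply, Submodule.liftQ_apply]
  have h2 : φ (Finsupp.single t 1) = f (vset A hm s) := by
    simp only [hφ, Finsupp.linearCombination_single, one_smul]
    rfl
  rw [Nat.add_sub_cancel, cobd_vset hA hm, ← h2, ← h1]
  simp only [SS.bd, Finsupp.linearCombination_single, one_smul, map_sum]
  refine Finset.sum_congr rfl fun i _ => ?_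
  have hex : ∃ t', vsetQ hA hm k t' = vset A hm ((opp p r).face k i s) :=
    ⟨Q.face k i t, rfl⟩
  rw [dif_pos hex, show hex.choose = Q.face k i t from
    vsetQ_injective hA hm hext hsep k (hex.choose_spec.trans rfl)]

end Vale.Agent.P067.Full
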