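import Vale.Agent.P067.Full.QuotCount
import Vale.Agent.P067.Full.QuotLink
import Vale.Agent.P067.Full.GammaAction
import Vale.Agent.P067.Full.AlgBasic

/-!
The finite quotients as coloured complexes.
-/

namespace Vale.Agent.P067.Full

open Finset Vale.Agent.HDX

/-- The orbit complexes are the finite coloured complexes of the construction. -/
theorem quotientComplex_of (hG : GammaAction) (hT : AlgTransfer) : QuotientComplex := by
  classical
  intro p r d _ _ hp2 hd hr
  obtain ⟨A, hA⟩ := hG p r hp2
  replace hA : IsMatAct A := hA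
  obtain ⟨m₁, hm₁⟩ := exists_separating hA
  refine ⟨stabSum A, max (max 1 m₁) (stabSum A + 4), fun m hm hga hopp => ?_⟩
  have hm1 : 1 ≤ m := le_trans (le_trans (le_max_left _ _) (le_max_left _ _)) hm
  have hsep : Sep A m := hm₁ m (le_trans (le_trans (le_max_right _ _) (le_max_left _ _)) hm)
  refine ⟨Vtx A hm1, Classical.decEq _, colV hA hm1, tops hA hm1, rainbow_tops hA hm1,
    homog_tops hA hm1, exact_tops hA hm1 extends_all hsep (acyclic_quot_opp hA hm1 hT hga hopp),
    degree_tops hA hm1,
    le_card_vertices hA hm1 (by omega) extends_all (le_trans (le_max_right _ _) hm),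
    fun ρ hρ hface => ?_⟩
  obtain ⟨a, ha⟩ := hρ
  obtain ⟨Fl, φ, h1, h2, h3, h4⟩ := exists_link hA hm1 hsep a
  exact ⟨Fl, φ, a, ρ.erase a, ha, rfl, h1, h2, h3, h4⟩

/-- Module Q. -/
theorem quotientComplex : QuotientComplex := quotientComplex_of gammaAction algTransfer

end Vale.Agent.P067.Full
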