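import Mathlib

/-!
Augmented semisimplicial sets with group actions, their chains over `ZMod 2` and orbit complexes.
Degree `k` means `k` vertices; `X 0` is the augmentation.
-/

namespace Vale.Agent.P067.Full

/-- An augmented semisimplicial set. -/
structure SS where
  /-- The cells with `k` vertices. -/
  X : ℕ → Type
  /-- Deleting the vertex in position `i`. -/
  face : ∀ k, Fin (k + 1) → X (k + 1) → X k
  comm : ∀ k (i j : Fin (k + 1)), i ≤ j → ∀ s : X (k + 2),
    face k i (face (k + 1) j.succ s) = face k j (face (k + 1) i.castSucc s)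

namespace SS

/-- Chains. -/
abbrev Ch (S : SS) (k : ℕ) : Type := S.X k →₀ ZMod 2

/-- The boundary. -/
noncomputable def bd (S : SS) (k : ℕ) : S.Ch (k + 1) →ₗ[ZMod 2] S.Ch k :=
  Finsupp.linearCombination (ZMod 2) fun s => ∑ i, Finsupp.single (S.face k i s) 1

/-- Cycles. -/
def IsCycle (S : SS) : ∀ k, S.Ch k → Prop
  | 0, _ => True
  | k + 1, z => S.bd k z = 0

/-- No homology with at most `n` vertices. -/
def Acyclic (S : SS) (n : ℕ) : Prop :=
  ∀ k ≤ n, ∀ z : S.Ch k, S.IsCycle k z → ∃ w, S.bd k w = z

/-- An action of a group. -/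
structure Act (G : Type*) [Group G] (S : SS) where
  /-- The action on cells. -/
  act : ∀ k, G →* Equiv.Perm (S.X k)
  face_act : ∀ k (g : G) i s, S.face k i (act (k + 1) g s) = act k g (S.face k i s)

variable {G : Type*} [Group G]

/-- Restriction to a subgroup. -/
def Act.restrict {S : SS} (A : Act G S) (H : Subgroup G) : Act H S where
  act k := (A.act k).comp H.subtype
  face_act k g i s := A.face_act k g i s

/-- The orbit relation. -/
def Act.setoid {S : SS} (A : Act G S) (k : ℕ) : Setoid (S.X k) where
  r s t := ∃ g : G, A.act k g s = t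
  iseqv :=
    ⟨fun s => ⟨1, by simp⟩,
      fun {s t} ⟨g, h⟩ => ⟨g⁻¹, by rw [← h, map_inv, Equiv.Perm.inv_def, Equiv.symm_apply_apply]⟩,
      fun {s t u} ⟨g, h⟩ ⟨g', h'⟩ => ⟨g' * g, by rw [map_mul, Equiv.Perm.mul_apply, h, h']⟩⟩

/-- The orbit complex. -/
def quot {S : SS} (A : Act G S) : SS where
  X k := Quotient (A.setoid k)
  face k i := Quotient.map' (S.face k i) fun s t ⟨g, h⟩ => ⟨g, by rw [← A.face_act, h]⟩
  comm k i j hij s := by
    induction s using Quotient.inductionOn with
    | h s => exact congrArg (Quotient.mk (A.setoid k)) (S.comm k i j hij s)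

/-- The stabiliser of a cell is a finite group of odd order. -/
def Act.OddStab {S : SS} (A : Act G S) : Prop :=
  ∀ k, 1 ≤ k → ∀ s : S.X k, {g : G | A.act k g s = s}.Finite ∧
    Odd {g : G | A.act k g s = s}.ncard

/-- All tuples of a type. -/
def tup (Ω : Type) : SS where
  X k := Fin k → Ω
  face _ i s := s ∘ i.succAbove
  comm k i j hij s := by
    funext l
    simp only [Function.comp_apply]
    refine congrArg s (Fin.ext ?_)
    rw [Fin.le_def] at hij
    have hv : ∀ {n : ℕ} (p : Fin (n + 1)) (x : Fin n),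
        (p.succAbove x : ℕ) = if (x : ℕ) < (p : ℕ) then (x : ℕ) else (x : ℕ) + 1 := by
      intro n p x
      unfold Fin.succAbove
      split_ifs <;> simp_all [Fin.lt_def]
    simp only [hv, Fin.val_succ, Fin.val_castSucc]
    split_ifs <;> omega

/-- Left translation on tuples. -/
def tupAct (G : Type) [Group G] : Act G (tup G) where
  act _ :=
    { toFun := fun g => Equiv.arrowCongr (Equiv.refl _) (Equiv.mulLeft g)
      map_one' := by ext s l; exact one_mul _
      map_mul' := fun g h => by ext s l; exact mul_assoc _ _ _ }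
  face_act _ _ _ _ := rfl

/-- The mod 2 homology of the subgroup `H` vanishes with at most `n` vertices. -/
def GroupAcyclic {G : Type} [Group G] (H : Subgroup G) (n : ℕ) : Prop :=
  (quot ((tupAct G).restrict H)).Acyclic n

end SS

/-- Every finite subset lies in a finite subgroup of odd order inside `H`. -/
def LocOdd {G : Type*} [Group G] (H : Subgroup G) : Prop :=
  ∀ s : Finset G, (∀ g ∈ s, g ∈ H) →
    ∃ K : Subgroup G, K ≤ H ∧ (∀ g ∈ s, g ∈ K) ∧ (K : Set G).Finite ∧ Odd (Nat.card K)

end Vale.Agent.P067.Full
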