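import Vale.Agent.P067.Full.Building

/-!
Row reduction in `SL_r (F_p[t])`: transvections generate, the fixer of finitely many vectors is
conjugate to the fixer of standard basis vectors, and the congruence subgroup acts transitively
on the generic completions of a tuple of vectors.
-/

namespace Vale.Agent.P067.Full.Stab

open Matrix Polynomial

variable {p r : ℕ}

/-- Column vectors. -/
abbrev Vec (p r : ℕ) : Type := Fin r → (ZMod p)[X]

/-- The standard basis vectors. -/
noncomputable def bv (i : Fin r) : Vec p r := Pi.single i 1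

lemma smulV (g : SL p r) (v : Vec p r) : g • v = g.1 *ᵥ v := rfl

lemma smulV_zero (g : SL p r) : g • (0 : Vec p r) = 0 := by rw [smulV, mulVec_zero]

lemma smulV_add (g : SL p r) (v w : Vec p r) : g • (v + w) = g • v + g • w := by
  simp only [smulV, mulVec_add]

lemma smulV_smul (g : SL p r) (c : (ZMod p)[X]) (v : Vec p r) : g • (c • v) = c • g • v := by
  simp only [smulV, mulVec_smul]

lemma smul_bv (g : SL p r) (l i : Fin r) : (g • bv l) i = g.1 i l := by
  simp [smulV, bv]

lemma mem_Nm {m : ℕ} {g : SL p r} :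
    g ∈ Nm p r m ↔ ∀ i j, X ^ m ∣ g.1 i j - (1 : Matrix (Fin r) (Fin r) (ZMod p)[X]) i j := by
  simp only [Nm, MonoidHom.mem_ker, ← Ideal.mem_span_singleton, ← Ideal.Quotient.mk_eq_mk_iff_sub_mem]
  constructor
  · intro h i j
    have := congrArg (fun A => A.1 i j) h
    by_cases hij : i = j
    · subst hij
      simpa using this
    · simpa [Matrix.one_apply, hij] using this
  · intro h
    refine Subtype.ext (Matrix.ext fun i j => ?_)
    have := h i j
    by_cases hij : i = j
    · subst hij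
      simpa using this
    · simpa [Matrix.one_apply, hij] using this

lemma Nm_dvd {m : ℕ} {g : SL p r} (hg : g ∈ Nm p r m) (v : Vec p r) (i : Fin r) :
    X ^ m ∣ (g • v) i - v i := by
  have h : (g • v) i - v i
      = ∑ j, (g.1 i j - (1 : Matrix (Fin r) (Fin r) (ZMod p)[X]) i j) * v j := by
    simp [smulV, mulVec, dotProduct, sub_mul, Finset.sum_sub_distrib, Matrix.one_apply]
  rw [h]
  exact Finset.dvd_sum fun j _ => (mem_Nm.1 hg i j).mul_right _

/-- A transvection `1 + w φ` with `φ w = 0`. -/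
noncomputable def tv (w φ : Vec p r) (h : φ ⬝ᵥ w = 0) : SL p r :=
  ⟨1 + replicateCol Unit w * replicateRow Unit φ, by
    rw [det_one_add_replicateCol_mul_replicateRow, h, add_zero]⟩

lemma tv_smul {w φ : Vec p r} (h : φ ⬝ᵥ w = 0) (v : Vec p r) :
    tv w φ h • v = v + (φ ⬝ᵥ v) • w := by
  rw [smulV]
  change (1 + replicateCol Unit w * replicateRow Unit φ) *ᵥ v = _
  rw [add_mulVec, one_mulVec]
  congr 1
  funext i
  simp [mulVec, dotProduct, Matrix.mul_apply, Finset.mul_sum, mul_comm, mul_left_comm]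

lemma tv_mem {m : ℕ} {w φ : Vec p r} (h : φ ⬝ᵥ w = 0) (hw : ∀ i, X ^ m ∣ w i) :
    tv w φ h ∈ Nm p r m := by
  refine mem_Nm.2 fun i j => ?_
  simp [tv, Matrix.mul_apply]
  exact (hw i).mul_right _

/-- The elementary transvection. -/
noncomputable def T {i j : Fin r} (h : i ≠ j) (c : (ZMod p)[X]) : SL p r :=
  tv (Pi.single i c) (Pi.single j 1) (by simp [h.symm])

lemma T_smul {i j : Fin r} (h : i ≠ j) (c : (ZMod p)[X]) (v : Vec p r) (l : Fin r) :
    (T h c • v) l = if l = i then v l + c * v j else v l := by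
  simp only [T, tv_smul, Pi.add_apply, Pi.smul_apply, single_dotProduct, one_mul, smul_eq_mul]
  by_cases hl : l = i
  · subst hl
    simp [mul_comm]
  · simp [hl]

lemma T_apply {i j : Fin r} (h : i ≠ j) (c : (ZMod p)[X]) (a b : Fin r) :
    (T h c).1 a b = (1 : Matrix (Fin r) (Fin r) (ZMod p)[X]) a b
      + if a = i ∧ b = j then c else 0 := by
  rw [← smul_bv, T_smul]
  by_cases ha : a = i
  · by_cases hb : b = j
    · simp [ha, hb, bv, Matrix.one_apply, h]
    · simp [ha, hb, bv, Matrix.one_apply, Ne.symm hb, Pi.single_apply, eq_comm]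
  · simp [ha, bv, Matrix.one_apply, Pi.single_apply]

/-- The group generated by the transvections with both indices at least `k`. -/
noncomputable def Ek (p r k : ℕ) : Subgroup (SL p r) :=
  Subgroup.closure {g | ∃ (i j : Fin r) (h : i ≠ j) (c : (ZMod p)[X]),
    k ≤ (i : ℕ) ∧ k ≤ (j : ℕ) ∧ g = T h c}

lemma T_mem {k : ℕ} {i j : Fin r} (h : i ≠ j) (c : (ZMod p)[X]) (hi : k ≤ (i : ℕ))
    (hj : k ≤ (j : ℕ)) : T h c ∈ Ek p r k :=
  Subgroup.subset_closure ⟨i, j, h, c, hi, hj, rfl⟩

lemma Ek_le {k k' : ℕ} (h : k ≤ k') : Ek p r k' ≤ Ek p r k :=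
  (Subgroup.closure_le _).2 fun _ ⟨_, _, hij, c, hi, hj, hg⟩ =>
    hg ▸ T_mem hij c (h.trans hi) (h.trans hj)

lemma Ek_low {k : ℕ} {g : SL p r} (hg : g ∈ Ek p r k) :
    ∀ (v : Vec p r) (l : Fin r), (l : ℕ) < k → (g • v) l = v l := by
  induction hg using Subgroup.closure_induction with
  | mem g hg =>
    obtain ⟨i, j, h, c, hi, hj, rfl⟩ := hg
    intro v l hl
    rw [T_smul, if_neg (fun h' : l = i => absurd (h' ▸ hl) (not_lt.2 hi))]
  | one => intro v l _; rw [one_smul]
  | mul a b _ _ ha hb => intro v l hl; rw [mul_smul, ha _ l hl, hb v l hl]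
  | inv a _ ha =>
    intro v l hl
    conv_rhs => rw [← smul_inv_smul a v]
    rw [ha _ l hl]

lemma Ek_fix {k : ℕ} {g : SL p r} (hg : g ∈ Ek p r k) :
    ∀ v : Vec p r, (∀ l : Fin r, k ≤ (l : ℕ) → v l = 0) → g • v = v := by
  induction hg using Subgroup.closure_induction with
  | mem g hg =>
    obtain ⟨i, j, h, c, hi, hj, rfl⟩ := hg
    intro v hv
    funext l
    rw [T_smul, hv j hj, mul_zero, add_zero, ite_self]
  | one => intro v _; rw [one_smul]
  | mul a b _ _ ha hb => intro v hv; rw [mul_smul, hb v hv, ha v hv]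
  | inv a _ ha => intro v hv; rw [inv_smul_eq_iff]; exact (ha v hv).symm

lemma addcol {k : ℕ} {i : Fin r} (hi : k ≤ (i : ℕ)) (q : Vec p r) (s : Finset (Fin r))
    (hs : ∀ l ∈ s, k ≤ (l : ℕ) ∧ l ≠ i) :
    ∃ e ∈ Ek p r k, ∀ (w : Vec p r) (l : Fin r),
      (e • w) l = if l ∈ s then w l + q l * w i else w l := by
  induction s using Finset.induction with
  | empty => exact ⟨1, one_mem _, fun w l => by simp⟩
  | @insert a s ha ih =>
    obtain ⟨e, he, hew⟩ := ih fun l hl => hs l (Finset.mem_insert_of_mem hl)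
    obtain ⟨hak, hai⟩ := hs a (Finset.mem_insert_self a s)
    refine ⟨T hai (q a) * e, mul_mem (T_mem hai _ hak hi) he, fun w l => ?_⟩
    have hi' : i ∉ s := fun h => (hs i (Finset.mem_insert_of_mem h)).2 rfl
    rw [mul_smul, T_smul, hew, hew, if_neg hi']
    by_cases hl : l = a
    · subst hl
      simp [ha]
    · simp [hl]

variable [Fact p.Prime]

lemma euclid (k : Fin r) : ∀ (n : ℕ) (v : Vec p r) (i : Fin r), k ≤ i → v i ≠ 0 →
    (v i).natDegree ≤ n → ∃ e ∈ Ek p r k, ∀ l : Fin r, k < l → (e • v) l = 0 := by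
  intro n
  induction n using Nat.strong_induction_on with
  | _ n ih =>
    intro v i hki hvi hn
    classical
    obtain ⟨e, he, hev⟩ := addcol (k := (k : ℕ)) (i := i) hki (fun l => -(v l / v i))
      ((Finset.univ.filter fun l => k ≤ l).erase i) (fun l hl =>
        ⟨(Finset.mem_filter.1 (Finset.mem_of_mem_erase hl)).2, Finset.ne_of_mem_erase hl⟩)
    have hmod : ∀ l, k ≤ l → l ≠ i → (e • v) l = v l % v i := fun l hl hli => by
      rw [hev, if_pos (Finset.mem_erase.2 ⟨hli, Finset.mem_filter.2 ⟨Finset.mem_univ l, hl⟩⟩),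
        EuclideanDomain.mod_eq_sub_mul_div]
      ring
    have hi0 : (e • v) i = v i := by rw [hev, if_neg (Finset.notMem_erase i _)]
    by_cases hz : ∃ l, k ≤ l ∧ l ≠ i ∧ (e • v) l ≠ 0
    · obtain ⟨l, hl, hli, hl0⟩ := hz
      have hlt : ((e • v) l).natDegree < (v i).natDegree := by
        refine Polynomial.natDegree_lt_natDegree hl0 ?_
        rw [hmod l hl hli]
        exact EuclideanDomain.mod_lt _ hvi
      obtain ⟨e', he', hev'⟩ := ih _ (lt_of_lt_of_le hlt hn) (e • v) l hl hl0 le_rfl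
      exact ⟨e' * e, mul_mem he' he, fun l' hl' => by rw [mul_smul, hev' l' hl']⟩
    · push Not at hz
      by_cases hik : i = k
      · refine ⟨e, he, fun l hl => hz l hl.le ?_⟩
        rw [hik]
        exact hl.ne'
      · refine ⟨T hik (-1) * (T (Ne.symm hik) 1 * e),
          mul_mem (T_mem _ _ hki le_rfl) (mul_mem (T_mem _ _ le_rfl hki) he), fun l hl => ?_⟩
        have hk0 : (e • v) k = 0 := hz k le_rfl (Ne.symm hik)
        simp only [mul_smul, T_smul, hl.ne', if_false, if_true, hk0, hi0]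
        by_cases hli : l = i
        · subst hli
          simp [hl.ne, hi0]
        · simp [hli, hz l hl.le hli]

lemma reduce (k : Fin r) (v : Vec p r) :
    ∃ e ∈ Ek p r k, ∀ l : Fin r, k < l → (e • v) l = 0 := by
  by_cases h : ∃ i, k ≤ i ∧ v i ≠ 0
  · obtain ⟨i, hi, hv⟩ := h
    exact euclid k _ v i hi hv le_rfl
  · push Not at h
    exact ⟨1, one_mem _, fun l hl => by rw [one_smul]; exact h l hl.le⟩

lemma fix_of {g : SL p r} {s : ℕ} (h : ∀ l : Fin r, (l : ℕ) < s → g • (bv l : Vec p r) = bv l)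
    {w : Vec p r} (hw : ∀ l : Fin r, s ≤ (l : ℕ) → w l = 0) : g • w = w := by
  have hsum : w = ∑ l, w l • bv l := by
    funext i
    simp [bv, Pi.single_apply, Finset.sum_apply]
  conv_lhs => rw [hsum, smulV, mulVec_sum]
  conv_rhs => rw [hsum]
  refine Finset.sum_congr rfl fun l _ => ?_
  rw [← smulV, smulV_smul]
  by_cases hl : (l : ℕ) < s
  · rw [h l hl]
  · rw [hw l (not_lt.1 hl), zero_smul, zero_smul]

/-- Echelon form of a finite family of vectors. -/
theorem echelon : ∀ (b : ℕ) (y : Fin b → Vec p r), ∃ g ∈ Ek p r 0, ∃ s : ℕ, s ≤ b ∧ s ≤ r ∧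
    (∀ i (l : Fin r), s ≤ (l : ℕ) → (g • y i) l = 0) ∧
    ∀ x : SL p r, (∀ i, x • y i = y i) →
      ∀ l : Fin r, (l : ℕ) < s → (g * x * g⁻¹) • (bv l : Vec p r) = bv l
  | 0, _ => ⟨1, one_mem _, 0, le_rfl, Nat.zero_le _, fun i => i.elim0,
      fun _ _ l hl => absurd hl (Nat.not_lt_zero _)⟩
  | b + 1, y => by
    obtain ⟨g, hg, s, hsb, hsr, hzero, hfix⟩ := echelon b (Fin.init y)
    set v := g • y (Fin.last b)
    by_cases hv : ∀ l : Fin r, s ≤ (l : ℕ) → v l = 0
    · refine ⟨g, hg, s, hsb.trans (Nat.le_succ b), hsr, fun i => ?_,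
        fun x hx => hfix x fun i => hx i.castSucc⟩
      induction i using Fin.lastCases with
      | last => exact hv
      | cast i => exact hzero i
    push Not at hv
    obtain ⟨l₀, hl₀, hl₀v⟩ := hv
    set k : Fin r := ⟨s, lt_of_le_of_lt hl₀ l₀.2⟩
    obtain ⟨e, he, hev⟩ := reduce k v
    have hek : (e • v) k ≠ 0 := by
      intro h0
      refine hl₀v ?_
      have hlow : ∀ l : Fin r, s ≤ (l : ℕ) → (e • v) l = 0 := fun l hl => by
        rcases eq_or_lt_of_le hl with h | h
        · rwa [show l = k from Fin.ext h.symm]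
        · exact hev l h
      have : v = e • v := by
        have := Ek_fix (Subgroup.inv_mem _ he) (e • v) hlow
        rwa [inv_smul_smul] at this
      rw [this]
      exact hlow l₀ hl₀
    refine ⟨e * g, mul_mem (Ek_le (Nat.zero_le _) he) hg, s + 1, by omega, k.2, fun i l hl => ?_,
      fun x hx => ?_⟩
    · induction i using Fin.lastCases with
      | last => rw [mul_smul]; exact hev l (Nat.lt_of_succ_le hl)
      | cast i =>
        rw [mul_smul, Ek_fix he (g • y i.castSucc) (fun l' hl' => hzero i l' hl')]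
        exact hzero i l (Nat.le_of_succ_le hl)
    · set x' := e * g * x * (e * g)⁻¹ with hx'
      have hlow : ∀ l : Fin r, (l : ℕ) < s → x' • bv l = bv l := fun l hl => by
        have hel : e • (bv l : Vec p r) = bv l := Ek_fix he _ fun l' hl' => by
          rw [bv, Pi.single_eq_of_ne]
          intro h
          subst h
          exact absurd hl (not_lt.2 hl')
        have := hfix x (fun i => hx i.castSucc) l hl
        calc x' • bv l = x' • e • bv l := by rw [hel]
          _ = e • (g * x * g⁻¹) • bv l := by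
              rw [smul_smul, smul_smul]
              congr 1
              rw [hx']
              group
          _ = bv l := by rw [this, hel]
      have hv' : x' • (e • v) = e • v := by
        calc x' • (e • v) = (e * g) • x • y (Fin.last b) := by
              simp only [v, smul_smul]
              congr 1
              rw [hx']
              group
          _ = e • v := by rw [hx, mul_smul]
      intro l hl
      rcases eq_or_lt_of_le (Nat.le_of_lt_succ hl) with h | h
      · obtain rfl : l = k := Fin.ext h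
        set c := (e • v) k
        set w : Vec p r := e • v - c • bv k
        have hw : x' • w = w := fix_of hlow fun l' hl' => by
          rcases eq_or_lt_of_le hl' with h' | h'
          · rw [show l' = k from Fin.ext h'.symm]; simp [w, c, bv]
          · have hne : l' ≠ k := fun h'' => by rw [h''] at h'; exact lt_irrefl _ h'
            simp [w, hev l' h', bv, hne]
        have hsplit : e • v = w + c • bv k := by simp [w]
        rw [hsplit, smulV_add, hw, smulV_smul] at hv'
        funext i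
        have := congrFun (add_left_cancel hv') i
        simp only [Pi.smul_apply, smul_eq_mul] at this
        exact mul_left_cancel₀ hek this
      · exact hlow l h

/-- Every element is a product of transvections. -/
theorem mem_Ek (g : SL p r) : g ∈ Ek p r 0 := by
  suffices h : ∀ j k, k + j = r → ∀ g : SL p r,
      (∀ l : Fin r, (l : ℕ) < k → g • (bv l : Vec p r) = bv l) → g ∈ Ek p r 0 from
    h r 0 (zero_add r) g fun l hl => absurd hl (Nat.not_lt_zero _)
  intro j
  induction j with
  | zero =>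
    intro k hk g hg
    have : g = 1 := Subtype.ext (Matrix.ext fun i l => by
      have hl : (l : ℕ) < k := by omega
      rw [← smul_bv, hg l hl]
      simp [bv, Matrix.one_apply, Pi.single_apply])
    rw [this]
    exact one_mem _
  | succ j ih =>
    intro k hk g hg
    set K : Fin r := ⟨k, by omega⟩
    obtain ⟨e, he, hev⟩ := reduce K (g • (bv K : Vec p r))
    have hlow : ∀ l : Fin r, (l : ℕ) < k → (e * g) • (bv l : Vec p r) = bv l := fun l hl => by
      rw [mul_smul, hg l hl]
      exact Ek_fix he _ fun l' hl' => by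
        rw [bv, Pi.single_eq_of_ne]
        intro h
        subst h
        exact absurd hl (not_lt.2 hl')
    set g' := e * g with hg'
    set v := g' • (bv K : Vec p r) with hv
    have hhigh : ∀ l : Fin r, K < l → v l = 0 := fun l hl => by
      rw [hv, hg', mul_smul]; exact hev l hl
    set u := v K
    have hinv : ∀ l : Fin r, (l : ℕ) < k → g'⁻¹ • (bv l : Vec p r) = bv l := fun l hl => by
      rw [inv_smul_eq_iff, hlow l hl]
    have hau : g'⁻¹.1 K K * u = 1 := by
      have h1 : (g'⁻¹ • v) K = 1 := by rw [hv, inv_smul_smul]; simp [bv]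
      refine Eq.trans ?_ h1
      rw [smulV]
      change _ = ∑ l, g'⁻¹.1 K l * v l
      rw [Finset.sum_eq_single K (fun l _ hl => ?_) (fun h => absurd (Finset.mem_univ K) h)]
      rcases lt_or_gt_of_ne hl with h | h
      · have hne : K ≠ l := h.ne'
        rw [← smul_bv, hinv l h]
        simp [bv, hne]
      · rw [hhigh l h, mul_zero]
    -- make the diagonal entry equal to one
    obtain ⟨e₁, he₁, he1, he2⟩ : ∃ e₁ ∈ Ek p r k, (e₁ • v) K = 1 ∧
        ∀ l, K < l → (e₁ • v) l = 0 := by
      by_cases hlast : k + 1 < r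
      · set J : Fin r := ⟨k + 1, hlast⟩
        have hKJ : K ≠ J := fun h => by simp [K, J, Fin.ext_iff] at h
        have hJ : v J = 0 := hhigh J (Nat.lt_succ_self k)
        refine ⟨T hKJ.symm (-1) * (T hKJ (1 - u) * T hKJ.symm (g'⁻¹.1 K K)),
          mul_mem (T_mem _ _ (Nat.le_succ k) le_rfl) (mul_mem (T_mem _ _ le_rfl (Nat.le_succ k))
            (T_mem _ _ (Nat.le_succ k) le_rfl)), ?_, fun l hl => ?_⟩
        · simp only [mul_smul, T_smul, hKJ, hKJ.symm, if_false, if_true, hJ, zero_add]
          change u + (1 - u) * (g'⁻¹.1 K K * u) = 1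
          rw [hau]; ring
        · by_cases hlJ : l = J
          · subst hlJ
            simp only [mul_smul, T_smul, hKJ, hKJ.symm, if_false, if_true, hJ, zero_add]
            change g'⁻¹.1 K K * u + -1 * (u + (1 - u) * (g'⁻¹.1 K K * u)) = 0
            rw [hau]; ring
          · simp [mul_smul, T_smul, hlJ, hl.ne', hhigh l hl]
      · refine ⟨1, one_mem _, ?_, fun l hl => ?_⟩
        · rw [one_smul]
          have hM : g'.1 = (1 : Matrix (Fin r) (Fin r) (ZMod p)[X]).updateCol K v := by
            refine Matrix.ext fun i l => ?_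
            by_cases hlK : l = K
            · subst hlK
              rw [Matrix.updateCol_self, hv, smul_bv]
            · have hl : (l : ℕ) < k := by
                have : (l : ℕ) ≠ k := fun h => hlK (Fin.ext h)
                omega
              rw [Matrix.updateCol_ne hlK, ← smul_bv, hlow l hl]
              simp [bv, Matrix.one_apply, Pi.single_apply]
          have hdet : ((1 : Matrix (Fin r) (Fin r) (ZMod p)[X]).updateCol K v).det = 1 := by
            rw [← hM]; exact g'.2
          rwa [← Matrix.cramer_apply, Matrix.cramer_one] at hdet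
        · exfalso
          have := l.2
          have : k < (l : ℕ) := hl
          omega
    -- clear the entries above it
    classical
    obtain ⟨e₂, he₂, he₂w⟩ := addcol (k := 0) (i := K) (Nat.zero_le _)
      (fun l => -(e₁ • v) l) (Finset.univ.filter fun l => l < K)
      (fun l hl => ⟨Nat.zero_le _, (Finset.mem_filter.1 hl).2.ne⟩)
    have hfin : e₂ * e₁ * g' ∈ Ek p r 0 := by
      refine ih (k + 1) (by omega) _ fun l hl => ?_
      rcases eq_or_lt_of_le (Nat.le_of_lt_succ hl) with h | h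
      · obtain rfl : l = K := Fin.ext h
        rw [mul_smul, mul_smul, ← hv]
        funext i
        rw [he₂w, he1, mul_one]
        rcases lt_trichotomy i K with hi | hi | hi
        · simp [hi, bv, hi.ne]
        · subst hi
          simp [bv, he1]
        · simp [hi.not_gt, bv, hi.ne', he2 i hi]
      · have hb : ∀ l' : Fin r, k ≤ (l' : ℕ) → (bv l : Vec p r) l' = 0 := fun l' hl' => by
          rw [bv, Pi.single_eq_of_ne]
          intro h'
          subst h'
          exact absurd h (not_lt.2 hl')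
        rw [mul_smul, mul_smul, hlow l h, Ek_fix he₁ _ hb]
        funext i
        rw [he₂w, hb K le_rfl, mul_zero, add_zero, ite_self]
    have h1 : e₂ * e₁ * e ∈ Ek p r 0 :=
      mul_mem (mul_mem he₂ (Ek_le (Nat.zero_le _) he₁)) (Ek_le (Nat.zero_le _) he)
    have h2 := mul_mem (Subgroup.inv_mem _ h1) hfin
    have h3 : (e₂ * e₁ * e)⁻¹ * (e₂ * e₁ * g') = g := by rw [hg']; group
    rwa [h3] at h2

lemma exists_free (b : ℕ) (y : Fin b → Vec p r) (hb : b < r) :
    ∃ f lam : Vec p r, lam ⬝ᵥ f = 1 ∧ ∀ i, lam ⬝ᵥ y i = 0 := by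
  obtain ⟨g, -, s, hsb, -, hzero, -⟩ := echelon b y
  set k : Fin r := ⟨s, by omega⟩
  have h : ∀ w : Vec p r, (fun l => g.1 k l) ⬝ᵥ w = (g • w) k := fun w => rfl
  refine ⟨g⁻¹ • bv k, fun l => g.1 k l, ?_, fun i => ?_⟩
  · rw [h, smul_inv_smul]; simp [bv]
  · rw [h]; exact hzero i k le_rfl

/-- A generic completion of a tuple of vectors. -/
def Generic (m : ℕ) (K : Fin r) {b : ℕ} (y : Fin b → Vec p r) (v : Vec p r) : Prop :=
  (∀ l, X ^ m ∣ v l - bv K l) ∧ ∃ φ : Vec p r, φ ⬝ᵥ v = 1 ∧ ∀ i, φ ⬝ᵥ y i = 0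

lemma generic_smul {m : ℕ} {K : Fin r} {b : ℕ} {y : Fin b → Vec p r} {v : Vec p r}
    (h : Generic m K y v) {g : SL p r} (hg : g ∈ Nm p r m) :
    Generic m K (fun i => g • y i) (g • v) := by
  obtain ⟨h1, φ, hφ, hy⟩ := h
  refine ⟨fun l => ?_, φ ᵥ* g⁻¹.1, ?_, fun i => ?_⟩
  · rw [← sub_add_sub_cancel _ (v l)]
    exact dvd_add (Nm_dvd hg v l) (h1 l)
  · rw [← dotProduct_mulVec, ← smulV, inv_smul_smul, hφ]
  · rw [← dotProduct_mulVec, ← smulV, inv_smul_smul, hy i]

/-- The congruence group is transitive on generic completions. -/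
theorem generic_trans {m : ℕ} {K : Fin r} {b : ℕ} {y : Fin b → Vec p r} {v v' : Vec p r}
    (hb : b + 2 < r) (h : Generic m K y v) (h' : Generic m K y v') :
    ∃ g ∈ Nm p r m, (∀ i, g • y i = y i) ∧ g • v = v' := by
  obtain ⟨hv, φ, hφ, hφy⟩ := h
  obtain ⟨hv', φ', hφ', hφy'⟩ := h'
  have hd : ∀ l, X ^ m ∣ v' l - v l := fun l => by
    have := dvd_sub (hv' l) (hv l)
    rwa [sub_sub_sub_cancel_right] at this
  choose q hq using hd
  have hv'q : v' = v + (X ^ m : (ZMod p)[X]) • q := by
    funext l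
    simp [← hq l]
  obtain ⟨f, l1, hl1f, hl1⟩ := exists_free (b + 2) (Fin.snoc (Fin.snoc y v) q) hb
  have hl1q : l1 ⬝ᵥ q = 0 := by simpa using hl1 (Fin.last _)
  have hl1v : l1 ⬝ᵥ v = 0 := by simpa using hl1 (Fin.last b).castSucc
  have hl1y : ∀ i, l1 ⬝ᵥ y i = 0 := fun i => by simpa using hl1 i.castSucc.castSucc
  set t : (ZMod p)[X] := X ^ m
  set α := φ' ⬝ᵥ v with hα
  set μ := φ' - α • φ with hμ
  set μ' := μ - (μ ⬝ᵥ f) • l1 with hμ'
  set x := α • f - (φ' ⬝ᵥ f) • v with hx
  set lam := t • μ' + (1 + t * (φ ⬝ᵥ q)) • l1 with hlam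
  set ψ := φ - (φ ⬝ᵥ (q + x)) • lam with hψ
  have h1 : α + t * (φ' ⬝ᵥ q) = 1 := by
    rw [hv'q, dotProduct_add, dotProduct_smul, smul_eq_mul] at hφ'
    exact hφ'
  have hlv : lam ⬝ᵥ v = 0 := by
    simp [hlam, hμ', hμ, add_dotProduct, sub_dotProduct, smul_dotProduct, hl1v, hφ, ← hα]
  have hly : ∀ i, lam ⬝ᵥ y i = 0 := fun i => by
    simp [hlam, hμ', hμ, add_dotProduct, sub_dotProduct, smul_dotProduct, hl1y, hφy, hφy']
  have hlw : lam ⬝ᵥ (q + x) = 1 := by
    rw [hx, dotProduct_add, dotProduct_sub, dotProduct_smul, dotProduct_smul, hlv]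
    simp only [hlam, hμ', add_dotProduct, sub_dotProduct, smul_dotProduct, hl1q, hl1f,
      smul_eq_mul, hμ]
    linear_combination h1
  have hψw : ψ ⬝ᵥ (q + x) = 0 := by
    rw [hψ, sub_dotProduct, smul_dotProduct, hlw]
    simp
  have hψv : ψ ⬝ᵥ v = 1 := by simp [hψ, sub_dotProduct, smul_dotProduct, hlv, hφ]
  have hψy : ∀ i, ψ ⬝ᵥ y i = 0 := fun i => by
    simp [hψ, sub_dotProduct, smul_dotProduct, hly, hφy]
  have hA1 : φ' ⬝ᵥ (t • x) = 0 := by
    simp only [hx, dotProduct_sub, dotProduct_smul, ← hα, smul_eq_mul]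
    ring
  have hA2 : ψ ⬝ᵥ (t • (q + x)) = 0 := by rw [dotProduct_smul, hψw, smul_zero]
  have hm : ∀ (w : Vec p r) (l : Fin r), t ∣ (t • w) l := fun w l =>
    Dvd.intro _ rfl
  refine ⟨(tv _ _ hA1)⁻¹ * tv _ _ hA2,
    mul_mem (inv_mem (tv_mem hA1 (hm x))) (tv_mem hA2 (hm _)), fun i => ?_, ?_⟩
  · rw [mul_smul, inv_smul_eq_iff, tv_smul, tv_smul, hψy, hφy', zero_smul, zero_smul]
  · rw [mul_smul, inv_smul_eq_iff, tv_smul, tv_smul, hψv, hφ', one_smul, one_smul, hv'q,
      add_assoc, ← smul_add]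

/-- Generic completions exist over tuples congruent to the first standard vectors. -/
theorem generic_exists {m b : ℕ} (hm : 1 ≤ m) (hb : b + 1 < r) (y : Fin b → Vec p r)
    (hy : ∀ (i : Fin b) (l : Fin r), X ^ m ∣ y i l - bv ⟨i, by omega⟩ l) :
    ∃ v, Generic m ⟨b, by omega⟩ y v := by
  set K : Fin r := ⟨b, by omega⟩
  let ρ : Fin (b + 1) → Fin r := fun i => ⟨i, by omega⟩
  let cols : Fin (b + 1) → Vec p r := Fin.snoc y (bv K)
  set M : Matrix (Fin (b + 1)) (Fin (b + 1)) (ZMod p)[X] := Matrix.of fun i j => cols j (ρ i)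
  let Φ : Vec p r →ₗ[(ZMod p)[X]] (ZMod p)[X] :=
    (LinearMap.proj (Fin.last b)).comp ((Matrix.cramer M).comp (LinearMap.funLeft _ _ ρ))
  set φ : Vec p r := fun l => Φ (bv l)
  have hφ : ∀ u, φ ⬝ᵥ u = Φ u := fun u => by
    conv_rhs => rw [show u = ∑ l, u l • bv l by funext i; simp [bv, Pi.single_apply]]
    simp [dotProduct, φ, map_sum, mul_comm]
  have hΦ : ∀ u, Φ u = (M.updateCol (Fin.last b) fun i => u (ρ i)).det := fun u => rfl
  have hy0 : ∀ i, φ ⬝ᵥ y i = 0 := fun i => by
    rw [hφ, hΦ]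
    refine Matrix.det_zero_of_column_eq (Fin.castSucc_lt_last i).ne fun a => ?_
    rw [Matrix.updateCol_ne (Fin.castSucc_lt_last i).ne, Matrix.updateCol_self]
    simp [M, cols]
  have hδ : (φ ⬝ᵥ bv K).eval 0 = 1 := by
    have hcol : (M.updateCol (Fin.last b) fun i => (bv K : Vec p r) (ρ i)) = M := by
      refine Matrix.ext fun i j => ?_
      by_cases hj : j = Fin.last b
      · subst hj; simp [M, cols]
      · rw [Matrix.updateCol_ne hj]
    rw [hφ, hΦ, hcol]
    change Polynomial.evalRingHom 0 M.det = 1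
    rw [RingHom.map_det]
    suffices (Polynomial.evalRingHom (0 : ZMod p)).mapMatrix M = 1 by rw [this, Matrix.det_one]
    refine Matrix.ext fun i j => ?_
    induction j using Fin.lastCases with
    | last =>
      by_cases hi : i = Fin.last b
      · subst hi; simp [M, cols, bv, ρ, K]
      · have : ρ i ≠ K := fun h => hi (Fin.ext (by simpa [ρ, K, Fin.ext_iff] using h))
        simp [M, cols, bv, Pi.single_eq_of_ne this, Matrix.one_apply, hi]
    | cast j =>
      have h0 : (y j (ρ i) - bv ⟨j, by omega⟩ (ρ i)).eval 0 = 0 := by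
        obtain ⟨c, hc⟩ := hy j (ρ i)
        rw [hc]
        simp [zero_pow (by omega : m ≠ 0)]
      rw [eval_sub, sub_eq_zero] at h0
      simp only [M, cols, RingHom.mapMatrix_apply, Matrix.map_apply, Matrix.of_apply,
        Fin.snoc_castSucc, coe_evalRingHom, h0]
      by_cases hi : i = j.castSucc
      · subst hi; simp [bv, ρ]
      · have : ρ i ≠ ⟨j, by omega⟩ := fun h => hi (Fin.ext (by simpa [ρ, Fin.ext_iff] using h))
        simp [bv, Pi.single_eq_of_ne this, Matrix.one_apply, hi]
  set δ := φ ⬝ᵥ bv K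
  have hcop : IsCoprime ((X : (ZMod p)[X]) ^ m) δ := by
    refine IsCoprime.pow_left ((Prime.coprime_iff_not_dvd Polynomial.prime_X).2 fun h => ?_)
    rw [Polynomial.X_dvd_iff, Polynomial.coeff_zero_eq_eval_zero, hδ] at h
    exact one_ne_zero h
  obtain ⟨a, c, hac⟩ := hcop
  obtain ⟨f, l1, hl1f, hl1⟩ := exists_free (b + 1) cols hb
  have hl1K : l1 ⬝ᵥ bv K = 0 := by simpa [cols] using hl1 (Fin.last b)
  have hl1y : ∀ i, l1 ⬝ᵥ y i = 0 := fun i => by simpa [cols] using hl1 i.castSucc
  set t : (ZMod p)[X] := X ^ m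
  refine ⟨bv K + t • f, fun l => ?_, c • (φ - (φ ⬝ᵥ f) • l1) + a • l1, ?_, fun i => ?_⟩
  · simp [t]
  · simp only [add_dotProduct, smul_dotProduct, sub_dotProduct, dotProduct_add, dotProduct_smul,
      hl1K, hl1f, smul_eq_mul]
    linear_combination (norm := (simp only [δ]; ring)) hac
  · simp [add_dotProduct, smul_dotProduct, sub_dotProduct, hl1y, hy0]

end Vale.Agent.P067.Full.Stab
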