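import Vale.Agent.P067.Full.StabChains
import Vale.Agent.P067.Full.StabSL

/-!
The groups fixing the first `s` standard vectors, or the first `s` coordinates, and their
retraction onto the block group, which is the congruence group of smaller rank.
-/

namespace Vale.Agent.P067.Full.Stab

open Matrix Polynomial

variable (p r : ℕ)

/-- The matrices whose first `s` columns are those of the identity. -/
noncomputable def FixC (s : ℕ) : Subgroup (SL p r) where
  carrier := {g | ∀ l : Fin r, (l : ℕ) < s → g • (bv l : Vec p r) = bv l}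
  one_mem' := fun l _ => one_smul _ _
  mul_mem' := fun {a b} ha hb l hl => by rw [mul_smul, hb l hl, ha l hl]
  inv_mem' := fun {a} ha l hl => by rw [inv_smul_eq_iff, ha l hl]

/-- The matrices whose first `s` rows are those of the identity. -/
noncomputable def FixR (s : ℕ) : Subgroup (SL p r) where
  carrier := {g | ∀ l : Fin r, (l : ℕ) < s → (bv l : Vec p r) ᵥ* g.1 = bv l}
  one_mem' := fun l _ => vecMul_one _
  mul_mem' := fun {a b} ha hb l hl => by
    rw [Matrix.SpecialLinearGroup.coe_mul, ← vecMul_vecMul, ha l hl, hb l hl]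
  inv_mem' := fun {a} ha l hl => by
    conv_lhs => rw [← ha l hl, vecMul_vecMul, ← Matrix.SpecialLinearGroup.coe_mul, mul_inv_cancel,
      Matrix.SpecialLinearGroup.coe_one, vecMul_one]

variable {p r}

lemma FixC_apply {s : ℕ} {g : SL p r} (hg : g ∈ FixC p r s) (i l : Fin r) (hl : (l : ℕ) < s) :
    g.1 i l = (1 : Matrix (Fin r) (Fin r) (ZMod p)[X]) i l := by
  rw [← smul_bv, hg l hl]
  simp [bv, Matrix.one_apply, Pi.single_apply]

lemma FixR_apply {s : ℕ} {g : SL p r} (hg : g ∈ FixR p r s) (l j : Fin r) (hl : (l : ℕ) < s) :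
    g.1 l j = (1 : Matrix (Fin r) (Fin r) (ZMod p)[X]) l j := by
  have h := congrFun (hg l hl) j
  simpa [bv, Matrix.one_apply, Pi.single_apply, eq_comm] using h

lemma mem_FixC {s : ℕ} {g : SL p r}
    (h : ∀ (i l : Fin r), (l : ℕ) < s → g.1 i l = (1 : Matrix (Fin r) (Fin r) (ZMod p)[X]) i l) :
    g ∈ FixC p r s := fun l hl => by
  funext i
  rw [smul_bv, h i l hl]
  simp [bv, Matrix.one_apply, Pi.single_apply]

lemma mem_FixR {s : ℕ} {g : SL p r}
    (h : ∀ (l j : Fin r), (l : ℕ) < s → g.1 l j = (1 : Matrix (Fin r) (Fin r) (ZMod p)[X]) l j) :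
    g ∈ FixR p r s := fun l hl => by
  funext j
  simp [bv, h l j hl, Matrix.one_apply, Pi.single_apply, eq_comm]

/-- The block of a matrix. -/
noncomputable def blk (s : ℕ) (g : Matrix (Fin r) (Fin r) (ZMod p)[X]) :
    Matrix (Fin r) (Fin r) (ZMod p)[X] :=
  Matrix.of fun i j => if (i : ℕ) < s ∨ (j : ℕ) < s then
    (1 : Matrix (Fin r) (Fin r) (ZMod p)[X]) i j else g i j

lemma blk_low {s : ℕ} (g : Matrix (Fin r) (Fin r) (ZMod p)[X]) {i j : Fin r}
    (h : (i : ℕ) < s ∨ (j : ℕ) < s) :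
    blk s g i j = (1 : Matrix (Fin r) (Fin r) (ZMod p)[X]) i j := by
  simp [blk, if_pos h]

lemma blk_high {s : ℕ} (g : Matrix (Fin r) (Fin r) (ZMod p)[X]) {i j : Fin r}
    (hi : s ≤ (i : ℕ)) (hj : s ≤ (j : ℕ)) : blk s g i j = g i j := by
  simp [blk, not_lt.2 hi, not_lt.2 hj]

lemma blk_det {s : ℕ} {g : SL p r} (hg : g ∈ FixC p r s ∨ g ∈ FixR p r s) :
    (blk s g.1).det = 1 := by
  have hne : ∀ {i j : Fin r}, (i : ℕ) < s → ¬(j : ℕ) < s → i ≠ j := fun hi hj h => hj (h ▸ hi)
  have h2 : toSquareBlockProp (blk s g.1) (fun i : Fin r => ¬(i : ℕ) < s)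
      = toSquareBlockProp g.1 (fun i : Fin r => ¬(i : ℕ) < s) := by
    ext a b
    simp only [toSquareBlockProp_def, Matrix.of_apply]
    rw [blk_high g.1 (not_lt.1 a.2) (not_lt.1 b.2)]
  have h1 : toSquareBlockProp (blk s g.1) (fun i : Fin r => (i : ℕ) < s)
      = toSquareBlockProp g.1 (fun i : Fin r => (i : ℕ) < s) := by
    ext a b
    simp only [toSquareBlockProp_def, Matrix.of_apply]
    rw [blk_low g.1 (Or.inl a.2)]
    rcases hg with hg | hg
    · rw [FixC_apply hg _ _ b.2]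
    · rw [FixR_apply hg _ _ a.2]
  rcases hg with hg | hg
  · rw [twoBlockTriangular_det (blk s g.1) (fun i : Fin r => (i : ℕ) < s) (fun i hi j hj => by
      rw [blk_low g.1 (Or.inr hj), Matrix.one_apply_ne (hne hj hi).symm]), h1, h2,
      ← twoBlockTriangular_det g.1 (fun i : Fin r => (i : ℕ) < s) (fun i hi j hj => by
      rw [FixC_apply hg _ _ hj, Matrix.one_apply_ne (hne hj hi).symm])]
    exact g.2
  · rw [twoBlockTriangular_det' (blk s g.1) (fun i : Fin r => (i : ℕ) < s) (fun i hi j hj => by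
      rw [blk_low g.1 (Or.inl hi), Matrix.one_apply_ne (hne hi hj)]), h1, h2,
      ← twoBlockTriangular_det' g.1 (fun i : Fin r => (i : ℕ) < s) (fun i hi j hj => by
      rw [FixR_apply hg _ _ hi, Matrix.one_apply_ne (hne hi hj)])]
    exact g.2

/-- The block of a matrix, in the special linear group where this makes sense. -/
noncomputable def blkSL (s : ℕ) (g : SL p r) : SL p r :=
  if h : (blk s g.1).det = 1 then ⟨blk s g.1, h⟩ else 1

lemma blkSL_val {s : ℕ} {g : SL p r} (hg : g ∈ FixC p r s ∨ g ∈ FixR p r s) :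
    (blkSL s g).1 = blk s g.1 := by
  rw [show blkSL s g = ⟨blk s g.1, blk_det hg⟩ from dif_pos (blk_det hg)]

lemma blkSL_mem {s : ℕ} {g : SL p r} (hg : g ∈ FixC p r s ∨ g ∈ FixR p r s) :
    blkSL s g ∈ FixC p r s ⊓ FixR p r s := by
  refine ⟨mem_FixC fun i l hl => ?_, mem_FixR fun l j hl => ?_⟩
  · rw [blkSL_val hg, blk_low g.1 (Or.inr hl)]
  · rw [blkSL_val hg, blk_low g.1 (Or.inl hl)]

lemma blkSL_Nm {s m : ℕ} {g : SL p r} (hg : g ∈ FixC p r s ∨ g ∈ FixR p r s)
    (hm : g ∈ Nm p r m) : blkSL s g ∈ Nm p r m := by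
  refine mem_Nm.2 fun i j => ?_
  rw [blkSL_val hg]
  by_cases h : (i : ℕ) < s ∨ (j : ℕ) < s
  · rw [blk_low g.1 h, sub_self]
    exact dvd_zero _
  · push Not at h
    rw [blk_high g.1 h.1 h.2]
    exact mem_Nm.1 hm i j

lemma blkSL_fix {s : ℕ} {g : SL p r} (hg : g ∈ FixC p r s ⊓ FixR p r s) : blkSL s g = g := by
  refine Subtype.ext (Matrix.ext fun i j => ?_)
  rw [blkSL_val (Or.inl hg.1)]
  by_cases h : (i : ℕ) < s ∨ (j : ℕ) < s
  · rw [blk_low g.1 h]
    rcases h with h | h
    · rw [FixR_apply hg.2 i j h]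
    · rw [FixC_apply hg.1 i j h]
  · push Not at h
    rw [blk_high g.1 h.1 h.2]

lemma blkSL_mul {s : ℕ} {a b : SL p r}
    (h : (a ∈ FixC p r s ∧ b ∈ FixC p r s) ∨ (a ∈ FixR p r s ∧ b ∈ FixR p r s)) :
    blkSL s (a * b) = blkSL s a * blkSL s b := by
  have hab : a * b ∈ FixC p r s ∨ a * b ∈ FixR p r s :=
    h.imp (fun h => mul_mem h.1 h.2) (fun h => mul_mem h.1 h.2)
  refine Subtype.ext (Matrix.ext fun i j => ?_)
  rw [Matrix.SpecialLinearGroup.coe_mul, blkSL_val hab, blkSL_val (h.imp (·.1) (·.1)),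
    blkSL_val (h.imp (·.2) (·.2)), Matrix.mul_apply]
  by_cases hi : (i : ℕ) < s
  · rw [blk_low _ (Or.inl hi), Finset.sum_eq_single i (fun l _ hl => by
      rw [blk_low _ (Or.inl hi), Matrix.one_apply_ne hl.symm, zero_mul]) (by simp),
      blk_low _ (Or.inl hi), blk_low _ (Or.inl hi), Matrix.one_apply_eq, one_mul]
  by_cases hj : (j : ℕ) < s
  · rw [blk_low _ (Or.inr hj), Finset.sum_eq_single j (fun l _ hl => by
      rw [blk_low b.1 (Or.inr hj), Matrix.one_apply_ne hl, mul_zero]) (by simp),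
      blk_low _ (Or.inr hj), blk_low _ (Or.inr hj), Matrix.one_apply_eq, mul_one]
  rw [blk_high _ (not_lt.1 hi) (not_lt.1 hj), Matrix.SpecialLinearGroup.coe_mul, Matrix.mul_apply]
  refine Finset.sum_congr rfl fun l _ => ?_
  by_cases hl : (l : ℕ) < s
  · have hil : i ≠ l := fun e => hi (e ▸ hl)
    have hlj : l ≠ j := fun e => hj (e ▸ hl)
    rw [blk_low _ (Or.inr hl), blk_low _ (Or.inl hl), Matrix.one_apply_ne hil,
      Matrix.one_apply_ne hlj, zero_mul]
    rcases h with ⟨ha, -⟩ | ⟨-, hb⟩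
    · rw [FixC_apply ha i l hl, Matrix.one_apply_ne hil, zero_mul]
    · rw [FixR_apply hb l j hl, Matrix.one_apply_ne hlj, mul_zero]
  · rw [blk_high _ (not_lt.1 hi) (not_lt.1 hl), blk_high _ (not_lt.1 hl) (not_lt.1 hj)]

/-- `x - 1` is supported in the entries from inside `P` to outside. -/
def Pat (P : Fin r → Prop) (x : SL p r) : Prop :=
  ∀ i j, x.1 i j ≠ (1 : Matrix (Fin r) (Fin r) (ZMod p)[X]) i j → P i ∧ ¬P j

lemma Pat.mul_sub {P : Fin r → Prop} {x y : SL p r} (hx : Pat P x) (hy : Pat P y) :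
    (x.1 - 1) * (y.1 - 1) = 0 := by
  refine Matrix.ext fun i j => ?_
  rw [Matrix.mul_apply, Matrix.zero_apply]
  refine Finset.sum_eq_zero fun l _ => ?_
  by_cases h : x.1 i l = (1 : Matrix (Fin r) (Fin r) (ZMod p)[X]) i l
  · simp [h]
  · by_cases h' : y.1 l j = (1 : Matrix (Fin r) (Fin r) (ZMod p)[X]) l j
    · simp [h']
    · exact absurd (hy l j h').1 (hx i l h).2

lemma Pat.mul_val {P : Fin r → Prop} {x y : SL p r} (hx : Pat P x) (hy : Pat P y) :
    (x * y).1 = x.1 + y.1 - 1 := by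
  have h := hx.mul_sub hy
  rw [Matrix.SpecialLinearGroup.coe_mul]
  rw [← sub_eq_zero]
  calc x.1 * y.1 - (x.1 + y.1 - 1) = (x.1 - 1) * (y.1 - 1) := by noncomm_ring
    _ = 0 := h

lemma Pat.pow {P : Fin r → Prop} {x : SL p r} (hx : Pat P x) :
    ∀ n : ℕ, Pat P (x ^ n) ∧ (x ^ n).1 = 1 + n • (x.1 - 1)
  | 0 => by simp [Pat]
  | n + 1 => by
    obtain ⟨h1, h2⟩ := Pat.pow hx n
    have h3 : (x ^ (n + 1)).1 = 1 + (n + 1) • (x.1 - 1) := by
      rw [pow_succ, h1.mul_val hx, h2, succ_nsmul]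
      abel
    refine ⟨fun i j hij => hx i j fun h => hij ?_, h3⟩
    rw [h3, Matrix.add_apply, Matrix.smul_apply, Matrix.sub_apply, h, sub_self, smul_zero,
      add_zero]

variable [Fact p.Prime]

lemma Pat.pow_p {P : Fin r → Prop} {x : SL p r} (hx : Pat P x) : x ^ p = 1 := by
  refine Subtype.ext (Matrix.ext fun i j => ?_)
  rw [(hx.pow p).2, Matrix.add_apply, Matrix.smul_apply, nsmul_eq_mul,
    CharP.cast_eq_zero (ZMod p)[X] p, zero_mul, add_zero, Matrix.SpecialLinearGroup.coe_one]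

/-- The group of such matrices. -/
noncomputable def patGroup (P : Fin r → Prop) : Subgroup (SL p r) :=
  { carrier := {x | Pat P x}
    one_mem' := fun i j h => absurd (by simp) h
    mul_mem' := fun {x y} hx hy i j h => by
      by_contra hc
      have h1 : x.1 i j = (1 : Matrix (Fin r) (Fin r) (ZMod p)[X]) i j := by
        by_contra h1; exact hc (hx i j h1)
      have h2 : y.1 i j = (1 : Matrix (Fin r) (Fin r) (ZMod p)[X]) i j := by
        by_contra h2; exact hc (hy i j h2)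
      exact h (by rw [hx.mul_val hy]; simp [h1, h2])
    inv_mem' := fun {x} hx => by
      have h : x⁻¹ = x ^ (p - 1) := inv_eq_of_mul_eq_one_left (by
        rw [← pow_succ, Nat.sub_add_cancel (Fact.out : p.Prime).one_le, Pat.pow_p hx])
      rw [h]
      exact (Pat.pow hx (p - 1)).1 }

lemma patGroup_fin (hp : p ≠ 2) (P : Fin r → Prop) (S : Finset (SL p r))
    (hS : ∀ g ∈ S, g ∈ patGroup P) :
    ∃ K : Subgroup (SL p r), (∀ g ∈ S, g ∈ K) ∧ (K : Set (SL p r)).Finite ∧
      Odd (Nat.card K) := by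
  let Kc : Subgroup (SL p r) := Subgroup.closure (S : Set (SL p r))
  have hle : Kc ≤ patGroup P := (Subgroup.closure_le _).2 hS
  let _ : CommGroup Kc :=
    { (inferInstance : Group Kc) with
      mul_comm := fun a b => Subtype.ext (Subtype.ext (by
        change ((a : SL p r) * (b : SL p r)).1 = ((b : SL p r) * (a : SL p r)).1
        rw [Pat.mul_val (hle a.2) (hle b.2), Pat.mul_val (hle b.2) (hle a.2), add_comm])) }
  have hpow : ∀ a : Kc, a ^ p = 1 := fun a => Subtype.ext (by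
    rw [SubmonoidClass.coe_pow, OneMemClass.coe_one]
    exact Pat.pow_p (hle a.2))
  have : Group.FG Kc := (Group.fg_iff_subgroup_fg Kc).2 ⟨S, rfl⟩
  have hfin : Finite Kc := CommGroup.finite_of_fg_isMulTorsion Kc fun a =>
    isOfFinOrder_iff_pow_eq_one.2 ⟨p, (Fact.out : p.Prime).pos, hpow a⟩
  refine ⟨Kc, fun g hg => Subgroup.subset_closure hg, Set.toFinite _, ?_⟩
  have hP : IsPGroup p Kc := fun a => ⟨1, by rw [pow_one]; exact hpow a⟩
  obtain ⟨n, hn⟩ := IsPGroup.iff_card.1 hP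
  rw [hn]
  exact ((Fact.out : p.Prime).odd_of_ne_two hp).pow

/-- The retraction onto the block group. -/
theorem ret_blk (hp : p ≠ 2) (s m : ℕ) {Fx : Subgroup (SL p r)}
    (hFx : Fx = FixC p r s ∨ Fx = FixR p r s) :
    Ret (Nm p r m ⊓ Fx) (Nm p r m ⊓ (FixC p r s ⊓ FixR p r s)) (blkSL s) := by
  have hor : ∀ {g}, g ∈ Fx → g ∈ FixC p r s ∨ g ∈ FixR p r s := fun hg => by
    rcases hFx with rfl | rfl
    · exact Or.inl hg
    · exact Or.inr hg
  refine ⟨fun g hg => ?_, fun g hg => ⟨blkSL_Nm (hor hg.2) hg.1, blkSL_mem (hor hg.2)⟩,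
    fun a ha b hb => blkSL_mul ?_, fun b hb => blkSL_fix hb.2, fun S hS => ?_⟩
  · rcases hFx with rfl | rfl
    · exact ⟨hg.1, hg.2.1⟩
    · exact ⟨hg.1, hg.2.2⟩
  · rcases hFx with rfl | rfl
    · exact Or.inl ⟨ha.2, hb.2⟩
    · exact Or.inr ⟨ha.2, hb.2⟩
  · have key : ∀ g ∈ S, ∀ i j : Fin r, s ≤ (i : ℕ) → s ≤ (j : ℕ) →
        g.1 i j = (1 : Matrix (Fin r) (Fin r) (ZMod p)[X]) i j := fun g hg i j hi hj => by
      have h : (blkSL s g).1 i j = (1 : SL p r).1 i j := by rw [(hS g hg).2]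
      rwa [blkSL_val (hor (hS g hg).1.2), blk_high g.1 hi hj,
        Matrix.SpecialLinearGroup.coe_one] at h
    rcases hFx with rfl | rfl
    · refine patGroup_fin hp (fun i : Fin r => (i : ℕ) < s) S fun g hg i j hij => ?_
      have hj : ¬(j : ℕ) < s := fun hj => hij (FixC_apply (hS g hg).1.2 i j hj)
      refine ⟨?_, hj⟩
      by_contra hi
      exact hij (key g hg i j (not_lt.1 hi) (not_lt.1 hj))
    · refine patGroup_fin hp (fun i : Fin r => s ≤ (i : ℕ)) S fun g hg i j hij => ?_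
      have hi : ¬(i : ℕ) < s := fun hi => hij (FixR_apply (hS g hg).1.2 i j hi)
      exact ⟨not_lt.1 hi, fun hj => hij (key g hg i j (not_lt.1 hi) hj)⟩

/-- Adding an identity block in front. -/
noncomputable def emb (p s n : ℕ) : SL p n →* SL p (s + n) where
  toFun M := ⟨reindex finSumFinEquiv finSumFinEquiv (fromBlocks 1 0 0 M.1), by
    rw [det_reindex_self, det_fromBlocks_zero₂₁, det_one, one_mul, M.2]⟩
  map_one' := Subtype.ext (by simp)
  map_mul' M M' := Subtype.ext (by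
    change reindex finSumFinEquiv finSumFinEquiv (fromBlocks 1 0 0 (M * M').1)
      = reindex finSumFinEquiv finSumFinEquiv (fromBlocks 1 0 0 M.1)
        * reindex finSumFinEquiv finSumFinEquiv (fromBlocks 1 0 0 M'.1)
    rw [Matrix.SpecialLinearGroup.coe_mul]
    simp only [reindex_apply]
    rw [submatrix_mul_equiv, fromBlocks_multiply]
    simp)

lemma emb_apply {s n : ℕ} (M : SL p n) (a b : Fin s ⊕ Fin n) :
    (emb p s n M).1 (finSumFinEquiv a) (finSumFinEquiv b)
      = fromBlocks (1 : Matrix (Fin s) (Fin s) (ZMod p)[X]) 0 0 M.1 a b := by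
  change reindex finSumFinEquiv finSumFinEquiv (fromBlocks 1 0 0 M.1) _ _ = _
  simp

lemma emb_range (s n m : ℕ) :
    (Nm p n m).map (emb p s n)
      = Nm p (s + n) m ⊓ (FixC p (s + n) s ⊓ FixR p (s + n) s) := by
  have hone : ∀ a b : Fin s ⊕ Fin n,
      (1 : Matrix (Fin (s + n)) (Fin (s + n)) (ZMod p)[X]) (finSumFinEquiv a) (finSumFinEquiv b)
        = (1 : Matrix (Fin s ⊕ Fin n) (Fin s ⊕ Fin n) (ZMod p)[X]) a b := fun a b => by
    simp [Matrix.one_apply]
  have hlt : ∀ a : Fin s ⊕ Fin n, ((finSumFinEquiv a : Fin (s + n)) : ℕ) < s →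
      ∃ a', a = Sum.inl a' := fun a h => by
    rcases a with a | a
    · exact ⟨a, rfl⟩
    · simp at h
  ext g
  constructor
  · rintro ⟨M, hM, rfl⟩
    refine ⟨mem_Nm.2 fun i j => ?_, mem_FixC fun i l hl => ?_, mem_FixR fun l j hl => ?_⟩
    · obtain ⟨a, rfl⟩ := finSumFinEquiv.surjective i
      obtain ⟨b, rfl⟩ := finSumFinEquiv.surjective j
      rw [emb_apply, hone]
      rcases a with a | a <;> rcases b with b | b <;> simp [Matrix.one_apply]
      simpa [Matrix.one_apply] using mem_Nm.1 hM a b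
    · obtain ⟨a, rfl⟩ := finSumFinEquiv.surjective i
      obtain ⟨b, rfl⟩ := finSumFinEquiv.surjective l
      obtain ⟨b, rfl⟩ := hlt b hl
      rw [emb_apply, hone]
      rcases a with a | a <;> simp [Matrix.one_apply]
    · obtain ⟨a, rfl⟩ := finSumFinEquiv.surjective l
      obtain ⟨b, rfl⟩ := finSumFinEquiv.surjective j
      obtain ⟨a, rfl⟩ := hlt a hl
      rw [emb_apply, hone]
      rcases b with b | b <;> simp [Matrix.one_apply]
  · rintro ⟨hN, hC, hR⟩
    let B : Matrix (Fin n) (Fin n) (ZMod p)[X] := fun a b =>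
      g.1 (finSumFinEquiv (Sum.inr a)) (finSumFinEquiv (Sum.inr b))
    have hg : g.1 = reindex finSumFinEquiv finSumFinEquiv
        (fromBlocks (1 : Matrix (Fin s) (Fin s) (ZMod p)[X]) 0 0 B) := by
      refine Matrix.ext fun i j => ?_
      obtain ⟨a, rfl⟩ := finSumFinEquiv.surjective i
      obtain ⟨b, rfl⟩ := finSumFinEquiv.surjective j
      simp only [reindex_apply, submatrix_apply, Equiv.symm_apply_apply]
      rcases a with a | a
      · rw [FixR_apply hR _ _ (by simp), hone]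
        rcases b with b | b <;> simp [Matrix.one_apply]
      · rcases b with b | b
        · rw [FixC_apply hC _ _ (by simp), hone]
          simp [Matrix.one_apply]
        · simp [B, fromBlocks]
    have hB : B.det = 1 := by
      have h := g.2
      rwa [hg, det_reindex_self, det_fromBlocks_zero₂₁, det_one, one_mul] at h
    refine ⟨⟨B, hB⟩, mem_Nm.2 fun a b => ?_, Subtype.ext hg.symm⟩
    have h := mem_Nm.1 hN (finSumFinEquiv (Sum.inr a)) (finSumFinEquiv (Sum.inr b))
    rw [hone] at h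
    simpa [B, Matrix.one_apply] using h

lemma emb_injective (s n : ℕ) : Function.Injective (emb p s n) := fun M M' h => by
  refine Subtype.ext (Matrix.ext fun a b => ?_)
  have := emb_apply (s := s) M (Sum.inr a) (Sum.inr b)
  rw [h, emb_apply] at this
  simpa using this.symm

/-- The stabiliser groups are as acyclic as the congruence group of smaller rank. -/
theorem fixC_acyclic (hp : p ≠ 2) {s n m k : ℕ} (hr : r = s + n)
    (h : SS.GroupAcyclic (Nm p n m) k) :
    SS.GroupAcyclic (Nm p r m ⊓ FixC p r s) k := by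
  subst hr
  have h1 := acyclic_map (emb p s n) (emb_injective s n) h
  rw [emb_range] at h1
  exact (ret_blk hp s m (Or.inl rfl)).acyclic h1

end Vale.Agent.P067.Full.Stab
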