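import Vale.Agent.P067.Full.SS

/-!
Chains on tuples of group elements, with the mod 2 homology of a subgroup `H` read upstairs:
a chain is a cycle for `H` when its boundary dies in the orbit complex, and a boundary for `H`
when it agrees with a boundary there. Equivariant vertex maps (with values in chains of vertices
of total weight one) induce homotopic maps. From this we get: homology of a subgroup does not
depend on the ambient group, a retraction with locally finite kernel of odd order induces an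
isomorphism, and homology of a normal subgroup of odd index on which the big group acts
trivially vanishes when that of the big group does.
-/

namespace Vale.Agent.P067.Full.Stab

open Finsupp

/-- Chains on tuples. -/
abbrev C (Ω : Type) (k : ℕ) : Type := (Fin k → Ω) →₀ ZMod 2

lemma add_self {M : Type*} [AddCommGroup M] [Module (ZMod 2) M] (x : M) : x + x = 0 := by
  rw [← two_smul (ZMod 2) x, show (2 : ZMod 2) = 0 from rfl, zero_smul]

lemma eq_of_add {M : Type*} [AddCommGroup M] [Module (ZMod 2) M] {x y : M} (h : x + y = 0) :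
    x = y := by
  calc x = x + (y + y) := by rw [add_self y, add_zero]
    _ = x + y + y := by abel
    _ = y := by rw [h, zero_add]

/-- Induction on chains: coefficients are `0` or `1`. -/
@[elab_as_elim]
lemma ind1 {α : Type*} {motive : (α →₀ ZMod 2) → Prop} (z : α →₀ ZMod 2) (zero : motive 0)
    (add : ∀ x y, motive x → motive y → motive (x + y)) (single : ∀ u, motive (single u 1)) :
    motive z := by
  induction z using Finsupp.induction_linear with
  | zero => exact zero
  | add x y hx hy => exact add x y hx hy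
  | single u e =>
    rcases (by decide : ∀ e : ZMod 2, e = 0 ∨ e = 1) e with rfl | rfl
    · rwa [Finsupp.single_zero]
    · exact single u

variable {Ω Ω' : Type}

/-- The boundary. -/
noncomputable def D (Ω : Type) (k : ℕ) : C Ω (k + 1) →ₗ[ZMod 2] C Ω k :=
  (SS.tup Ω).bd k

lemma D_single (k : ℕ) (u : Fin (k + 1) → Ω) :
    D Ω k (single u 1) = ∑ i : Fin (k + 1), single (u ∘ i.succAbove) 1 := by
  unfold D SS.bd
  erw [Finsupp.linearCombination_single, one_smul]
  rfl

/-- The weight of a chain of vertices. -/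
noncomputable def eps (Ω : Type) : (Ω →₀ ZMod 2) →ₗ[ZMod 2] ZMod 2 :=
  Finsupp.linearCombination (ZMod 2) fun _ => (1 : ZMod 2)

/-- Putting a chain of vertices in front. -/
noncomputable def cons (k : ℕ) :
    (Ω →₀ ZMod 2) →ₗ[ZMod 2] C Ω k →ₗ[ZMod 2] C Ω (k + 1) :=
  Finsupp.linearCombination (ZMod 2) fun a =>
    Finsupp.lmapDomain (ZMod 2) (ZMod 2) fun u : Fin k → Ω => (Fin.cons a u : Fin (k + 1) → Ω)

lemma cons_single (k : ℕ) (a : Ω) (u : Fin k → Ω) :
    cons k (single a 1) (single u 1) = single (Fin.cons a u) 1 := by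
  simp [cons, Finsupp.lmapDomain_apply]

lemma D_cons_zero (x : Ω →₀ ZMod 2) (w : C Ω 0) : D Ω 0 (cons 0 x w) = eps Ω x • w := by
  induction x using ind1 with
  | zero => simp
  | add x y hx hy => simp [map_add, add_smul, hx, hy]
  | single a =>
    induction w using ind1 with
    | zero => simp
    | add v w hv hw => simp [map_add, smul_add, hv, hw]
    | single u =>
      rw [cons_single, D_single, Fin.sum_univ_one, show eps Ω (single a (1 : ZMod 2)) = 1 by
        simp [eps], one_smul]
      congr 1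

lemma cons_comp_succ {k : ℕ} (a : Ω) (u : Fin (k + 1) → Ω) (i : Fin (k + 1)) :
    (Fin.cons a u : Fin (k + 2) → Ω) ∘ (i.succ).succAbove = Fin.cons a (u ∘ i.succAbove) := by
  funext j
  induction j using Fin.cases with
  | zero => simp
  | succ j => simp [Fin.succ_succAbove_succ]

lemma D_cons (k : ℕ) (x : Ω →₀ ZMod 2) (w : C Ω (k + 1)) :
    D Ω (k + 1) (cons (k + 1) x w) = eps Ω x • w + cons k x (D Ω k w) := by
  induction x using ind1 with
  | zero => simp
  | add x y hx hy => simp only [map_add, LinearMap.add_apply, hx, hy, add_smul]; abel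
  | single a =>
    induction w using ind1 with
    | zero => simp
    | add v w hv hw => simp only [map_add, smul_add, hv, hw]; abel
    | single u =>
      rw [cons_single, D_single, D_single, Fin.sum_univ_succ, map_sum,
        show eps Ω (single a (1 : ZMod 2)) = 1 by simp [eps], one_smul]
      congr 1
      refine Finset.sum_congr rfl fun i _ => ?_
      rw [cons_comp_succ, cons_single]

lemma cons_tail {k : ℕ} (u : Fin (k + 1) → Ω) :
    cons k (single (u 0) 1) (single (Fin.tail u) 1) = single u 1 := by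
  rw [cons_single, Fin.cons_self_tail]

lemma D_D : ∀ (k : ℕ) (w : C Ω (k + 2)), D Ω k (D Ω (k + 1) w) = 0
  | k, w => by
    induction w using ind1 with
    | zero => simp
    | add v w hv hw => simp [map_add, hv, hw]
    | single u =>
      rw [← cons_tail u, D_cons, map_add, map_smul]
      have he : eps Ω (single (u 0) (1 : ZMod 2)) = 1 := by simp [eps]
      cases k with
      | zero => rw [D_cons_zero, he, add_self]
      | succ k => rw [D_cons, D_D k, map_zero, add_zero, he, add_self]

/-- The image of a tuple under a vertex map with values in chains of vertices. -/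
noncomputable def Fu (f : Ω → (Ω' →₀ ZMod 2)) : ∀ k, (Fin k → Ω) → C Ω' k
  | 0, _ => single Fin.elim0 1
  | k + 1, u => cons k (f (u 0)) (Fu f k (Fin.tail u))

/-- The chain map of a vertex map. -/
noncomputable def F (f : Ω → (Ω' →₀ ZMod 2)) (k : ℕ) : C Ω k →ₗ[ZMod 2] C Ω' k :=
  Finsupp.linearCombination (ZMod 2) (Fu f k)

/-- A vertex map with values in vertices. -/
noncomputable def pt (a : Ω → Ω') : Ω → (Ω' →₀ ZMod 2) := fun u => single (a u) 1

lemma F_single (f : Ω → (Ω' →₀ ZMod 2)) (k : ℕ) (u : Fin k → Ω) :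
    F f k (single u 1) = Fu f k u := by
  simp [F]

lemma F_cons (f : Ω → (Ω' →₀ ZMod 2)) (k : ℕ) (a : Ω) (w : C Ω k) :
    F f (k + 1) (cons k (single a 1) w) = cons k (f a) (F f k w) := by
  induction w using ind1 with
  | zero => simp
  | add v w hv hw => simp [map_add, hv, hw]
  | single u =>
    rw [cons_single, F_single, F_single, Fu]
    simp [Fin.tail_cons]

lemma Fu_pt : ∀ (k : ℕ) (a : Ω → Ω') (u : Fin k → Ω), Fu (pt a) k u = single (a ∘ u) 1
  | 0, a, u => by
    rw [Fu]
    congr 1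
    funext i
    exact i.elim0
  | k + 1, a, u => by
    rw [Fu, Fu_pt k, pt, cons_single]
    congr 1
    funext i
    induction i using Fin.cases with
    | zero => simp
    | succ i => simp [Fin.tail]

lemma F_pt (a : Ω → Ω') (k : ℕ) :
    F (pt a) k = Finsupp.lmapDomain (ZMod 2) (ZMod 2) fun u : Fin k → Ω => a ∘ u := by
  refine Finsupp.lhom_ext' fun u => LinearMap.ext_ring ?_
  simp [F_single, Fu_pt]

lemma F_id (k : ℕ) (z : C Ω k) : F (pt (id : Ω → Ω)) k z = z := by
  rw [F_pt, Finsupp.lmapDomain_apply]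
  exact Finsupp.mapDomain_id

lemma D_Fu {f : Ω → (Ω' →₀ ZMod 2)} (he : ∀ u, eps Ω' (f u) = 1) :
    ∀ (k : ℕ) (u : Fin (k + 1) → Ω), D Ω' k (Fu f (k + 1) u) = F f k (D Ω k (single u 1))
  | k, u => by
    rw [Fu]
    conv_rhs => rw [← cons_tail u]
    cases k with
    | zero => rw [D_cons_zero, D_cons_zero, he, one_smul, map_smul, F_single]; simp [eps]
    | succ k =>
      rw [D_cons, D_cons, he, one_smul, map_add, map_smul, F_single, F_cons, D_Fu he k]
      simp [eps]

lemma D_F {f : Ω → (Ω' →₀ ZMod 2)} (he : ∀ u, eps Ω' (f u) = 1) (k : ℕ) (w : C Ω (k + 1)) :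
    D Ω' k (F f (k + 1) w) = F f k (D Ω k w) := by
  induction w using ind1 with
  | zero => simp
  | add v w hv hw => simp [map_add, hv, hw]
  | single u =>
    rw [F_single, D_Fu he]

lemma Fu_congr {f g : Ω → (Ω' →₀ ZMod 2)} :
    ∀ (k : ℕ) (u : Fin k → Ω), (∀ i, f (u i) = g (u i)) → Fu f k u = Fu g k u
  | 0, _, _ => rfl
  | k + 1, u, h => by
    rw [Fu, Fu, h 0, Fu_congr k (Fin.tail u) fun i => h i.succ]

lemma F_congr {f g : Ω → (Ω' →₀ ZMod 2)} (k : ℕ) (z : C Ω k)
    (h : ∀ u ∈ z.support, ∀ i, f (u i) = g (u i)) : F f k z = F g k z := by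
  simp only [F, Finsupp.linearCombination_apply]
  exact Finsupp.sum_congr fun u hu => by rw [Fu_congr k u (h u hu)]

lemma F_F_pt {Ω'' : Type} (a : Ω → Ω'') (f : Ω'' → (Ω' →₀ ZMod 2)) (k : ℕ) (z : C Ω k) :
    F f k (F (pt a) k z) = F (f ∘ a) k z := by
  induction z using ind1 with
  | zero => simp
  | add v w hv hw => simp [map_add, hv, hw]
  | single u =>
    simp only [F_single, Fu_pt]
    induction k with
    | zero => rfl
    | succ k ih => rw [Fu, Fu, ← ih (Fin.tail u)]; rfl

/-- The homotopy between two vertex maps. -/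
noncomputable def Pu (f g : Ω → (Ω' →₀ ZMod 2)) : ∀ k, (Fin k → Ω) → C Ω' (k + 1)
  | 0, _ => 0
  | k + 1, u => cons (k + 1) (f (u 0)) (cons k (g (u 0)) (Fu g k (Fin.tail u)))
      + cons (k + 1) (f (u 0)) (Pu f g k (Fin.tail u))

/-- The homotopy as a linear map. -/
noncomputable def P (f g : Ω → (Ω' →₀ ZMod 2)) (k : ℕ) : C Ω k →ₗ[ZMod 2] C Ω' (k + 1) :=
  Finsupp.linearCombination (ZMod 2) (Pu f g k)

lemma P_single (f g : Ω → (Ω' →₀ ZMod 2)) (k : ℕ) (u : Fin k → Ω) :
    P f g k (single u 1) = Pu f g k u := by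
  simp [P]

lemma P_cons (f g : Ω → (Ω' →₀ ZMod 2)) (k : ℕ) (a : Ω) (w : C Ω k) :
    P f g (k + 1) (cons k (single a 1) w)
      = cons (k + 1) (f a) (cons k (g a) (F g k w)) + cons (k + 1) (f a) (P f g k w) := by
  induction w using ind1 with
  | zero => simp
  | add v w hv hw => simp only [map_add, hv, hw]; abel
  | single u =>
    rw [cons_single, P_single, P_single, F_single, Pu]
    simp [Fin.tail_cons]

lemma D_Pu {f g : Ω → (Ω' →₀ ZMod 2)} (hf : ∀ u, eps Ω' (f u) = 1)
    (hg : ∀ u, eps Ω' (g u) = 1) :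
    ∀ (k : ℕ) (u : Fin (k + 1) → Ω), D Ω' (k + 1) (Pu f g (k + 1) u)
      = Fu f (k + 1) u + Fu g (k + 1) u + P f g k (D Ω k (single u 1))
  | 0, u => by
    rw [Pu, Pu, map_zero, add_zero, D_cons, hf, one_smul, D_cons_zero, hg, one_smul,
      show P f g 0 = 0 from Finsupp.lhom_ext' fun v => LinearMap.ext_ring (by simp [P_single, Pu]),
      LinearMap.zero_apply, add_zero,
      show Fu f (0 + 1) u = cons 0 (f (u 0)) (Fu f 0 (Fin.tail u)) from rfl,
      show Fu g (0 + 1) u = cons 0 (g (u 0)) (Fu g 0 (Fin.tail u)) from rfl]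
    simp only [Fu]
    abel
  | k + 1, u => by
    conv_rhs => rw [← cons_tail u]
    rw [Pu, map_add, D_cons, D_cons, D_cons, D_cons (k := k) (w := single (Fin.tail u) 1),
      hf, hg, one_smul, one_smul, D_Pu hf hg k]
    have he : eps Ω (single (u 0) (1 : ZMod 2)) = 1 := by simp [eps]
    rw [he, one_smul]
    simp only [map_add, P_cons, P_single, one_smul, ← D_Fu hg]
    rw [show Fu f (k + 2) u = cons (k + 1) (f (u 0)) (Fu f (k + 1) (Fin.tail u)) from rfl,
      show Fu g (k + 2) u = cons (k + 1) (g (u 0)) (Fu g (k + 1) (Fin.tail u)) from rfl]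
    abel_nf
    simp only [two_nsmul, two_zsmul, two_smul, add_self, zero_add, add_zero]

section Group

variable {G G' : Type} [Group G] [Group G']

/-- Left translation of chains. -/
noncomputable def tr (g : G) (k : ℕ) : C G k →ₗ[ZMod 2] C G k :=
  Finsupp.lmapDomain (ZMod 2) (ZMod 2) fun u => (g * ·) ∘ u

lemma tr_eq_F (g : G) (k : ℕ) : tr g k = F (pt (g * ·)) k := (F_pt _ k).symm

lemma tr_single (g : G) (k : ℕ) (u : Fin k → G) :
    tr g k (single u 1) = single ((g * ·) ∘ u) 1 := by
  simp [tr]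

lemma tr_tr (g h : G) (k : ℕ) (z : C G k) : tr g k (tr h k z) = tr (g * h) k z := by
  simp only [tr, Finsupp.lmapDomain_apply, ← Finsupp.mapDomain_comp]
  congr 1
  funext u i
  simp [mul_assoc]

lemma tr_one (k : ℕ) (z : C G k) : tr 1 k z = z := by
  rw [tr_eq_F, show ((1 : G) * ·) = id from funext one_mul, F_id]

/-- The projection to the orbit complex. -/
noncomputable def q (H : Subgroup G) (k : ℕ) :
    C G k →ₗ[ZMod 2] (SS.quot ((SS.tupAct G).restrict H)).Ch k :=
  Finsupp.lmapDomain (ZMod 2) (ZMod 2) (Quotient.mk ((((SS.tupAct G).restrict H)).setoid k))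

lemma q_single (H : Subgroup G) (k : ℕ) (u : Fin k → G) :
    q H k (single u 1) = single (Quotient.mk (((SS.tupAct G).restrict H).setoid k) u) 1 :=
  Finsupp.mapDomain_single

lemma q_smul_single {H : Subgroup G} {h : G} (hh : h ∈ H) (k : ℕ) (u : Fin k → G) :
    q H k (single ((h * ·) ∘ u) 1) = q H k (single u 1) := by
  rw [q_single, q_single]
  refine congrArg (fun x => single x (1 : ZMod 2)) (Quotient.sound ?_).symm
  exact ⟨⟨h, hh⟩, rfl⟩

lemma q_tr {H : Subgroup G} {h : G} (hh : h ∈ H) (k : ℕ) (z : C G k) :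
    q H k (tr h k z) = q H k z := by
  induction z using ind1 with
  | zero => simp
  | add v w hv hw => simp [map_add, hv, hw]
  | single u =>
    rw [tr_single, q_smul_single hh]

lemma q_surj (H : Subgroup G) (k : ℕ) : Function.Surjective (q H k) :=
  Finsupp.mapDomain_surjective Quotient.mk_surjective

lemma q_D (H : Subgroup G) (k : ℕ) (w : C G (k + 1)) :
    (SS.quot ((SS.tupAct G).restrict H)).bd k (q H (k + 1) w) = q H k (D G k w) := by
  induction w using ind1 with
  | zero => simp
  | add v w hv hw => simp [map_add, hv, hw]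
  | single u =>
    simp only [q_single, D_single, map_sum]
    unfold SS.bd
    erw [Finsupp.linearCombination_single, one_smul]
    rfl

lemma fac {H : Subgroup G} {M : Type*} [AddCommGroup M] [Module (ZMod 2) M] {k : ℕ}
    (L : C G k →ₗ[ZMod 2] M)
    (hL : ∀ h ∈ H, ∀ u, L (single ((h * ·) ∘ u) 1) = L (single u 1))
    {x : C G k} (hx : q H k x = 0) : L x = 0 := by
  let L' : (SS.quot ((SS.tupAct G).restrict H)).Ch k →ₗ[ZMod 2] M :=
    Finsupp.linearCombination (ZMod 2)
      (Quotient.lift (fun u : Fin k → G => L (single u 1))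
        (fun u v ⟨h, hh⟩ => by rw [← hh]; exact (hL h.1 h.2 u).symm))
  have : L = L'.comp (q H k) := Finsupp.lhom_ext' fun u => LinearMap.ext_ring (by
    simp only [LinearMap.comp_apply, Finsupp.lsingle_apply, q_single, L']
    erw [Finsupp.linearCombination_single, one_smul]
    rfl)
  rw [this, LinearMap.comp_apply, hx, map_zero]

/-- Cycles for `H`. -/
def IsZ (H : Subgroup G) : ∀ k, C G k → Prop
  | 0, _ => True
  | k + 1, z => q H k (D G k z) = 0

/-- Boundaries for `H`. -/
def IsB (H : Subgroup G) (k : ℕ) (z : C G k) : Prop :=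
  ∃ w : C G (k + 1), q H k (z + D G k w) = 0

lemma IsZ.add {H : Subgroup G} : ∀ {k} {z z' : C G k}, IsZ H k z → IsZ H k z' →
    IsZ H k (z + z')
  | 0, _, _, _, _ => trivial
  | k + 1, z, z', h, h' => by
    rw [IsZ] at *
    rw [map_add, map_add, h, h', add_zero]

lemma IsB.zero (H : Subgroup G) (k : ℕ) : IsB H k 0 := ⟨0, by simp⟩

lemma IsB.of_q {H : Subgroup G} {k : ℕ} {z : C G k} (h : q H k z = 0) : IsB H k z :=
  ⟨0, by simpa using h⟩

lemma IsB.add {H : Subgroup G} {k : ℕ} {z z' : C G k} (h : IsB H k z) (h' : IsB H k z') :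
    IsB H k (z + z') := by
  obtain ⟨w, hw⟩ := h
  obtain ⟨w', hw'⟩ := h'
  refine ⟨w + w', ?_⟩
  rw [map_add (D G k), show z + z' + (D G k w + D G k w') = z + D G k w + (z' + D G k w') by abel,
    map_add, hw, hw', add_zero]

lemma IsB.trans {H : Subgroup G} {k : ℕ} {a b c : C G k} (h : IsB H k (a + b))
    (h' : IsB H k (b + c)) : IsB H k (a + c) := by
  have := h.add h'
  rwa [show a + b + (b + c) = a + c + (b + b) by abel, add_self, add_zero] at this

lemma IsB.of_add {H : Subgroup G} {k : ℕ} {a b : C G k} (h : IsB H k (a + b))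
    (h' : IsB H k b) : IsB H k a := by
  have := h.add h'
  rwa [add_assoc, add_self, add_zero] at this

lemma IsB.symm {H : Subgroup G} {k : ℕ} {a b : C G k} (h : IsB H k (a + b)) :
    IsB H k (b + a) := by
  rwa [add_comm]

lemma isB_of_acyclic {H : Subgroup G} {n k : ℕ} (h : SS.GroupAcyclic H n) (hk : k ≤ n)
    {z : C G k} (hz : IsZ H k z) : IsB H k z := by
  obtain ⟨w, hw⟩ := h k hk (q H k z) (by
    cases k with
    | zero => trivial
    | succ k =>
      change (SS.quot ((SS.tupAct G).restrict H)).bd k (q H (k + 1) z) = 0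
      rw [q_D]
      exact hz)
  obtain ⟨w, rfl⟩ := q_surj H (k + 1) w
  refine ⟨w, ?_⟩
  rw [map_add, ← q_D, hw, add_self]

lemma acyclic_of_isB {H : Subgroup G} {n : ℕ}
    (h : ∀ k ≤ n, ∀ z : C G k, IsZ H k z → IsB H k z) : SS.GroupAcyclic H n := by
  intro k hk z hz
  obtain ⟨z, rfl⟩ := q_surj H k z
  obtain ⟨w, hw⟩ := h k hk z (by
    cases k with
    | zero => trivial
    | succ k =>
      change (SS.quot ((SS.tupAct G).restrict H)).bd k (q H (k + 1) z) = 0 at hz
      rw [q_D] at hz
      exact hz)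
  refine ⟨q H (k + 1) w, ?_⟩
  rw [q_D]
  rw [map_add] at hw
  exact (eq_of_add hw).symm

lemma acyclic_mono {H : Subgroup G} {n n' : ℕ} (h : SS.GroupAcyclic H n) (hn : n' ≤ n) :
    SS.GroupAcyclic H n' :=
  fun k hk => h k (hk.trans hn)

/-- A vertex map of weight one which is equivariant along `φ`. -/
structure Tw (H : Subgroup G) (H' : Subgroup G') (φ : G → G') (f : G → (G' →₀ ZMod 2)) :
    Prop where
  eps_eq : ∀ u, eps G' (f u) = 1
  mem : ∀ h ∈ H, φ h ∈ H'
  eqv : ∀ h ∈ H, ∀ u, f (h * u) = Finsupp.mapDomain (φ h * ·) (f u)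

lemma Tw.pt {H : Subgroup G} {H' : Subgroup G'} {φ : G → G'} {a : G → G'}
    (hmem : ∀ h ∈ H, φ h ∈ H') (heq : ∀ h ∈ H, ∀ u, a (h * u) = φ h * a u) :
    Tw H H' φ (Stab.pt a) where
  eps_eq u := by simp [Stab.pt, eps]
  mem := hmem
  eqv h hh u := by simp [Stab.pt, heq h hh u]

lemma cons_tr (g : G) (k : ℕ) (x : G →₀ ZMod 2) (w : C G k) :
    cons k (Finsupp.mapDomain (g * ·) x) (tr g k w) = tr g (k + 1) (cons k x w) := by
  induction x using ind1 with
  | zero => simp
  | add x y hx hy => simp [Finsupp.mapDomain_add, map_add, hx, hy]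
  | single a =>
    induction w using ind1 with
    | zero => simp
    | add v w hv hw => simp only [map_add, hv, hw]
    | single u =>
      rw [Finsupp.mapDomain_single, cons_single, tr_single, tr_single, cons_single]
      congr 1
      funext i
      induction i using Fin.cases with
      | zero => simp
      | succ i => simp

lemma Tw.Fu_smul {H : Subgroup G} {H' : Subgroup G'} {φ : G → G'} {f : G → (G' →₀ ZMod 2)}
    (hf : Tw H H' φ f) {h : G} (hh : h ∈ H) :
    ∀ (k : ℕ) (u : Fin k → G), Fu f k ((h * ·) ∘ u) = tr (φ h) k (Fu f k u)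
  | 0, u => by
    rw [Fu, Fu, tr_single]
    congr 1
    funext i
    exact i.elim0
  | k + 1, u => by
    rw [Fu, Fu, Function.comp_apply, hf.eqv h hh, ← cons_tr]
    congr 1
    exact Tw.Fu_smul hf hh k (Fin.tail u)

lemma Tw.Pu_smul {H : Subgroup G} {H' : Subgroup G'} {φ : G → G'}
    {f g : G → (G' →₀ ZMod 2)} (hf : Tw H H' φ f) (hg : Tw H H' φ g) {h : G} (hh : h ∈ H) :
    ∀ (k : ℕ) (u : Fin k → G), Pu f g k ((h * ·) ∘ u) = tr (φ h) (k + 1) (Pu f g k u)
  | 0, u => by simp [Pu]
  | k + 1, u => by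
    rw [Pu, Pu, Function.comp_apply, hf.eqv h hh, hg.eqv h hh, map_add, ← cons_tr, ← cons_tr,
      ← cons_tr, ← Tw.Fu_smul hg hh k, ← Tw.Pu_smul hf hg hh k]
    rfl

lemma Tw.q_F {H : Subgroup G} {H' : Subgroup G'} {φ : G → G'} {f : G → (G' →₀ ZMod 2)}
    (hf : Tw H H' φ f) {k : ℕ} {x : C G k} (hx : q H k x = 0) : q H' k (F f k x) = 0 := by
  refine fac ((q H' k).comp (F f k)) (fun h hh u => ?_) hx
  simp only [LinearMap.comp_apply, F_single, hf.Fu_smul hh, q_tr (hf.mem h hh)]

lemma Tw.isZ {H : Subgroup G} {H' : Subgroup G'} {φ : G → G'} {f : G → (G' →₀ ZMod 2)}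
    (hf : Tw H H' φ f) : ∀ {k} {z : C G k}, IsZ H k z → IsZ H' k (F f k z)
  | 0, _, _ => trivial
  | k + 1, z, hz => by
    change q H' k (D G' k (F f (k + 1) z)) = 0
    rw [D_F hf.eps_eq]
    exact hf.q_F hz

lemma Tw.isB {H : Subgroup G} {H' : Subgroup G'} {φ : G → G'} {f : G → (G' →₀ ZMod 2)}
    (hf : Tw H H' φ f) {k : ℕ} {z : C G k} (hz : IsB H k z) : IsB H' k (F f k z) := by
  obtain ⟨w, hw⟩ := hz
  refine ⟨F f (k + 1) w, ?_⟩
  rw [D_F hf.eps_eq, ← map_add (F f k)]
  exact hf.q_F hw

/-- Equivariant vertex maps are homotopic. -/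
lemma Tw.homot {H : Subgroup G} {H' : Subgroup G'} {φ : G → G'}
    {f g : G → (G' →₀ ZMod 2)} (hf : Tw H H' φ f) (hg : Tw H H' φ g) :
    ∀ {k} {z : C G k}, IsZ H k z → IsB H' k (F f k z + F g k z)
  | 0, z, _ => by
    refine IsB.of_q ?_
    have : F f 0 = F g 0 := rfl
    rw [this, add_self, map_zero]
  | k + 1, z, hz => by
    refine ⟨P f g (k + 1) z, ?_⟩
    have hD : D G' (k + 1) (P f g (k + 1) z)
        = F f (k + 1) z + F g (k + 1) z + P f g k (D G k z) := by
      clear hz
      induction z using ind1 with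
      | zero => simp
      | add v w hv hw => simp only [map_add, hv, hw]; abel
      | single u =>
        rw [P_single, F_single, F_single, D_Pu hf.eps_eq hg.eps_eq]
    rw [hD, ← add_assoc, add_self, zero_add]
    refine fac ((q H' (k + 1)).comp (P f g k)) (fun h hh u => ?_) hz
    simp only [LinearMap.comp_apply, P_single, Tw.Pu_smul hf hg hh, q_tr (hf.mem h hh)]

lemma Tw.id {H H' : Subgroup G} (hle : H ≤ H') :
    Tw H H' id (Stab.pt (_root_.id : G → G)) :=
  Tw.pt hle fun _ _ _ => rfl

lemma IsZ.mono {H H' : Subgroup G} (hle : H ≤ H') {k : ℕ} {z : C G k} (hz : IsZ H k z) :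
    IsZ H' k z := by
  simpa only [F_id] using (Tw.id hle).isZ hz

lemma IsB.mono {H H' : Subgroup G} (hle : H ≤ H') {k : ℕ} {z : C G k} (hz : IsB H k z) :
    IsB H' k z := by
  simpa only [F_id] using (Tw.id hle).isB hz

lemma Tw.left {H H' : Subgroup G} {g : G} (hc : ∀ h ∈ H, g * h * g⁻¹ ∈ H') :
    Tw H H' (fun h => g * h * g⁻¹) (Stab.pt (g * ·)) :=
  Tw.pt hc fun h _ u => by group

open Classical in
/-- An equivariant retraction of the group onto a subgroup. -/
noncomputable def rho (H : Subgroup G) (g : G) : G :=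
  if g ∈ H then g else g * (Quotient.out (Quotient.mk (QuotientGroup.rightRel H) g))⁻¹

lemma rho_mem (H : Subgroup G) (g : G) : rho H g ∈ H := by
  rw [rho]
  split_ifs with h
  · exact h
  · exact QuotientGroup.rightRel_apply.1 (Quotient.mk_out (s := QuotientGroup.rightRel H) g)

lemma rho_of_mem {H : Subgroup G} {g : G} (h : g ∈ H) : rho H g = g := if_pos h

lemma rho_mul {H : Subgroup G} {h : G} (hh : h ∈ H) (g : G) : rho H (h * g) = h * rho H g := by
  by_cases hg : g ∈ H
  · rw [rho_of_mem hg, rho_of_mem (H.mul_mem hh hg)]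
  · have hhg : h * g ∉ H := fun h' => hg (by simpa using H.mul_mem (H.inv_mem hh) h')
    have : Quotient.mk (QuotientGroup.rightRel H) (h * g)
        = Quotient.mk (QuotientGroup.rightRel H) g := by
      refine Quotient.sound ?_
      change (QuotientGroup.rightRel H).r (h * g) g
      rw [QuotientGroup.rightRel_apply]
      simpa using H.inv_mem hh
    rw [rho, rho, if_neg hg, if_neg hhg, this, mul_assoc]

/-- A retraction of `A` onto `B` with locally finite kernel of odd order. -/
structure Ret (A B : Subgroup G) (e : G → G) : Prop where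
  le : B ≤ A
  mem : ∀ a ∈ A, e a ∈ B
  mul : ∀ a ∈ A, ∀ b ∈ A, e (a * b) = e a * e b
  fix : ∀ b ∈ B, e b = b
  fin : ∀ s : Finset G, (∀ g ∈ s, g ∈ A ∧ e g = 1) →
    ∃ K : Subgroup G, (∀ g ∈ s, g ∈ K) ∧ (K : Set G).Finite ∧ Odd (Nat.card K)

open Classical in
theorem Ret.main {A B : Subgroup G} {e : G → G} (hr : Ret A B e) {k : ℕ} {z : C G k}
    (hz : IsZ A k z) :
    IsZ B k (F (pt fun u => e (rho A u)) k z) ∧
      IsB A k (z + F (pt fun u => e (rho A u)) k z) := by
  have htw : Tw A B e (pt fun u => e (rho A u)) :=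
    Tw.pt hr.mem fun h hh u => by rw [rho_mul hh, hr.mul h hh _ (rho_mem A u)]
  have hy := htw.isZ hz
  refine ⟨hy, ?_⟩
  set V : Finset G := z.support.biUnion fun u => Finset.univ.image u
  obtain ⟨K, hK, hfin, hodd⟩ :=
    hr.fin (V.image fun v => (rho A v)⁻¹ * e (rho A v)) (by
      intro g hg
      obtain ⟨v, -, rfl⟩ := Finset.mem_image.1 hg
      have h1 := rho_mem A v
      have h2 : e (rho A v) ∈ A := hr.le (hr.mem _ h1)
      refine ⟨A.mul_mem (A.inv_mem h1) h2, ?_⟩
      rw [hr.mul _ (A.inv_mem h1) _ h2, hr.fix _ (hr.mem _ h1),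
        ← hr.mul _ (A.inv_mem h1) _ h1, inv_mul_cancel, hr.fix 1 B.one_mem])
  have : Fintype K := hfin.fintype
  let f : G → (G →₀ ZMod 2) := fun v => ∑ κ : K, single (v * (κ : G)) 1
  have hf0 : ∀ v, eps G (f v) = 1 := by
    intro v
    have h1 : ((Fintype.card K : ℕ) : ZMod 2) = 1 := by
      rw [Nat.card_eq_fintype_card] at hodd
      obtain ⟨j, hj⟩ := hodd
      rw [hj, Nat.cast_add, Nat.cast_mul, show ((2 : ℕ) : ZMod 2) = 0 from rfl]
      simp
    simpa [f, eps, map_sum] using h1
  have hf : Tw A A _root_.id f :=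
    ⟨hf0, fun _ h => h, fun h _ v => by simp [f, Finsupp.mapDomain_finsetSum, mul_assoc]⟩
  have hf' : Tw A A _root_.id (f ∘ rho A) :=
    ⟨fun v => hf0 _, fun _ h => h, fun h hh v => by
      simp only [Function.comp_apply, rho_mul hh]
      exact hf.eqv h hh _⟩
  have h1 := (Tw.id (le_refl A)).homot hf' hz
  rw [F_id] at h1
  have h2 := (Tw.id (le_refl A)).homot hf (hy.mono hr.le)
  rw [F_id] at h2
  have h3 : F (f ∘ rho A) k z = F f k (F (pt fun u => e (rho A u)) k z) := by
    rw [F_F_pt]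
    refine F_congr k z fun u hu i => ?_
    have hκ : (rho A (u i))⁻¹ * e (rho A (u i)) ∈ K :=
      hK _ (Finset.mem_image_of_mem _
        (Finset.mem_biUnion.2 ⟨u, hu, Finset.mem_image_of_mem _ (Finset.mem_univ i)⟩))
    refine (Fintype.sum_equiv (Equiv.mulLeft (⟨_, hκ⟩ : K)) _ _ fun κ => ?_).symm
    simp [← mul_assoc]
  rw [h3] at h1
  exact h1.trans h2.symm

/-- A retraction with locally finite odd kernel preserves vanishing. -/
theorem Ret.acyclic {A B : Subgroup G} {e : G → G} (hr : Ret A B e) {n : ℕ}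
    (h : SS.GroupAcyclic B n) : SS.GroupAcyclic A n := by
  refine acyclic_of_isB fun k hk z hz => ?_
  obtain ⟨h1, h2⟩ := hr.main hz
  exact h2.of_add ((isB_of_acyclic h hk h1).mono hr.le)

/-- Elements which normalise up to the retraction fix the classes of the small group. -/
theorem Ret.fixes {A B N : Subgroup G} {e : G → G} (hr : Ret A B e) (hA : A ≤ N) {x : G}
    (hx : ∀ b ∈ B, x * b * x⁻¹ ∈ A ∧ e (x * b * x⁻¹) = b) {k : ℕ} {z : C G k}
    (hz : IsZ B k z) : IsB N k (tr x k z + z) := by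
  have ht := Tw.left (H' := A) (fun b hb => (hx b hb).1)
  have ha : Tw B A (fun b => x * b * x⁻¹) (pt fun u => x * rho B u * x⁻¹) :=
    Tw.pt (fun b hb => (hx b hb).1) fun h hh u => by rw [rho_mul hh]; group
  have h1 := ht.homot ha hz
  rw [← tr_eq_F] at h1
  obtain ⟨-, h2⟩ := hr.main (ha.isZ hz)
  have h3 : F (pt fun u => e (rho A u)) k (F (pt fun u => x * rho B u * x⁻¹) k z)
      = F (pt (rho B)) k z := by
    rw [F_F_pt]
    refine F_congr k z fun u _ i => ?_
    obtain ⟨ha1, ha2⟩ := hx _ (rho_mem B (u i))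
    simp [pt, rho_of_mem ha1, ha2]
  rw [h3] at h2
  have hρ : Tw B B _root_.id (pt (rho B)) := Tw.pt (fun _ h => h) fun h hh u => rho_mul hh u
  have h4 := hρ.homot (Tw.id (le_refl B)) hz
  rw [F_id] at h4
  exact ((h1.trans h2).trans (h4.mono hr.le)).mono hA

/-- Vanishing is invariant under injective homomorphisms. -/
theorem acyclic_map (ι : G' →* G) (hι : Function.Injective ι) {H : Subgroup G'} {n : ℕ}
    (h : SS.GroupAcyclic H n) : SS.GroupAcyclic (H.map ι) n := by
  refine acyclic_of_isB fun k hk z hz => ?_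
  let a : G → G' := fun g => Function.invFun ι (rho (H.map ι) g)
  have hl := Function.leftInverse_invFun hι
  have ha : Tw (H.map ι) H (Function.invFun ι) (pt a) := by
    refine Tw.pt (fun g hg => ?_) fun g hg u => ?_
    · obtain ⟨g, hg', rfl⟩ := Subgroup.mem_map.1 hg
      rwa [hl]
    · obtain ⟨g, hg', rfl⟩ := Subgroup.mem_map.1 hg
      obtain ⟨v, -, hv⟩ := Subgroup.mem_map.1 (rho_mem (H.map ι) u)
      simp only [a, rho_mul (Subgroup.mem_map_of_mem ι hg'), ← hv, ← map_mul, hl _]
  have hb : Tw H (H.map ι) ι (pt ι) :=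
    Tw.pt (fun g hg => Subgroup.mem_map_of_mem ι hg) fun g _ u => map_mul ι g u
  have h1 := hb.isB (isB_of_acyclic h hk (ha.isZ hz))
  have h2 : F (pt ι) k (F (pt a) k z) = F (pt (rho (H.map ι))) k z := by
    rw [F_F_pt]
    refine F_congr k z fun u _ i => ?_
    obtain ⟨v, -, hv⟩ := Subgroup.mem_map.1 (rho_mem (H.map ι) (u i))
    simp only [pt, a, Function.comp_apply, ← hv, hl _]
  have hρ : Tw (H.map ι) (H.map ι) _root_.id (pt (rho (H.map ι))) :=
    Tw.pt (fun _ h => h) fun h hh u => rho_mul hh u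
  have h3 := (Tw.id (le_refl (H.map ι))).homot hρ hz
  rw [F_id, ← h2] at h3
  exact h3.of_add h1

/-- Transfer: vanishing passes to a normal subgroup of odd index acted on trivially. -/
theorem acyclic_of_trivial {H N : Subgroup G} [N.Normal] [Finite (H ⧸ N.subgroupOf H)]
    (hle : N ≤ H) (hodd : Odd (Nat.card (H ⧸ N.subgroupOf H))) {n : ℕ}
    (h : SS.GroupAcyclic H n)
    (htriv : ∀ g ∈ H, ∀ k ≤ n, ∀ z : C G k, IsZ N k z → IsB N k (tr g k z + z)) :
    SS.GroupAcyclic N n := by
  have : Fintype (H ⧸ N.subgroupOf H) := Fintype.ofFinite _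
  refine acyclic_of_isB fun k hk z hz => ?_
  obtain ⟨w, hw⟩ := isB_of_acyclic h hk (hz.mono hle)
  let T : ∀ j, C G j →ₗ[ZMod 2] C G j := fun j =>
    ∑ c : H ⧸ N.subgroupOf H, tr ((Quotient.out c : H) : G) j
  have hDT : D G k (T (k + 1) w) = T k (D G k w) := by
    simp only [T, LinearMap.sum_apply, map_sum, tr_eq_F]
    refine Finset.sum_congr rfl fun c _ => D_F (fun u => by simp [pt, eps]) k w
  have hB : IsB N k (T k z) := by
    refine ⟨T (k + 1) w, ?_⟩
    rw [hDT, ← map_add (T k)]
    refine fac ((q N k).comp (T k)) (fun g hg u => ?_) hw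
    simp only [T, LinearMap.comp_apply, LinearMap.sum_apply, map_sum, tr_single]
    refine Fintype.sum_equiv (Equiv.mulRight (QuotientGroup.mk (⟨g, hg⟩ : H))) _ _ fun c => ?_
    set o : H := Quotient.out c
    set o' : H := Quotient.out (Equiv.mulRight (QuotientGroup.mk (⟨g, hg⟩ : H)) c)
    have ho : QuotientGroup.mk (o * ⟨g, hg⟩) = (QuotientGroup.mk o' : H ⧸ N.subgroupOf H) := by
      rw [QuotientGroup.mk_mul]
      simp [o, o']
    have hn : ((o * ⟨g, hg⟩ : H) : G) * ((o' : H) : G)⁻¹ ∈ N := by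
      have := QuotientGroup.eq.1 ho.symm
      rw [Subgroup.mem_subgroupOf] at this
      simp only [Subgroup.coe_mul, InvMemClass.coe_inv] at this ⊢
      exact (Subgroup.Normal.mem_comm inferInstance this)
    rw [← q_smul_single hn k (((o' : G) * ·) ∘ u)]
    congr 2
    funext i
    simp [mul_assoc, o, o']
  have hsum : IsB N k (∑ c : H ⧸ N.subgroupOf H, (tr ((Quotient.out c : H) : G) k z + z)) := by
    refine Finset.sum_induction _ _ (fun _ _ => IsB.add) (IsB.zero N k) fun c _ => ?_
    exact htriv _ (Quotient.out c : H).2 k hk z hz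
  rw [Finset.sum_add_distrib, Finset.sum_const, Finset.card_univ, ← Nat.card_eq_fintype_card,
    ← Nat.cast_smul_eq_nsmul (ZMod 2)] at hsum
  obtain ⟨j, hj⟩ := hodd
  have h1 : ((Nat.card (H ⧸ N.subgroupOf H) : ℕ) : ZMod 2) = 1 := by
    rw [hj, Nat.cast_add, Nat.cast_mul, show ((2 : ℕ) : ZMod 2) = 0 from rfl]
    simp
  rw [h1, one_smul] at hsum
  simp only [T, LinearMap.sum_apply] at hB
  exact hsum.symm.of_add hB

end Group

end Vale.Agent.P067.Full.Stab
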