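import Vale.Agent.P067.Full.StabChains

/-!
Chains on pairs (tuple of group elements, tuple of points of a `G`-set), modulo a subgroup `N`.
The zigzag of the double complex shows that every class of `N` is a sum of classes of stabilisers
of points, provided stabilisers of at least two points are acyclic one degree lower and generic
cone points exist. So if each of these classes is fixed by translations, all classes of `N` are.
-/

namespace Vale.Agent.P067.Full.Stab

open Finsupp

variable {G : Type} [Group G] {Ω : Type} [MulAction G Ω]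

lemma exists_mem_support {α β : Type*} (f : α → (β →₀ ZMod 2)) (x : α →₀ ZMod 2) {b : β}
    (hb : b ∈ (Finsupp.linearCombination (ZMod 2) f x).support) :
    ∃ u ∈ x.support, b ∈ (f u).support := by
  classical
  rw [Finsupp.linearCombination_apply] at hb
  obtain ⟨u, hu, hb⟩ := Finset.mem_biUnion.1 (Finsupp.support_sum hb)
  exact ⟨u, hu, Finsupp.support_smul hb⟩

lemma lin_eq_on {α M : Type*} [AddCommGroup M] [Module (ZMod 2) M]
    (L L' : (α →₀ ZMod 2) →ₗ[ZMod 2] M) (x : α →₀ ZMod 2)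
    (h : ∀ u ∈ x.support, L (single u 1) = L' (single u 1)) : L x = L' x := by
  conv_lhs => rw [← Finsupp.sum_single x]
  conv_rhs => rw [← Finsupp.sum_single x]
  rw [map_finsuppSum, map_finsuppSum]
  refine Finsupp.sum_congr fun u hu => ?_
  rw [show single u (x u) = x u • single u (1 : ZMod 2) by simp, map_smul, map_smul, h u hu]

/-- Cells of the double complex. -/
abbrev Cell (G Ω : Type) (a b : ℕ) : Type := (Fin a → G) × (Fin b → Ω)

/-- Chains of the double complex. -/
abbrev E (G Ω : Type) (a b : ℕ) : Type := Cell G Ω a b →₀ ZMod 2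

variable (N : Subgroup G)

/-- The projection modulo `N`. -/
noncomputable def q2 (a b : ℕ) :
    E G Ω a b →ₗ[ZMod 2] (Quotient (MulAction.orbitRel N (Cell G Ω a b)) →₀ ZMod 2) :=
  Finsupp.lmapDomain (ZMod 2) (ZMod 2) (Quotient.mk (MulAction.orbitRel N (Cell G Ω a b)))

variable {N}

lemma q2_single (a b : ℕ) (x : Cell G Ω a b) :
    q2 N a b (single x 1) = single (Quotient.mk (MulAction.orbitRel N (Cell G Ω a b)) x) 1 :=
  Finsupp.mapDomain_single

lemma q2_smul {g : G} (hg : g ∈ N) {a b : ℕ} (x : Cell G Ω a b) :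
    q2 N a b (single (g • x) 1) = q2 N a b (single x 1) := by
  rw [q2_single, q2_single]
  refine congrArg (fun y => single y (1 : ZMod 2)) (Quotient.sound ?_)
  exact ⟨⟨g, hg⟩, rfl⟩

lemma fac2 {M : Type*} [AddCommGroup M] [Module (ZMod 2) M] {a b : ℕ}
    (L : E G Ω a b →ₗ[ZMod 2] M)
    (hL : ∀ g ∈ N, ∀ x : Cell G Ω a b, L (single (g • x) 1) = L (single x 1))
    {x : E G Ω a b} (hx : q2 N a b x = 0) : L x = 0 := by
  let L' : (Quotient (MulAction.orbitRel N (Cell G Ω a b)) →₀ ZMod 2) →ₗ[ZMod 2] M :=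
    Finsupp.linearCombination (ZMod 2)
      (Quotient.lift (fun u => L (single u 1))
        (fun u v ⟨g, hg⟩ => by rw [← hg]; exact hL g.1 g.2 v))
  have : L = L'.comp (q2 N a b) := Finsupp.lhom_ext' fun u => LinearMap.ext_ring (by
    simp only [LinearMap.comp_apply, Finsupp.lsingle_apply, q2_single, L']
    erw [Finsupp.linearCombination_single, one_smul]
    rfl)
  rw [this, LinearMap.comp_apply, hx, map_zero]

/-- Pairing with a fixed tuple of points. -/
noncomputable def ins (a : ℕ) {b : ℕ} (y : Fin b → Ω) : C G a →ₗ[ZMod 2] E G Ω a b :=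
  Finsupp.lmapDomain (ZMod 2) (ZMod 2) fun u => (u, y)

/-- Pairing with a fixed tuple of group elements. -/
noncomputable def insB {a : ℕ} (u : Fin a → G) (b : ℕ) : C Ω b →ₗ[ZMod 2] E G Ω a b :=
  Finsupp.lmapDomain (ZMod 2) (ZMod 2) fun y => (u, y)

omit [Group G] [MulAction G Ω] in
lemma ins_single (a : ℕ) {b : ℕ} (y : Fin b → Ω) (u : Fin a → G) :
    ins a y (single u 1) = single (u, y) 1 :=
  Finsupp.mapDomain_single

omit [Group G] [MulAction G Ω] in
lemma insB_single {a : ℕ} (u : Fin a → G) (b : ℕ) (y : Fin b → Ω) :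
    insB u b (single y 1) = single (u, y) 1 :=
  Finsupp.mapDomain_single

/-- The boundary in the group direction. -/
noncomputable def dA (a b : ℕ) : E G Ω (a + 1) b →ₗ[ZMod 2] E G Ω a b :=
  Finsupp.linearCombination (ZMod 2) fun x => ins a x.2 (D G a (single x.1 1))

/-- The boundary in the point direction. -/
noncomputable def dB (a b : ℕ) : E G Ω a (b + 1) →ₗ[ZMod 2] E G Ω a b :=
  Finsupp.linearCombination (ZMod 2) fun x => insB x.1 b (D Ω b (single x.2 1))

lemma dA_single {a b : ℕ} (u : Fin (a + 1) → G) (y : Fin b → Ω) :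
    dA a b (single (u, y) 1) = ∑ i : Fin (a + 1), single (u ∘ i.succAbove, y) 1 := by
  simp [dA, D_single, map_sum, ins_single]

lemma dB_single {a b : ℕ} (u : Fin a → G) (y : Fin (b + 1) → Ω) :
    dB a b (single (u, y) 1) = ∑ i : Fin (b + 1), single (u, y ∘ i.succAbove) 1 := by
  simp [dB, D_single, map_sum, insB_single]

lemma dA_ins {a b : ℕ} (y : Fin b → Ω) (z : C G (a + 1)) :
    dA a b (ins (a + 1) y z) = ins a y (D G a z) := by
  induction z using ind1 with
  | zero => simp
  | add x y hx hy => simp [map_add, hx, hy]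
  | single u => simp [ins_single, dA_single, D_single, map_sum]

lemma dB_insB {a b : ℕ} (u : Fin a → G) (z : C Ω (b + 1)) :
    dB a b (insB u (b + 1) z) = insB u b (D Ω b z) := by
  induction z using ind1 with
  | zero => simp
  | add x y hx hy => simp [map_add, hx, hy]
  | single y => simp [insB_single, dB_single, D_single, map_sum]

lemma dA_dA {a b : ℕ} (x : E G Ω (a + 2) b) : dA a b (dA (a + 1) b x) = 0 := by
  induction x using ind1 with
  | zero => simp
  | add x y hx hy => simp [map_add, hx, hy]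
  | single u =>
    obtain ⟨u, y⟩ := u
    rw [← ins_single (a + 2) y u, dA_ins, dA_ins, D_D, map_zero]

lemma dB_dB {a b : ℕ} (x : E G Ω a (b + 2)) : dB a b (dB a (b + 1) x) = 0 := by
  induction x using ind1 with
  | zero => simp
  | add x y hx hy => simp [map_add, hx, hy]
  | single u =>
    obtain ⟨u, y⟩ := u
    rw [← insB_single u (b + 2) y, dB_insB, dB_insB, D_D, map_zero]

lemma dA_dB {a b : ℕ} (x : E G Ω (a + 1) (b + 1)) :
    dA a b (dB (a + 1) b x) = dB a b (dA a (b + 1) x) := by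
  induction x using ind1 with
  | zero => simp
  | add x y hx hy => simp [map_add, hx, hy]
  | single u =>
    obtain ⟨u, y⟩ := u
    simp only [dA_single, dB_single, map_sum]
    exact Finset.sum_comm

lemma q2_dA {a b : ℕ} {x : E G Ω (a + 1) b} (hx : q2 N (a + 1) b x = 0) :
    q2 N a b (dA a b x) = 0 := by
  refine fac2 ((q2 N a b).comp (dA a b)) (fun g hg x => ?_) hx
  obtain ⟨u, y⟩ := x
  simp only [LinearMap.comp_apply, Prod.smul_mk, dA_single, map_sum]
  refine Finset.sum_congr rfl fun i _ => ?_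
  exact q2_smul hg (u ∘ i.succAbove, y)

lemma q2_dB {a b : ℕ} {x : E G Ω a (b + 1)} (hx : q2 N a (b + 1) x = 0) :
    q2 N a b (dB a b x) = 0 := by
  refine fac2 ((q2 N a b).comp (dB a b)) (fun g hg x => ?_) hx
  obtain ⟨u, y⟩ := x
  simp only [LinearMap.comp_apply, Prod.smul_mk, dB_single, map_sum]
  refine Finset.sum_congr rfl fun i _ => ?_
  exact q2_smul hg (u, y ∘ i.succAbove)

lemma smul_snoc {b : ℕ} (g : G) (y : Fin b → Ω) (v : Ω) :
    g • (Fin.snoc y v : Fin (b + 1) → Ω) = Fin.snoc (g • y) (g • v) := by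
  funext i
  induction i using Fin.lastCases with
  | last => simp
  | cast i => simp

lemma snoc_comp_castSucc {b : ℕ} (y : Fin (b + 1) → Ω) (v : Ω) (i : Fin (b + 1)) :
    (Fin.snoc y v : Fin (b + 2) → Ω) ∘ (i.castSucc).succAbove
      = Fin.snoc (y ∘ i.succAbove) v := by
  funext j
  induction j using Fin.lastCases with
  | last => simp
  | cast j => simp [Fin.castSucc_succAbove_castSucc]

lemma snoc_comp_last {b : ℕ} (y : Fin b → Ω) (v : Ω) :
    (Fin.snoc y v : Fin (b + 1) → Ω) ∘ (Fin.last b).succAbove = y := by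
  funext j
  simp [Fin.succAbove_last]

variable (N)

/-- The cone on the translates of a point, equivariant by freeness. -/
noncomputable def cone (e : Ω) (a b : ℕ) : E G Ω (a + 1) b →ₗ[ZMod 2] E G Ω (a + 1) (b + 1) :=
  Finsupp.linearCombination (ZMod 2) fun x =>
    single (x.1, (Fin.snoc x.2 (rho N (x.1 0) • e) : Fin (b + 1) → Ω)) 1

variable {N}

lemma cone_single (e : Ω) {a b : ℕ} (u : Fin (a + 1) → G) (y : Fin b → Ω) :
    cone N e a b (single (u, y) 1)
      = single (u, (Fin.snoc y (rho N (u 0) • e) : Fin (b + 1) → Ω)) 1 := by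
  simp [cone]

lemma q2_cone (e : Ω) {a b : ℕ} {x : E G Ω (a + 1) b} (hx : q2 N (a + 1) b x = 0) :
    q2 N (a + 1) (b + 1) (cone N e a b x) = 0 := by
  refine fac2 ((q2 N (a + 1) (b + 1)).comp (cone N e a b)) (fun g hg x => ?_) hx
  obtain ⟨u, y⟩ := x
  simp only [LinearMap.comp_apply, Prod.smul_mk, cone_single, Pi.smul_apply, smul_eq_mul,
    rho_mul hg, mul_smul, ← smul_snoc]
  exact q2_smul hg (u, _)

lemma dB_cone_zero (e : Ω) {a : ℕ} (x : E G Ω (a + 1) 0) :
    dB (a + 1) 0 (cone N e a 0 x) = x := by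
  induction x using ind1 with
  | zero => simp
  | add x y hx hy => simp [map_add, hx, hy]
  | single u =>
    obtain ⟨u, y⟩ := u
    rw [cone_single, dB_single, Fin.sum_univ_one]
    refine congrArg (fun z => single (u, z) (1 : ZMod 2)) ?_
    funext j
    exact j.elim0

lemma dB_cone_succ (e : Ω) {a b : ℕ} (x : E G Ω (a + 1) (b + 1)) :
    dB (a + 1) (b + 1) (cone N e a (b + 1) x) = x + cone N e a b (dB (a + 1) b x) := by
  induction x using ind1 with
  | zero => simp
  | add x y hx hy => simp only [map_add, hx, hy]; abel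
  | single u =>
    obtain ⟨u, y⟩ := u
    rw [cone_single, dB_single, dB_single, Fin.sum_univ_castSucc, map_sum, snoc_comp_last]
    simp only [snoc_comp_castSucc, cone_single]
    exact add_comm _ _

variable (N)

/-- Cycles in the group direction. -/
def ZA : ∀ (a b : ℕ), E G Ω a b → Prop
  | 0, _, _ => True
  | a + 1, b, x => q2 N a b (dA a b x) = 0

/-- Cycles in the point direction. -/
def ZB : ∀ (a b : ℕ), E G Ω a b → Prop
  | _, 0, _ => True
  | a, b + 1, x => q2 N a b (dB a b x) = 0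

/-- The stabiliser of a tuple of points in `N`. -/
def St {b : ℕ} (y : Fin b → Ω) : Subgroup G := N ⊓ MulAction.stabilizer G y

variable {N}

open Classical in
/-- The component over the orbit of `Y`. -/
noncomputable def part (N : Subgroup G) {b : ℕ} (Y : Fin b → Ω) (a : ℕ) :
    E G Ω a b →ₗ[ZMod 2] C G a :=
  Finsupp.linearCombination (ZMod 2) fun x =>
    if h : ∃ g ∈ N, g • x.2 = Y then single ((h.choose * ·) ∘ x.1) 1 else 0

lemma part_single {b : ℕ} (Y : Fin b → Ω) {a : ℕ} (u : Fin a → G) (y : Fin b → Ω)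
    (h : ∃ g ∈ N, g • y = Y) :
    part N Y a (single (u, y) 1) = single ((h.choose * ·) ∘ u) 1 := by
  simp [part, dif_pos h]

lemma part_single_neg {b : ℕ} (Y : Fin b → Ω) {a : ℕ} (u : Fin a → G) (y : Fin b → Ω)
    (h : ¬∃ g ∈ N, g • y = Y) : part N Y a (single (u, y) 1) = 0 := by
  simp [part, dif_neg h]

lemma D_part {b : ℕ} (Y : Fin b → Ω) {a : ℕ} (x : E G Ω (a + 1) b) :
    D G a (part N Y (a + 1) x) = part N Y a (dA a b x) := by
  induction x using ind1 with
  | zero => simp
  | add x y hx hy => simp [map_add, hx, hy]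
  | single u =>
    obtain ⟨u, y⟩ := u
    rw [dA_single, map_sum]
    by_cases h : ∃ g ∈ N, g • y = Y
    · rw [part_single Y u y h, D_single]
      refine Finset.sum_congr rfl fun i _ => ?_
      rw [part_single Y _ y h]
      rfl
    · rw [part_single_neg Y u y h, map_zero]
      exact (Finset.sum_eq_zero fun i _ => part_single_neg Y _ y h).symm

lemma q_part {b : ℕ} (Y : Fin b → Ω) {a : ℕ} {x : E G Ω a b} (hx : q2 N a b x = 0) :
    q (St N Y) a (part N Y a x) = 0 := by
  refine fac2 ((q (St N Y) a).comp (part N Y a)) (fun g hg x => ?_) hx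
  obtain ⟨u, y⟩ := x
  simp only [LinearMap.comp_apply, Prod.smul_mk]
  by_cases h : ∃ g ∈ N, g • y = Y
  · have h' : ∃ g' ∈ N, g' • g • y = Y := by
      obtain ⟨g₀, hg₀, hy⟩ := h
      exact ⟨g₀ * g⁻¹, N.mul_mem hg₀ (N.inv_mem hg), by rwa [smul_smul, inv_mul_cancel_right]⟩
    rw [part_single Y _ _ h', part_single Y u y h]
    obtain ⟨h1, h2⟩ := h.choose_spec
    obtain ⟨h1', h2'⟩ := h'.choose_spec
    have hm : h'.choose * g * h.choose⁻¹ ∈ St N Y := by
      refine ⟨N.mul_mem (N.mul_mem h1' hg) (N.inv_mem h1), ?_⟩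
      change (h'.choose * g * h.choose⁻¹) • Y = Y
      calc (h'.choose * g * h.choose⁻¹) • Y
          = (h'.choose * g * h.choose⁻¹) • h.choose • y :=
            congrArg (fun z => (h'.choose * g * h.choose⁻¹) • z) h2.symm
        _ = h'.choose • g • y := by simp [smul_smul]
        _ = Y := h2'
    rw [← q_smul_single hm a ((h.choose * ·) ∘ u)]
    congr 2
    funext i
    simp [mul_assoc]
  · have h' : ¬∃ g' ∈ N, g' • g • y = Y := fun ⟨g₀, hg₀, hy⟩ =>
      h ⟨g₀ * g, N.mul_mem hg₀ hg, by rwa [← smul_smul]⟩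
    rw [part_single_neg Y _ _ h', part_single_neg Y u y h]

lemma part_isZ {b : ℕ} (Y : Fin b → Ω) : ∀ {a : ℕ} {x : E G Ω a b}, ZA N a b x →
    IsZ (St N Y) a (part N Y a x)
  | 0, _, _ => trivial
  | a + 1, x, hx => by
    change q (St N Y) a (D G a (part N Y (a + 1) x)) = 0
    rw [D_part]
    exact q_part Y hx

lemma q2_ins {b : ℕ} (Y : Fin b → Ω) {a : ℕ} {z : C G a} (hz : q (St N Y) a z = 0) :
    q2 N a b (ins a Y z) = 0 := by
  refine fac ((q2 N a b).comp (ins a Y)) (fun g hg u => ?_) hz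
  simp only [LinearMap.comp_apply, ins_single]
  rw [← q2_smul hg.1 (u, Y)]
  congr 2
  exact Prod.ext rfl (MulAction.mem_stabilizer_iff.1 hg.2).symm

open Classical in
lemma decomp {a b : ℕ} (x : E G Ω a b) :
    ∃ T : Finset (Fin b → Ω), q2 N a b (x + ∑ Y ∈ T, ins a Y (part N Y a x)) = 0 := by
  let R : (Fin b → Ω) → (Fin b → Ω) := fun y =>
    Quotient.out (Quotient.mk (MulAction.orbitRel N (Fin b → Ω)) y)
  have hR : ∀ y, ∃ g ∈ N, g • y = R y := fun y => by
    obtain ⟨g, hg⟩ : R y ∈ MulAction.orbit N y :=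
      Quotient.mk_out (s := MulAction.orbitRel N (Fin b → Ω)) y
    exact ⟨g.1, g.2, hg⟩
  refine ⟨x.support.image fun p => R p.2, ?_⟩
  set T := x.support.image fun p => R p.2
  let L : E G Ω a b →ₗ[ZMod 2] E G Ω a b := ∑ Y ∈ T, (ins a Y).comp (part N Y a)
  have key : q2 N a b (L x) = q2 N a b x := by
    refine lin_eq_on ((q2 N a b).comp L) (q2 N a b) x fun p hp => ?_
    obtain ⟨u, y⟩ := p
    simp only [L, LinearMap.comp_apply, LinearMap.sum_apply, map_sum]
    rw [Finset.sum_eq_single (R y)]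
    · rw [part_single (R y) u y (hR y), ins_single]
      obtain ⟨h1, h2⟩ := (hR y).choose_spec
      rw [← q2_smul h1 (u, y)]
      congr 2
      exact Prod.ext rfl h2.symm
    · intro Y hY hne
      rw [part_single_neg Y u y, map_zero, map_zero]
      rintro ⟨g, hg, rfl⟩
      obtain ⟨p', -, hp'⟩ := Finset.mem_image.1 hY
      refine hne ?_
      have hout : ∀ y', R (R y') = R y' := fun y' => by simp [R, Quotient.out_eq]
      have hgy : R (g • y) = R y := by
        refine congrArg Quotient.out (Quotient.sound ?_)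
        exact ⟨⟨g, hg⟩, rfl⟩
      rw [← hgy, ← hp', hout]
    · intro h
      exact absurd (Finset.mem_image.2 ⟨(u, y), hp, rfl⟩) h
  rw [show ∑ Y ∈ T, ins a Y (part N Y a x) = L x by simp [L, LinearMap.sum_apply], map_add, key,
    add_self]

lemma col_fill {a b : ℕ} (h : ∀ Y : Fin b → Ω, SS.GroupAcyclic (St N Y) a)
    {x : E G Ω a b} (hx : ZA N a b x) : ∃ f, q2 N a b (x + dA a b f) = 0 := by
  obtain ⟨T, hT⟩ := decomp (N := N) x
  choose w hw using fun Y => isB_of_acyclic (h Y) le_rfl (part_isZ Y hx)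
  refine ⟨∑ Y ∈ T, ins (a + 1) Y (w Y), ?_⟩
  have h2 : q2 N a b (∑ Y ∈ T, ins a Y (part N Y a x + D G a (w Y))) = 0 := by
    rw [map_sum]
    exact Finset.sum_eq_zero fun Y _ => q2_ins Y (hw Y)
  simp only [map_add, Finset.sum_add_distrib, map_sum, dA_ins] at hT h2 ⊢
  rw [eq_of_add hT]
  exact h2

open Classical in
/-- The cone on generic points. -/
noncomputable def gcone (Gen : ∀ b, (Fin b → Ω) → Ω → Prop) (b : ℕ) :
    E G Ω 0 b →ₗ[ZMod 2] E G Ω 0 (b + 1) :=
  Finsupp.linearCombination (ZMod 2) fun x =>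
    if h : ∃ v, Gen b x.2 v then single (x.1, (Fin.snoc x.2 h.choose : Fin (b + 1) → Ω)) 1 else 0

/-- The data of generic cone points. -/
structure GenData (N : Subgroup G) (Gen : ∀ b, (Fin b → Ω) → Ω → Prop) : Prop where
  smul : ∀ g ∈ N, ∀ b y v, Gen b y v → Gen b (g • y) (g • v)
  face : ∀ b (y : Fin (b + 1) → Ω) v i, Gen (b + 1) y v → Gen b (y ∘ Fin.succAbove i) v

/-- The stabiliser acts transitively on generic points. -/
def GenTrans (N : Subgroup G) (Gen : ∀ b, (Fin b → Ω) → Ω → Prop) (b : ℕ) : Prop :=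
  ∀ y v v', Gen b y v → Gen b y v' → ∃ g ∈ N, g • y = y ∧ g • v = v'

lemma gcone_fill {Gen : ∀ b, (Fin b → Ω) → Ω → Prop} (hG : GenData N Gen) {b : ℕ}
    (htr : GenTrans N Gen b) {x : E G Ω 0 (b + 1)}
    (hex : ∀ p ∈ x.support, ∃ v, Gen (b + 1) p.2 v)
    (hx : q2 N 0 b (dB 0 b x) = 0) :
    q2 N 0 (b + 1) (x + dB 0 (b + 1) (gcone Gen (b + 1) x)) = 0 := by
  have hL : q2 N 0 (b + 1) (gcone Gen b (dB 0 b x)) = 0 := by
    refine fac2 ((q2 N 0 (b + 1)).comp (gcone Gen b)) (fun g hg p => ?_) hx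
    obtain ⟨u, y⟩ := p
    simp only [LinearMap.comp_apply, gcone, Prod.smul_mk, Finsupp.linearCombination_single,
      one_smul]
    by_cases h : ∃ v, Gen b y v
    · have h' : ∃ v, Gen b (g • y) v := ⟨_, hG.smul g hg b y _ h.choose_spec⟩
      rw [dif_pos h', dif_pos h]
      obtain ⟨k, hk, hky, hkv⟩ := htr _ _ _ (hG.smul g hg b y _ h.choose_spec) h'.choose_spec
      rw [← q2_smul (N.mul_mem hk hg) (u, (Fin.snoc y h.choose : Fin (b + 1) → Ω))]
      congr 2
      refine Prod.ext (Subsingleton.elim _ _) ?_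
      change _ = (k * g) • (Fin.snoc y h.choose : Fin (b + 1) → Ω)
      rw [smul_snoc, mul_smul, mul_smul, hky, hkv]
    · have h' : ¬∃ v, Gen b (g • y) v := by
        rintro ⟨v, hv⟩
        have := hG.smul g⁻¹ (N.inv_mem hg) b _ _ hv
        rw [inv_smul_smul] at this
        exact h ⟨_, this⟩
      rw [dif_neg h', dif_neg h]
  have key : q2 N 0 (b + 1) (dB 0 (b + 1) (gcone Gen (b + 1) x))
      = q2 N 0 (b + 1) (x + gcone Gen b (dB 0 b x)) := by
    refine lin_eq_on ((q2 N 0 (b + 1)).comp ((dB 0 (b + 1)).comp (gcone Gen (b + 1))))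
      ((q2 N 0 (b + 1)).comp (LinearMap.id + (gcone Gen b).comp (dB 0 b))) x fun p hp => ?_
    obtain ⟨u, y⟩ := p
    have h : ∃ v, Gen (b + 1) y v := hex _ hp
    simp only [LinearMap.comp_apply, LinearMap.add_apply, LinearMap.id_apply, dB_single, map_sum,
      map_add]
    rw [show gcone Gen (b + 1) (single (u, y) 1)
        = single (u, (Fin.snoc y h.choose : Fin (b + 2) → Ω)) 1 by simp [gcone, dif_pos h],
      dB_single, map_sum, Fin.sum_univ_castSucc, snoc_comp_last]
    refine (add_comm _ _).trans (congrArg₂ (· + ·) rfl ?_)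
    refine Finset.sum_congr rfl fun i _ => ?_
    have hi : Gen b (y ∘ i.succAbove) h.choose := hG.face b y _ i h.choose_spec
    have h' : ∃ v, Gen b (y ∘ i.succAbove) v := ⟨_, hi⟩
    rw [snoc_comp_castSucc, show gcone Gen b (single (u, y ∘ i.succAbove) 1)
      = single (u, (Fin.snoc (y ∘ i.succAbove) h'.choose : Fin (b + 1) → Ω)) 1 by
        simp [gcone, dif_pos h']]
    obtain ⟨k, hk, hky, hkv⟩ := htr _ _ _ hi h'.choose_spec
    rw [← q2_smul hk (u, (Fin.snoc (y ∘ i.succAbove) h.choose : Fin (b + 1) → Ω))]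
    congr 2
    refine Prod.ext (Subsingleton.elim _ _) ?_
    change k • (Fin.snoc (y ∘ i.succAbove) h.choose : Fin (b + 1) → Ω) = _
    rw [smul_snoc, hky, hkv]
  rw [map_add, key, map_add, hL, add_zero, add_self]

/-- The zigzag. -/
theorem zigzag (o : ℕ → Ω) {n : ℕ} {Gen : ∀ b, (Fin b → Ω) → Ω → Prop} (hG : GenData N Gen)
    (htr : GenTrans N Gen n)
    (hex : ∀ y : Fin (n + 1) → Ω, (∀ i, ∃ g ∈ N, y i = g • o i) → ∃ v, Gen (n + 1) y v)
    (hcol : ∀ b, 2 ≤ b → b ≤ n + 2 → ∀ Y : Fin b → Ω, SS.GroupAcyclic (St N Y) n) :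
    ∀ a b, a + b = n + 1 → ∀ x : E G Ω a b,
      (∀ p ∈ x.support, ∀ i, ∃ g ∈ N, p.2 i = g • o i) → ZA N a b x → ZB N a b x →
      ∃ w, ZA N a (b + 1) w ∧ q2 N a b (x + dB a b w) = 0 := by
  intro a
  induction a with
  | zero =>
    intro b hb x hx _ hzb
    obtain rfl : b = n + 1 := by omega
    exact ⟨gcone Gen (n + 1) x, trivial, gcone_fill hG htr (fun p hp => hex _ (hx p hp)) hzb⟩
  | succ a ih =>
    intro b hb x hx hza hzb
    set c := cone N (o b) a b x with hc
    have hxc : q2 N (a + 1) b (x + dB (a + 1) b c) = 0 := by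
      cases b with
      | zero => rw [hc, dB_cone_zero, add_self, map_zero]
      | succ b => rw [hc, dB_cone_succ, ← add_assoc, add_self, zero_add]; exact q2_cone _ hzb
    set e := dA a (b + 1) c with he
    have hea : ZA N a (b + 1) e := by
      cases a with
      | zero => trivial
      | succ a => rw [ZA, he, dA_dA, map_zero]
    have heb : ZB N a (b + 1) e := by
      have := q2_dA hxc
      rw [map_add, map_add, show q2 N a b (dA a b x) = 0 from hza, zero_add, dA_dB] at this
      exact this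
    have hex' : ∀ p ∈ e.support, ∀ i, ∃ g ∈ N, p.2 i = g • o i := by
      intro p hp i
      obtain ⟨⟨u, y⟩, hu, hp⟩ := exists_mem_support _ _ hp
      obtain ⟨⟨u', y'⟩, hu', hu⟩ := exists_mem_support _ _ hu
      have h1 := Finsupp.support_single_subset hu
      rw [Finset.mem_singleton, Prod.mk.injEq] at h1
      classical
      have h2 := Finsupp.mapDomain_support hp
      obtain ⟨u'', -, rfl⟩ := Finset.mem_image.1 h2
      dsimp only
      rw [h1.2]
      induction i using Fin.lastCases with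
      | last => exact ⟨rho N (u' 0), rho_mem N _, by simp⟩
      | cast i => simpa using hx _ hu' i
    obtain ⟨w', hwa, hw'⟩ := ih (b + 1) (by omega) e hex' hea heb
    obtain ⟨f, hf⟩ := col_fill
      (fun Y => acyclic_mono (hcol (b + 1 + 1) (by omega) (by omega) Y) (by omega : a ≤ n)) hwa
    refine ⟨c + dB (a + 1) (b + 1) f, ?_, ?_⟩
    · change q2 N a (b + 1) (dA a (b + 1) (c + dB (a + 1) (b + 1) f)) = 0
      have h2 := q2_dB hf
      rw [map_add, dA_dB, map_add]
      rw [map_add, map_add] at h2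
      rw [map_add] at hw'
      rw [eq_of_add hw']
      exact h2
    · rw [map_add (dB (a + 1) b), dB_dB, add_zero]
      exact hxc

/-- Forgetting the points. -/
noncomputable def forget (a b : ℕ) : E G Ω a b →ₗ[ZMod 2] C G a :=
  Finsupp.lmapDomain (ZMod 2) (ZMod 2) Prod.fst

lemma q_forget {a b : ℕ} {x : E G Ω a b} (hx : q2 N a b x = 0) :
    q N a (forget a b x) = 0 := by
  refine fac2 ((q N a).comp (forget a b)) (fun g hg p => ?_) hx
  simp only [LinearMap.comp_apply, forget, Finsupp.lmapDomain_apply, Finsupp.mapDomain_single]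
  exact q_smul_single hg a p.1

omit [Group G] [MulAction G Ω] in
lemma forget_ins {a b : ℕ} (Y : Fin b → Ω) (z : C G a) : forget a b (ins a Y z) = z := by
  simp only [forget, ins, Finsupp.lmapDomain_apply, ← Finsupp.mapDomain_comp]
  exact Finsupp.mapDomain_id

lemma forget_dB {a : ℕ} (x : E G Ω a 1) : forget a 0 (dB a 0 x) = forget a 1 x := by
  induction x using ind1 with
  | zero => simp
  | add x y hx hy => simp [map_add, hx, hy]
  | single u =>
    obtain ⟨u, y⟩ := u
    simp [dB_single, forget]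

/-- Every class of `N` is fixed by translations if those of the stabilisers of points are. -/
theorem classes_fixed [hN : N.Normal] (o : ℕ → Ω) {n : ℕ}
    {Gen : ∀ b, (Fin b → Ω) → Ω → Prop} (hG : GenData N Gen) (htr : GenTrans N Gen n)
    (hex : ∀ y : Fin (n + 1) → Ω, (∀ i, ∃ g ∈ N, y i = g • o i) → ∃ v, Gen (n + 1) y v)
    (hcol : ∀ b, 2 ≤ b → b ≤ n + 2 → ∀ Y : Fin b → Ω, SS.GroupAcyclic (St N Y) n)
    (hfix : ∀ Y : Fin 1 → Ω, ∀ z, IsZ (St N Y) (n + 1) z → ∀ g : G,
      IsB N (n + 1) (tr g (n + 1) z + z))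
    {z : C G (n + 1)} (hz : IsZ N (n + 1) z) (g : G) : IsB N (n + 1) (tr g (n + 1) z + z) := by
  let y₀ : Fin 0 → Ω := Fin.elim0
  have hza : ZA N (n + 1) 0 (ins (n + 1) y₀ z) := by
    change q2 N n 0 (dA n 0 (ins (n + 1) y₀ z)) = 0
    rw [dA_ins]
    refine fac ((q2 N n 0).comp (ins n y₀)) (fun g hg u => ?_) hz
    simp only [LinearMap.comp_apply, ins_single]
    rw [← q2_smul hg (u, y₀)]
    congr 2
    exact Prod.ext rfl (Subsingleton.elim _ _)
  obtain ⟨w, hwa, hw⟩ := zigzag o hG htr hex hcol (n + 1) 0 rfl (ins (n + 1) y₀ z)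
    (fun p _ i => i.elim0) hza trivial
  obtain ⟨T, hT⟩ := decomp (N := N) w
  set S := ∑ Y ∈ T, part N Y (n + 1) w with hS
  have h1 := q_forget hw
  have h2 := q_forget hT
  simp only [map_add, map_sum, forget_ins, forget_dB] at h1 h2
  have hzS : q N (n + 1) (z + S) = 0 := by
    rw [hS, map_add, map_sum, eq_of_add h1, h2]
  have hb : IsB N (n + 1) (z + S) := IsB.of_q hzS
  have hgb : IsB N (n + 1) (tr g (n + 1) z + tr g (n + 1) S) := by
    have := (Tw.left (H := N) (H' := N) (fun h hh => hN.conj_mem h hh g)).isB hb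
    rwa [← tr_eq_F, map_add] at this
  have hgS : IsB N (n + 1) (tr g (n + 1) S + S) := by
    rw [hS, map_sum, ← Finset.sum_add_distrib]
    exact Finset.sum_induction _ _ (fun _ _ => IsB.add) (IsB.zero N _)
      fun Y _ => hfix Y _ (part_isZ Y hwa) g
  exact (hgb.trans hgS).trans hb.symm

end Vale.Agent.P067.Full.Stab
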