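import Vale.Agent.P067.Full.StabDouble
import Vale.Agent.P067.Full.StabBlock
import Vale.Agent.P067.Full.Statements

/-!
Vanishing of the mod 2 homology of the congruence subgroups `Nm` in the stable range, given
that of the groups `Gam0`: every class comes from the block of rank one less, on which the whole
group acts trivially, and `Gam0 / Nm` is a finite group of odd order.
-/

namespace Vale.Agent.P067.Full.Stab

open Matrix Polynomial

variable {p r : ℕ}

instance Nm_normal (m : ℕ) : (Nm p r m).Normal := MonoidHom.normal_ker _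

/-- The nonzero vectors. -/
abbrev NZ (p r : ℕ) : Type := {v : Vec p r // v ≠ 0}

noncomputable instance : MulAction (SL p r) (NZ p r) where
  smul g v := ⟨g • v.1, fun h => v.2 (by rw [← inv_smul_smul g v.1, h, smulV_zero])⟩
  one_smul v := Subtype.ext (one_smul _ v.1)
  mul_smul g h v := Subtype.ext (mul_smul g h v.1)

lemma NZ_smul (g : SL p r) (v : NZ p r) : (g • v).1 = g • v.1 := rfl

lemma mem_St {N : Subgroup (SL p r)} {b : ℕ} {Y : Fin b → NZ p r} {x : SL p r} :
    x ∈ St N Y ↔ x ∈ N ∧ ∀ i, x • (Y i).1 = (Y i).1 := by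
  constructor
  · rintro ⟨h1, h2⟩
    exact ⟨h1, fun i => congrArg Subtype.val (congrFun (MulAction.mem_stabilizer_iff.1 h2) i)⟩
  · rintro ⟨h1, h2⟩
    exact ⟨h1, MulAction.mem_stabilizer_iff.2 (funext fun i => Subtype.ext (h2 i))⟩

lemma tr_isB {m k : ℕ} {z : C (SL p r) k} (g : SL p r) (hz : IsB (Nm p r m) k z) :
    IsB (Nm p r m) k (tr g k z) := by
  rw [tr_eq_F]
  exact (Tw.left (fun h hh => (Nm_normal m).conj_mem h hh g)).isB hz

variable [Fact p.Prime]

/-- The stabiliser of a tuple of vectors is conjugate to the fixer of standard basis vectors. -/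
lemma St_conj (m : ℕ) {b : ℕ} (Y : Fin b → NZ p r) :
    ∃ (g : SL p r) (s : ℕ), s ≤ b ∧ s ≤ r ∧ (s = 0 → b = 0) ∧
      (Nm p r m ⊓ FixC p r s).map (MulAut.conj g⁻¹).toMonoidHom = St (Nm p r m) Y := by
  obtain ⟨g, -, s, hsb, hsr, hzero, hfix⟩ := echelon b fun i => (Y i).1
  refine ⟨g, s, hsb, hsr, fun hs => ?_, ?_⟩
  · by_contra hb
    refine (Y ⟨0, by omega⟩).2 ?_
    have h : g • (Y ⟨0, by omega⟩).1 = 0 := funext fun l => hzero _ l (by omega)
    rw [← inv_smul_smul g (Y ⟨0, by omega⟩).1, h, smulV_zero]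
  · ext x
    simp only [Subgroup.mem_map, MulEquiv.coe_toMonoidHom, MulAut.conj_apply, inv_inv, mem_St]
    constructor
    · rintro ⟨x', ⟨hN, hC⟩, rfl⟩
      refine ⟨by simpa using (Nm_normal m).conj_mem x' hN g⁻¹, fun i => ?_⟩
      rw [mul_smul, mul_smul, fix_of hC (hzero i), inv_smul_smul]
    · rintro ⟨hN, hY⟩
      exact ⟨g * x * g⁻¹, ⟨(Nm_normal m).conj_mem x hN g, hfix x hY⟩, by group⟩

lemma T_rel {a b c0 : Fin r} (hab : a ≠ b) (ha : a ≠ c0) (hb : c0 ≠ b) (c : (ZMod p)[X]) :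
    T hab c = T ha c * T hb 1 * T ha (-c) * T hb (-1) := by
  refine Subtype.ext (Matrix.ext fun i j => ?_)
  rw [← smul_bv, ← smul_bv, mul_smul, mul_smul, mul_smul]
  by_cases hia : i = a
  · subst hia
    simp [T_smul, hab.symm, ha, ha.symm, hb.symm]
    ring
  · by_cases hi0 : i = c0
    · subst hi0
      simp [T_smul, hia, hab.symm, hb.symm]
    · simp [T_smul, hia, hi0]

/-- The whole group fixes the classes of the block of rank `r - 1`. -/
lemma block_fixed (hp : p ≠ 2) (hr : 2 ≤ r) (m k : ℕ) {z : C (SL p r) k}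
    (hz : IsZ (Nm p r m ⊓ (FixC p r 1 ⊓ FixR p r 1)) k z) (g : SL p r) :
    IsB (Nm p r m) k (tr g k z + z) := by
  let c0 : Fin r := ⟨0, by omega⟩
  have h0 : ∀ (a b : Fin r) (h : a ≠ b) (c : (ZMod p)[X]), a = c0 ∨ b = c0 →
      IsB (Nm p r m) k (tr (T h c) k z + z) := by
    intro a b h c hor
    have hval : blk 1 (T h c).1 = 1 := by
      refine Matrix.ext fun i j => ?_
      by_cases hij : (i : ℕ) < 1 ∨ (j : ℕ) < 1
      · rw [blk_low _ hij]
      · push Not at hij
        rw [blk_high _ hij.1 hij.2, T_apply, if_neg, add_zero]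
        rintro ⟨rfl, rfl⟩
        rcases hor with rfl | rfl
        · exact absurd hij.1 (by simp [c0])
        · exact absurd hij.2 (by simp [c0])
    obtain ⟨Fx, hFx, hT⟩ : ∃ Fx, (Fx = FixC p r 1 ∨ Fx = FixR p r 1) ∧ T h c ∈ Fx := by
      rcases hor with rfl | rfl
      · refine ⟨_, Or.inl rfl, mem_FixC fun i l hl => ?_⟩
        rw [T_apply, if_neg, add_zero]
        rintro ⟨-, rfl⟩
        exact h (Fin.ext (by simp only [c0]; omega))
      · refine ⟨_, Or.inr rfl, mem_FixR fun l j hl => ?_⟩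
        rw [T_apply, if_neg, add_zero]
        rintro ⟨rfl, -⟩
        exact h (Fin.ext (by simp only [c0]; omega))
    have hor' : ∀ {x}, x ∈ Fx → x ∈ FixC p r 1 ∨ x ∈ FixR p r 1 := fun hx => by
      rcases hFx with rfl | rfl
      · exact Or.inl hx
      · exact Or.inr hx
    have hmul : ∀ {x y}, x ∈ Fx → y ∈ Fx → blkSL 1 (x * y) = blkSL 1 x * blkSL 1 y :=
      fun hx hy => blkSL_mul (by
        rcases hFx with rfl | rfl
        · exact Or.inl ⟨hx, hy⟩
        · exact Or.inr ⟨hx, hy⟩)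
    refine (ret_blk hp 1 m hFx).fixes inf_le_left (x := T h c) (fun x hx => ?_) hz
    have hxF : x ∈ Fx := by
      rcases hFx with rfl | rfl
      · exact hx.2.1
      · exact hx.2.2
    refine ⟨⟨(Nm_normal m).conj_mem x hx.1 _, Fx.mul_mem (Fx.mul_mem hT hxF) (Fx.inv_mem hT)⟩, ?_⟩
    have hb1 : blkSL 1 (T h c) = 1 :=
      Subtype.ext (by rw [blkSL_val (hor' hT), hval, Matrix.SpecialLinearGroup.coe_one])
    have hb2 : blkSL 1 (T h c)⁻¹ = 1 := by
      have h1 := hmul hT (inv_mem hT)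
      rwa [mul_inv_cancel, hb1, one_mul, blkSL_fix (one_mem _), eq_comm] at h1
    rw [hmul (mul_mem hT hxF) (inv_mem hT), hmul hT hxF, hb1, hb2, one_mul, mul_one,
      blkSL_fix hx.2]
  have hcomp : ∀ {x y : SL p r}, IsB (Nm p r m) k (tr x k z + z) →
      IsB (Nm p r m) k (tr y k z + z) → IsB (Nm p r m) k (tr (x * y) k z + z) := by
    intro x y hx hy
    have := tr_isB x hy
    rw [map_add, tr_tr] at this
    exact this.trans hx
  have hg := mem_Ek g
  induction hg using Subgroup.closure_induction with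
  | mem x hx =>
    obtain ⟨a, b, h, c, -, -, rfl⟩ := hx
    by_cases hor : a = c0 ∨ b = c0
    · exact h0 a b h c hor
    · push Not at hor
      rw [T_rel h hor.1 hor.2.symm c]
      exact hcomp (hcomp (hcomp (h0 _ _ _ _ (Or.inr rfl)) (h0 _ _ _ _ (Or.inl rfl)))
        (h0 _ _ _ _ (Or.inr rfl))) (h0 _ _ _ _ (Or.inl rfl))
  | one => rw [tr_one, add_self]; exact IsB.zero _ _
  | mul x y _ _ hx hy => exact hcomp hx hy
  | inv x _ hx =>
    have := tr_isB x⁻¹ hx
    rw [map_add, tr_tr, inv_mul_cancel, tr_one] at this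
    exact this.symm

variable [NeZero r]

/-- The base points of the zigzag. -/
noncomputable def pts (p r : ℕ) [NeZero r] [Fact p.Prime] (i : ℕ) : NZ p r :=
  ⟨bv (Fin.ofNat r i), fun h => by
    have := congrFun h (Fin.ofNat r i)
    simp [bv] at this⟩

/-- All classes of `Nm` are fixed by the whole group. -/
lemma all_fixed (hp : p ≠ 2) {m n : ℕ} (hm : 1 ≤ m) (hn : n + 3 < r)
    (hacy : ∀ s, s ≤ n + 2 → SS.GroupAcyclic (Nm p (r - s) m) n)
    {z : C (SL p r) (n + 1)} (hz : IsZ (Nm p r m) (n + 1) z) (g : SL p r) :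
    IsB (Nm p r m) (n + 1) (tr g (n + 1) z + z) := by
  let K : Fin r := ⟨n + 1, by omega⟩
  refine classes_fixed (pts p r)
    (Gen := fun b y v => Generic m K (fun i : Fin b => (y i).1) v.1) ?_ ?_ ?_ ?_ ?_ hz g
  · refine ⟨fun g hg b y v h => generic_smul h hg, fun b y v i h => ?_⟩
    obtain ⟨h1, φ, h2, h3⟩ := h
    exact ⟨h1, φ, h2, fun l => h3 _⟩
  · intro y v v' h h'
    obtain ⟨x, hx, hy, hv⟩ := generic_trans (by omega) h h'
    exact ⟨x, hx, funext fun i => Subtype.ext (hy i), Subtype.ext hv⟩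
  · intro y hy
    obtain ⟨v, hv⟩ := generic_exists hm (by omega : n + 1 + 1 < r) (fun i => (y i).1)
      fun i l => by
        obtain ⟨x, hx, hyi⟩ := hy i
        have h : (Fin.ofNat r (i : ℕ)) = ⟨(i : ℕ), by omega⟩ := by
          refine Fin.ext ?_
          simp [Fin.ofNat, Nat.mod_eq_of_lt (show (i : ℕ) < r by omega)]
        rw [hyi, NZ_smul, show (pts p r (i : ℕ)).1 = bv ⟨(i : ℕ), by omega⟩ from congrArg bv h]
        exact Nm_dvd hx _ l
    refine ⟨⟨v, fun h0 => ?_⟩, hv⟩
    obtain ⟨φ, hφ, -⟩ := hv.2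
    rw [h0, dotProduct_zero] at hφ
    exact zero_ne_one hφ
  · intro b _ hb Y
    obtain ⟨x, s, hsb, hsr, -, hx⟩ := St_conj m Y
    rw [← hx]
    exact acyclic_map _ (MulEquiv.injective _)
      (fixC_acyclic hp (n := r - s) (by omega) (hacy s (by omega)))
  · intro Y z hz g
    obtain ⟨x, s, hs1, -, hs0, hx⟩ := St_conj m Y
    obtain rfl : s = 1 := by
      rcases Nat.eq_zero_or_pos s with h | h
      · exact absurd (hs0 h) one_ne_zero
      · omega
    have hc : ∀ w ∈ St (Nm p r m) Y, x * w * x⁻¹ ∈ Nm p r m ⊓ FixC p r 1 := fun w hw => by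
      rw [← hx] at hw
      obtain ⟨w', hw', rfl⟩ := Subgroup.mem_map.1 hw
      simpa [mul_assoc] using hw'
    have hz' := (Tw.left hc).isZ hz
    rw [← tr_eq_F] at hz'
    obtain ⟨h1, h2⟩ := (ret_blk hp 1 m (Or.inl rfl)).main hz'
    have h2N := h2.mono (inf_le_left : Nm p r m ⊓ FixC p r 1 ≤ Nm p r m)
    have hfix : ∀ h : SL p r, IsB (Nm p r m) (n + 1)
        (tr h (n + 1) (tr x (n + 1) z) + tr x (n + 1) z) := fun h => by
      have h3 := tr_isB h h2N
      rw [map_add] at h3
      exact (h3.trans (block_fixed hp (by omega) m _ h1 h)).trans h2N.symm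
    have h4 := (hfix (g * x⁻¹)).trans (hfix x⁻¹).symm
    rwa [tr_tr, tr_tr, inv_mul_cancel_right, inv_mul_cancel, tr_one] at h4

omit [NeZero r] in
lemma Nm_le_Gam0 {m : ℕ} (hm : 1 ≤ m) : Nm p r m ≤ Gam0 p r := by
  intro g hg
  have h : ∀ i j, (g.1 i j).eval 0 = (1 : Matrix (Fin r) (Fin r) (ZMod p)) i j := fun i j => by
    obtain ⟨c, hc⟩ := mem_Nm.1 hg i j
    have := congrArg (Polynomial.eval 0) hc
    rw [eval_sub, eval_mul, eval_pow, eval_X, zero_pow (by omega : m ≠ 0), zero_mul,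
      sub_eq_zero] at this
    rw [this, Matrix.one_apply, Matrix.one_apply]
    split_ifs <;> simp
  refine ⟨fun i j hij => ?_, fun i => ?_⟩
  · exact (h i j).trans (Matrix.one_apply_ne hij.ne)
  · exact (h i i).trans (Matrix.one_apply_eq i)

omit [NeZero r] in
lemma unip_pow {g : SL p r} (hg : g ∈ Gam0 p r) : ∀ i j, X ∣ ((g.1 - 1) ^ r) i j := by
  intro i j
  have hU : ∀ (k : ℕ) (i j : Fin r), (i : ℕ) < (j : ℕ) + k →
      (((Polynomial.evalRingHom (0 : ZMod p)).mapMatrix (g.1 - 1)) ^ k) i j = 0 := by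
    intro k
    induction k with
    | zero =>
      intro i j h
      rw [pow_zero, Matrix.one_apply_ne]
      rintro rfl
      omega
    | succ k ih =>
      intro i j h
      rw [pow_succ, Matrix.mul_apply]
      refine Finset.sum_eq_zero fun l _ => ?_
      by_cases hl : (i : ℕ) < (l : ℕ) + k
      · rw [ih i l hl, zero_mul]
      · have hlj : l ≤ j := by rw [Fin.le_def]; omega
        have h0 : ((Polynomial.evalRingHom (0 : ZMod p)).mapMatrix (g.1 - 1)) l j = 0 := by
          rw [map_sub, map_one, Matrix.sub_apply, sub_eq_zero]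
          rcases eq_or_lt_of_le hlj with h' | h'
          · subst h'
            rw [Matrix.one_apply_eq]
            exact hg.2 l
          · rw [Matrix.one_apply_ne h'.ne]
            exact hg.1 l j h'
        rw [h0, mul_zero]
  have h := hU r i j (by omega)
  rw [← map_pow, RingHom.mapMatrix_apply, Matrix.map_apply, coe_evalRingHom] at h
  rw [Polynomial.X_dvd_iff, Polynomial.coeff_zero_eq_eval_zero]
  exact h

lemma pow_mem_Nm {g : SL p r} (hg : g ∈ Gam0 p r) (m : ℕ) : ∃ e, g ^ p ^ e ∈ Nm p r m := by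
  refine ⟨r * m, mem_Nm.2 fun i j => ?_⟩
  have : Nonempty (Fin r) := ⟨0⟩
  have : ExpChar (Matrix (Fin r) (Fin r) (ZMod p)[X]) p := ExpChar.prime Fact.out
  rw [Matrix.SpecialLinearGroup.coe_pow,
    show (g.1 ^ p ^ (r * m)) i j - (1 : Matrix (Fin r) (Fin r) (ZMod p)[X]) i j
      = ((g.1 - 1) ^ p ^ (r * m)) i j by
      rw [sub_pow_expChar_pow_of_commute _ _ (Commute.one_right g.1), one_pow, Matrix.sub_apply]]
  obtain ⟨e, he⟩ := Nat.exists_eq_add_of_le
    (Nat.lt_pow_self (Fact.out : p.Prime).one_lt (n := r * m)).le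
  choose Y hY using unip_pow hg
  have hpow : (g.1 - 1) ^ r = (X : (ZMod p)[X]) • Matrix.of Y := by
    refine Matrix.ext fun i j => ?_
    rw [hY i j]
    simp
  rw [he, pow_add, pow_mul, hpow, _root_.smul_pow, smul_mul_assoc, Matrix.smul_apply, smul_eq_mul]
  exact dvd_mul_right _ _

/-- Vanishing in degree at most `k`, in the range `r ≥ d + 4 + (k + 1) ^ 2`. -/
theorem vanish_aux {d : ℕ} (hp : p ≠ 2) {R : ℕ}
    (hGam : ∀ (s : ℕ) [NeZero s], d + 4 ≤ s → s ≤ R → SS.GroupAcyclic (Gam0 p s) d) :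
    ∀ k ≤ d, ∀ r, d + 4 + (k + 1) ^ 2 ≤ r → r ≤ R → ∀ m, 1 ≤ m →
      SS.GroupAcyclic (Nm p r m) k := by
  intro k
  induction k with
  | zero =>
    intro _ r _ _ m _
    refine acyclic_of_isB fun j hj z _ => ?_
    obtain rfl : j = 0 := by omega
    refine ⟨cons 0 (Finsupp.single (1 : SL p r) 1) z, ?_⟩
    rw [D_cons_zero, show eps (SL p r) (Finsupp.single (1 : SL p r) (1 : ZMod 2)) = 1 by
      simp [eps], one_smul, add_self, map_zero]
  | succ k ih =>
    intro hk r hr hR m hm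
    have hsq : (k + 1 + 1) ^ 2 = (k + 1) ^ 2 + (2 * k + 3) := by ring
    have h4 : 4 ≤ (k + 1 + 1) ^ 2 := by
      calc 4 = 2 ^ 2 := rfl
        _ ≤ _ := Nat.pow_le_pow_left (by omega) 2
    have : NeZero r := ⟨by omega⟩
    set f := Matrix.SpecialLinearGroup.map (n := Fin r)
      (Ideal.Quotient.mk (Ideal.span {(X : (ZMod p)[X]) ^ m}))
    have : Finite ((ZMod p)[X] ⧸ Ideal.span {(X : (ZMod p)[X]) ^ m}) := by
      have := (Polynomial.monic_X_pow (R := ZMod p) m).finite_quotient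
      exact Module.finite_of_finite (ZMod p)
    have : (Nm p r m).FiniteIndex := Subgroup.finiteIndex_ker f
    have : Finite (Gam0 p r ⧸ (Nm p r m).subgroupOf (Gam0 p r)) :=
      Subgroup.finite_quotient_of_finiteIndex
    have hP : IsPGroup p (Gam0 p r ⧸ (Nm p r m).subgroupOf (Gam0 p r)) := fun c => by
      induction c using QuotientGroup.induction_on with
      | _ h =>
        obtain ⟨e, he⟩ := pow_mem_Nm h.2 m
        refine ⟨e, ?_⟩
        rw [← QuotientGroup.mk_pow, QuotientGroup.eq_one_iff, Subgroup.mem_subgroupOf]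
        simpa using he
    obtain ⟨n, hn⟩ := IsPGroup.iff_card.1 hP
    refine acyclic_of_trivial (Nm_le_Gam0 hm) ?_
      (acyclic_mono (hGam r (by omega) hR) hk) fun g _ j hj z hz => ?_
    · rw [hn]
      exact ((Fact.out : p.Prime).odd_of_ne_two hp).pow
    · rcases eq_or_lt_of_le hj with rfl | hj'
      · exact all_fixed hp hm (by omega)
          (fun s hs => ih (by omega) (r - s) (by omega) (by omega) m hm) hz g
      · refine isB_of_acyclic (ih (by omega) r (by omega) hR m hm) (Nat.lt_succ_iff.1 hj') ?_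
        refine IsZ.add ?_ hz
        rw [tr_eq_F]
        exact (Tw.left (fun h hh => (Nm_normal m).conj_mem h hh g)).isZ hz

end Vale.Agent.P067.Full.Stab

namespace Vale.Agent.P067.Full

/-- Module E: vanishing for congruence subgroups in the stable range. -/
theorem stabVanish : StabVanish := fun d =>
  ⟨d + 4 + (d + 1) ^ 2, fun _ r _ _ hp hr hGam m hm =>
    Stab.vanish_aux hp (R := r) hGam d le_rfl r hr le_rfl m hm⟩

end Vale.Agent.P067.Full
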